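import Vale.Agent.P073.GB200.Inputs

/-!
# P073, H341: cutting conical balls along proper sheets, matching of the two sides
-/

set_option linter.unusedSectionVars false

open Set Metric Topology Filter

namespace P073.H341

open P073 P073.H339

variable {E F : Type*} [NormedAddCommGroup E] [NormedSpace ℝ E]
  [NormedAddCommGroup F] [NormedSpace ℝ F]

/-- `D` is a proper sheet cutting the ball `C` (boundary `B`) into two balls `C₁`, `C₂` -/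
structure Cut (n : ℕ) (C B D B₁ B₂ C₁ C₂ : Set E) : Prop where
  hC : ConBall (n + 1) C B
  hD : ConBall n D (D ∩ B)
  hDC : D ⊆ C
  hB : B₁ ∪ B₂ = B
  hBi : B₁ ∩ B₂ = D ∩ B
  hB₁ : ConBall n B₁ (D ∩ B)
  hB₂ : ConBall n B₂ (D ∩ B)
  hC₁ : ConBall (n + 1) C₁ (B₁ ∪ D)
  hC₂ : ConBall (n + 1) C₂ (B₂ ∪ D)
  hCu : C₁ ∪ C₂ = C
  hCi : C₁ ∩ C₂ = D

/-- every proper sheet of dimension `n` cuts -/
def CutP (n : ℕ) (E : Type*) [NormedAddCommGroup E] [NormedSpace ℝ E] : Prop :=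
  ∀ C B D : Set E, ConBall (n + 1) C B → ConBall n D (D ∩ B) → D ⊆ C →
    ∃ B₁ B₂ C₁ C₂ : Set E, Cut n C B D B₁ B₂ C₁ C₂

theorem _root_.P073.ConBall.not_subset_bdry {n : ℕ} {C B : Set E} (h : ConBall n C B) :
    (C \ B).Nonempty := by
  obtain ⟨hBC, φ, hφ⟩ := h
  refine ⟨φ.invFun 0, φ.mapsTo_inv (mem_closedBall_self zero_le_one), fun hB => ?_⟩
  have h1 : φ.toFun (φ.invFun 0) ∈ sphere (0 : Fin n → ℝ) 1 := hφ ▸ mem_image_of_mem _ hB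
  rw [φ.right_inv (mem_closedBall_self zero_le_one)] at h1
  simp at h1

theorem _root_.P073.ConBall.nonempty' {n : ℕ} {C B : Set E} (h : ConBall n C B) :
    C.Nonempty := h.not_subset_bdry.mono Set.sdiff_subset

theorem _root_.P073.ConBall.bdry_nonempty' {n : ℕ} {C B : Set E} (h : ConBall (n + 1) C B) :
    B.Nonempty := by
  obtain ⟨ψ⟩ := h.conSphere
  have hne : (sphere (0 : Fin (n + 1) → ℝ) 1).Nonempty :=
    NormedSpace.sphere_nonempty.2 zero_le_one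
  obtain ⟨x, hx⟩ := hne
  exact ⟨ψ.invFun x, ψ.mapsTo_inv hx⟩

theorem _root_.P073.ConBall.isPreconnected' {n : ℕ} {C B : Set E} (h : ConBall n C B) :
    IsPreconnected C :=
  GB200.preconn_between h Set.sdiff_subset Subset.rfl

/-- a point in an arc cuts it -/
theorem cutP_zero : CutP 0 E := by
  intro C B D hC hD hDC
  -- `D` is a point
  obtain ⟨p, hp⟩ : ∃ p, D = {p} := by
    obtain ⟨_, φ, _⟩ := hD
    refine ⟨φ.invFun 0, Subset.antisymm (fun x hx => ?_) ?_⟩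
    · have h1 : φ.toFun x = 0 := Subsingleton.elim _ _
      show x = φ.invFun 0
      rw [← h1, φ.left_inv hx]
    · rintro _ rfl
      exact φ.mapsTo_inv (mem_closedBall_self zero_le_one)
  have hDB : D ∩ B = ∅ := by
    rw [Set.eq_empty_iff_forall_notMem]
    intro x hx
    obtain ⟨_, φ, hφ⟩ := hD
    have h1 : φ.toFun x ∈ sphere (0 : Fin 0 → ℝ) 1 := hφ ▸ mem_image_of_mem _ hx
    rw [mem_sphere_zero_iff_norm] at h1
    have : φ.toFun x = 0 := Subsingleton.elim _ _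
    rw [this, norm_zero] at h1
    exact zero_ne_one h1
  obtain ⟨a, b, hab⟩ := GB200.exists_pair hC
  have hC' : IsArc C a b := isArc_iff_conBall.2 (by rw [← hab]; exact hC)
  have hpC : p ∈ C := hDC (by rw [hp]; exact rfl)
  have hpB : p ∉ B := fun h => by
    have : p ∈ D ∩ B := ⟨by rw [hp]; exact rfl, h⟩
    rw [hDB] at this; exact this
  have hpa : p ≠ a := fun h => hpB (by rw [hab, h]; exact Or.inl rfl)
  have hpb : p ≠ b := fun h => hpB (by rw [hab, h]; exact Or.inr rfl)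
  obtain ⟨A₁, A₂, h1, h2, hi, hu⟩ := IsArc.split hC' hpC hpa hpb
  have hne : a ≠ b := hC'.ne
  refine ⟨{a}, {b}, A₁, A₂, ⟨hC, hD, hDC, ?_, ?_, ?_, ?_, ?_, ?_, hu.symm, ?_⟩⟩
  · rw [hab]; rfl
  · rw [hDB, Set.eq_empty_iff_forall_notMem]
    rintro x ⟨rfl, h⟩
    exact hne h
  · rw [hDB]; exact PR720.conBall_zero a
  · rw [hDB]; exact PR720.conBall_zero b
  · rw [hp]; exact isArc_iff_conBall.1 h1
  · have := isArc_iff_conBall.1 h2
    rw [hp, union_comm]; exact this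
  · rw [hp]
    apply Subset.antisymm hi
    rintro _ rfl
    exact ⟨h1.right_mem, h2.left_mem⟩

/-- the planar case -/
theorem cutP_one : CutP 1 E := by
  intro C B D hC hD hDC
  obtain ⟨B₁, B₂, C₁, C₂, h1, h2, h3, h4, h5, h6, h7, h8⟩ := GB200.cut_two hC hD hDC rfl
  exact ⟨B₁, B₂, C₁, C₂, ⟨hC, hD, hDC, h1, h2, h3, h4, h5, h6, h7, h8⟩⟩

/-- the three-dimensional case -/
theorem cutP_two (hA3 : GB932.AmbStd 3) (hJ : JordanSch 2 (sphere (0 : Fin 3 → ℝ) 1)) :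
    CutP 2 E := by
  intro C B D hC hD hDC
  obtain ⟨B₁, B₂, C₁, C₂, h1, h2, h3, h4, h5, h6, h7, h8⟩ := GB200.cut_three hA3 hJ hC hD hDC rfl
  exact ⟨B₁, B₂, C₁, C₂, ⟨hC, hD, hDC, h1, h2, h3, h4, h5, h6, h7, h8⟩⟩

namespace Cut

variable {n : ℕ} {C B D B₁ B₂ C₁ C₂ : Set E}

theorem symm (h : Cut n C B D B₁ B₂ C₁ C₂) : Cut n C B D B₂ B₁ C₂ C₁ where
  hC := h.hC
  hD := h.hD
  hDC := h.hDC
  hB := by rw [union_comm]; exact h.hB
  hBi := by rw [inter_comm]; exact h.hBi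
  hB₁ := h.hB₂
  hB₂ := h.hB₁
  hC₁ := h.hC₂
  hC₂ := h.hC₁
  hCu := by rw [union_comm]; exact h.hCu
  hCi := by rw [inter_comm]; exact h.hCi

variable (h : Cut n C B D B₁ B₂ C₁ C₂)
include h

theorem D_sub : D ⊆ C₁ := h.hCi ▸ inter_subset_left
theorem C₁_sub : C₁ ⊆ C := h.hCu ▸ subset_union_left
theorem B₁_sub : B₁ ⊆ C₁ := subset_union_left.trans h.hC₁.1
theorem B₁_subB : B₁ ⊆ B := h.hB ▸ subset_union_left

theorem C₁_inter_B : C₁ ∩ B = B₁ := by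
  apply Subset.antisymm
  · rintro x ⟨hx, hxB⟩
    rw [← h.hB] at hxB
    rcases hxB with hxB | hxB
    · exact hxB
    · have h1 : x ∈ D := h.hCi ▸ ⟨hx, h.symm.B₁_sub hxB⟩
      have h2 : x ∈ D ∩ B := ⟨h1, h.hB ▸ Or.inr hxB⟩
      rw [← h.hBi] at h2
      exact h2.1
  · intro x hx
    exact ⟨h.B₁_sub hx, h.B₁_subB hx⟩

theorem preconn : IsPreconnected (C₁ \ D) :=
  GB200.preconn_between h.hC₁ (fun _ hx => ⟨hx.1, fun h' => hx.2 (Or.inr h')⟩) Set.sdiff_subset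

theorem preconnB : IsPreconnected (B₁ \ D) :=
  GB200.preconn_between h.hB₁ (fun _ hx => ⟨hx.1, fun h' => hx.2 ⟨h', h.B₁_subB hx.1⟩⟩)
    Set.sdiff_subset

theorem neB : (B₁ \ D).Nonempty :=
  h.hB₁.not_subset_bdry.mono fun _ hx => ⟨hx.1, fun h' => hx.2 ⟨h', h.B₁_subB hx.1⟩⟩

theorem mem_cases {x : E} (hx : x ∈ C) (hxD : x ∉ D) : x ∈ C₁ \ D ∨ x ∈ C₂ \ D := by
  rw [← h.hCu] at hx
  exact hx.imp (fun h' => ⟨h', hxD⟩) (fun h' => ⟨h', hxD⟩)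

theorem not_both {x : E} (h1 : x ∈ C₁) (h2 : x ∈ C₂) : x ∈ D := h.hCi ▸ ⟨h1, h2⟩

theorem side {K : Set E} (hK : IsPreconnected K) (hKC : K ⊆ C) (hKD : Disjoint K D) :
    K ⊆ C₁ \ D ∨ K ⊆ C₂ \ D := by
  have hd : K ∩ (C₁ ∩ C₂) = ∅ := by
    rw [h.hCi]; exact hKD.inter_eq
  rcases (isPreconnected_iff_subset_of_disjoint_closed.1 hK) C₁ C₂ h.hC₁.isClosed
    h.hC₂.isClosed (by rw [h.hCu]; exact hKC) hd with h' | h'
  · exact Or.inl fun x hx => ⟨h' hx, Set.disjoint_left.1 hKD hx⟩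
  · exact Or.inr fun x hx => ⟨h' hx, Set.disjoint_left.1 hKD hx⟩

theorem side_of_mem {K : Set E} (hK : IsPreconnected K) (hKC : K ⊆ C) (hKD : Disjoint K D)
    {x : E} (hx : x ∈ K) (hx1 : x ∈ C₁) : K ⊆ C₁ \ D := by
  rcases h.side hK hKC hKD with h' | h'
  · exact h'
  · exact absurd (h.not_both hx1 (h' hx).1) (h' hx).2

end Cut

/-- property (P): every point of `G \ D` is joined to the boundary inside `G \ D` -/
def Reach (G B D : Set E) : Prop :=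
  ∀ x ∈ G \ D, ∃ K : Set E, IsPreconnected K ∧ x ∈ K ∧ K ⊆ G \ D ∧ (K ∩ B).Nonempty

/-- a set-valued correspondence with the connectivity properties of a homeomorphism (the point `x`
sweeps out the set `P x`) -/
structure Track (G : Set E) (G' : Set F) (P : E → Set F) : Prop where
  ne : ∀ x ∈ G, (P x).Nonempty
  maps : ∀ x ∈ G, P x ⊆ G'
  surj : ∀ y ∈ G', ∃ x ∈ G, y ∈ P x
  pre : ∀ K ⊆ G, IsPreconnected K → IsPreconnected (⋃ x ∈ K, P x)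

/-- the sets `X`, `Y` correspond to each other -/
def Cor (G : Set E) (P : E → Set F) (X : Set E) (Y : Set F) : Prop :=
  ∀ x ∈ G, ∀ y ∈ P x, (y ∈ Y ↔ x ∈ X)

/-- **Matching of the two sides of a cut.** -/
theorem match_sides {n : ℕ} {C B D B₁ B₂ C₁ C₂ G : Set E} {C' B' D' B₁' B₂' C₁' C₂' G' : Set F}
    (h : Cut n C B D B₁ B₂ C₁ C₂) (h' : Cut n C' B' D' B₁' B₂' C₁' C₂')
    (hGC : G ⊆ C) (hBG : B ⊆ G) (hGC' : G' ⊆ C') (hBG' : B' ⊆ G') {P : E → Set F}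
    (hΨ : Track G G' P) (hΨB : Cor G P B B') (hΨD : Cor G P D D') (hP : Reach G B D) :
    (Cor G P C₁ C₁' ∧ Cor G P C₂ C₂') ∨ (Cor G P C₁ C₂' ∧ Cor G P C₂ C₁') := by
  -- the side of a preconnected piece
  have imC : ∀ {K : Set E}, K ⊆ G \ D → (⋃ x ∈ K, P x) ⊆ C' := by
    intro K hKG y hy
    obtain ⟨x, hx, hxy⟩ := mem_iUnion₂.1 hy
    exact hGC' (hΨ.maps x (hKG hx).1 hxy)
  have imD : ∀ {K : Set E}, K ⊆ G \ D → Disjoint (⋃ x ∈ K, P x) D' := by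
    intro K hKG
    rw [Set.disjoint_left]
    intro y hy hyD
    obtain ⟨x, hx, hxy⟩ := mem_iUnion₂.1 hy
    exact (hKG hx).2 ((hΨD x (hKG hx).1 y hxy).1 hyD)
  have step : ∀ {K : Set E}, IsPreconnected K → K ⊆ G \ D →
      (⋃ x ∈ K, P x) ⊆ C₁' \ D' ∨ (⋃ x ∈ K, P x) ⊆ C₂' \ D' := fun hK hKG =>
    h'.side (hΨ.pre _ (hKG.trans Set.sdiff_subset) hK) (imC hKG) (imD hKG)
  -- main statement with the sides of the boundary matched
  have main : ∀ {B₁' B₂' C₁' C₂' : Set F}, Cut n C' B' D' B₁' B₂' C₁' C₂' →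
      (⋃ x ∈ B₁ \ D, P x) ⊆ C₁' \ D' → (⋃ x ∈ B₂ \ D, P x) ⊆ C₂' \ D' →
      Cor G P C₁ C₁' ∧ Cor G P C₂ C₂' := by
    intro B₁' B₂' C₁' C₂' h' hs1 hs2
    have side1 : ∀ {B₁ B₂ C₁ C₂ : Set E} {B₁' B₂' C₁' C₂' : Set F},
        Cut n C B D B₁ B₂ C₁ C₂ → Cut n C' B' D' B₁' B₂' C₁' C₂' →
        (⋃ x ∈ B₁ \ D, P x) ⊆ C₁' \ D' → ∀ x ∈ G ∩ C₁, x ∉ D → P x ⊆ C₁' \ D' := by
      intro B₁ B₂ C₁ C₂ B₁' B₂' C₁' C₂' h h' hs x hx hxD
      obtain ⟨K, hK, hxK, hKG, b, hbK, hbB⟩ := hP x ⟨hx.1, hxD⟩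
      have hKC : K ⊆ C₁ \ D := h.side_of_mem hK (fun y hy => hGC (hKG hy).1)
        (Set.disjoint_left.2 fun y hy => (hKG hy).2) hxK hx.2
      have hb1 : b ∈ B₁ \ D := ⟨h.C₁_inter_B ▸ ⟨(hKC hbK).1, hbB⟩, (hKC hbK).2⟩
      obtain ⟨y, hy⟩ := hΨ.ne b (hKG hbK).1
      have hy1 : y ∈ C₁' \ D' := hs (mem_iUnion₂.2 ⟨b, hb1, hy⟩)
      have := h'.side_of_mem (hΨ.pre _ (hKG.trans Set.sdiff_subset) hK) (imC hKG) (imD hKG)
        (mem_iUnion₂.2 ⟨b, hbK, hy⟩) hy1.1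
      exact fun z hz => this (mem_iUnion₂.2 ⟨x, hxK, hz⟩)
    have full : ∀ {B₁ B₂ C₁ C₂ : Set E} {B₁' B₂' C₁' C₂' : Set F},
        Cut n C B D B₁ B₂ C₁ C₂ → Cut n C' B' D' B₁' B₂' C₁' C₂' →
        (⋃ x ∈ B₁ \ D, P x) ⊆ C₁' \ D' → (⋃ x ∈ B₂ \ D, P x) ⊆ C₂' \ D' →
        Cor G P C₁ C₁' := by
      intro B₁ B₂ C₁ C₂ B₁' B₂' C₁' C₂' h h' hs1 hs2 x hx y hy
      by_cases hxD : x ∈ D
      · exact ⟨fun _ => h.D_sub hxD, fun _ => h'.D_sub ((hΨD x hx y hy).2 hxD)⟩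
      · constructor
        · intro hy1
          rcases h.mem_cases (hGC hx) hxD with h1 | h1
          · exact h1.1
          · exfalso
            have h2 := side1 h.symm h'.symm hs2 x ⟨hx, h1.1⟩ hxD hy
            exact h2.2 (h'.not_both hy1 h2.1)
        · intro hx1
          exact (side1 h h' hs1 x ⟨hx, hx1⟩ hxD hy).1
    exact ⟨full h h' hs1 hs2, full h.symm h'.symm hs2 hs1⟩
  have hb1 : B₁ \ D ⊆ G \ D := fun x hx => ⟨hBG (h.B₁_subB hx.1), hx.2⟩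
  have hb2 : B₂ \ D ⊆ G \ D := fun x hx => ⟨hBG (h.symm.B₁_subB hx.1), hx.2⟩
  -- not both boundary halves on the same side
  have nosame : ∀ {B₁' B₂' C₁' C₂' : Set F}, Cut n C' B' D' B₁' B₂' C₁' C₂' →
      (⋃ x ∈ B₁ \ D, P x) ⊆ C₁' \ D' → (⋃ x ∈ B₂ \ D, P x) ⊆ C₁' \ D' → False := by
    intro B₁' B₂' C₁' C₂' h' hs1 hs2
    obtain ⟨y, hy, hyD⟩ := h'.symm.neB
    have hyB : y ∈ B' := h'.symm.B₁_subB hy
    obtain ⟨x, hx, hxy⟩ := hΨ.surj y (hBG' hyB)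
    have hxB : x ∈ B := (hΨB x hx y hxy).1 hyB
    have hxD : x ∉ D := fun hxD => hyD ((hΨD x hx y hxy).2 hxD)
    rw [← h.hB] at hxB
    have hy2 := h'.symm.B₁_sub hy
    rcases hxB with hxB | hxB
    · have := hs1 (mem_iUnion₂.2 ⟨x, ⟨hxB, hxD⟩, hxy⟩)
      exact this.2 (h'.not_both this.1 hy2)
    · have := hs2 (mem_iUnion₂.2 ⟨x, ⟨hxB, hxD⟩, hxy⟩)
      exact this.2 (h'.not_both this.1 hy2)
  rcases step h.preconnB hb1 with s1 | s1 <;> rcases step h.symm.preconnB hb2 with s2 | s2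
  · exact (nosame h' s1 s2).elim
  · exact Or.inl (main h' s1 s2)
  · exact Or.inr (main h'.symm s1 s2)
  · exact (nosame h'.symm s1 s2).elim

theorem Track.of_homeo {G : Set E} {G' : Set F} (Ψ : ConHomeo G G') :
    Track G G' (fun x => {Ψ.toFun x}) where
  ne := fun x _ => ⟨_, rfl⟩
  maps := by rintro x hx _ rfl; exact Ψ.mapsTo hx
  surj := fun y hy => ⟨Ψ.invFun y, Ψ.mapsTo_inv hy, (Ψ.right_inv hy).symm⟩
  pre := fun K hK hKc => by
    have : (⋃ x ∈ K, {Ψ.toFun x}) = Ψ.toFun '' K := by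
      ext y; simp only [mem_iUnion, mem_singleton_iff, exists_prop, mem_image, eq_comm]
    rw [this]
    exact hKc.image _ (Ψ.cont.mono hK)

theorem cor_of_image {G : Set E} {G' : Set F} (Ψ : ConHomeo G G') {X : Set E} {Y : Set F}
    (hX : X ⊆ G) (h : Ψ.toFun '' X = Y) : Cor G (fun x => {Ψ.toFun x}) X Y := by
  rintro x hx _ rfl
  subst h
  exact ⟨fun ⟨y, hy, he⟩ => Ψ.injOn (hX hy) hx he ▸ hy, fun hx' => mem_image_of_mem _ hx'⟩

theorem image_of_cor {G : Set E} {G' : Set F} (Ψ : ConHomeo G G') {X : Set E} {Y : Set F}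
    (hX : X ⊆ G) (hY : Y ⊆ G') (h : Cor G (fun x => {Ψ.toFun x}) X Y) : Ψ.toFun '' X = Y := by
  apply Subset.antisymm
  · rintro _ ⟨x, hx, rfl⟩; exact (h x (hX hx) _ rfl).2 hx
  · intro y hy
    have hx := Ψ.mapsTo_inv (hY hy)
    have he := Ψ.right_inv (hY hy)
    exact ⟨Ψ.invFun y, (h _ hx y he.symm).1 hy, he⟩

/-- the track of a level-preserving homeomorphism -/
theorem Track.of_level {G : Set E} {G' : Set F} {I : Set ℝ} (hI : IsPreconnected I)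
    (hIne : I.Nonempty) (Ψ : ConHomeo (G ×ˢ I) (G' ×ˢ I))
    (hl : ∀ p ∈ G ×ˢ I, (Ψ.toFun p).2 = p.2) :
    Track G G' (fun x => {y | ∃ s ∈ I, (Ψ.toFun (x, s)).1 = y}) where
  ne := fun x _ => by
    obtain ⟨s, hs⟩ := hIne
    exact ⟨_, s, hs, rfl⟩
  maps := by
    rintro x hx _ ⟨s, hs, rfl⟩
    exact (Ψ.mapsTo (show (x, s) ∈ G ×ˢ I from ⟨hx, hs⟩)).1
  surj := fun y hy => by
    obtain ⟨s, hs⟩ := hIne
    have h1 : (y, s) ∈ G' ×ˢ I := ⟨hy, hs⟩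
    have h2 := Ψ.mapsTo_inv h1
    have h3 := Ψ.right_inv h1
    refine ⟨(Ψ.invFun (y, s)).1, h2.1, s, hs, ?_⟩
    have h4 : (Ψ.invFun (y, s)).2 = s := by rw [← hl _ h2, h3]
    have h5 : ((Ψ.invFun (y, s)).1, s) = Ψ.invFun (y, s) := by
      ext
      · rfl
      · exact h4.symm
    rw [h5, h3]
  pre := fun K hK hKc => by
    have : (⋃ x ∈ K, {y | ∃ s ∈ I, (Ψ.toFun (x, s)).1 = y}) =
        (fun p => (Ψ.toFun p).1) '' (K ×ˢ I) := by
      ext y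
      simp only [mem_iUnion, exists_prop, mem_image]
      constructor
      · rintro ⟨x, hx, s, hs, h⟩; exact ⟨(x, s), ⟨hx, hs⟩, h⟩
      · rintro ⟨⟨x, s⟩, ⟨hx, hs⟩, h⟩; exact ⟨x, hx, s, hs, h⟩
    rw [this]
    exact (hKc.prod hI).image _ (continuous_fst.comp_continuousOn
      (Ψ.cont.mono (prod_mono hK Subset.rfl)))

end P073.H341
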