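import Vale.Agent.P073.H341.ThickFam
import Vale.Agent.P073.H936.Replace

/-!
# P073, H341: level-preserving extension over a thick ball with prescribed thick strips
-/

set_option linter.unusedSectionVars false

open Set Metric Topology Filter

namespace P073.H341

open P073 P073.H339

variable {E F : Type*} [NormedAddCommGroup E] [NormedSpace ℝ E]
  [NormedAddCommGroup F] [NormedSpace ℝ F] {ι κ : Type*}

/-- the level interval -/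
abbrev LI : Set ℝ := Icc (-1 : ℝ) 1

theorem LI_conical : ConicalSet LI := conicalSet_Icc _ _
theorem LI_pre : IsPreconnected LI := isPreconnected_Icc
theorem LI_ne : LI.Nonempty := ⟨0, by norm_num, by norm_num⟩

/-- a level-preserving map between vertical sets -/
def IsLev {W : Set E} {W' : Set F} (Ψ : ConHomeo (W ×ˢ LI) (W' ×ˢ LI)) : Prop :=
  ∀ p ∈ W ×ˢ LI, (Ψ.toFun p).2 = p.2

/-- the track of a point -/
def trk (Ψ : E × ℝ → F × ℝ) (x : E) : Set F := {y | ∃ s ∈ LI, (Ψ (x, s)).1 = y}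

theorem IsLev.inv {W : Set E} {W' : Set F} {Ψ : ConHomeo (W ×ˢ LI) (W' ×ˢ LI)} (h : IsLev Ψ)
    {q : F × ℝ} (hq : q ∈ W' ×ˢ LI) : (Ψ.invFun q).2 = q.2 := by
  rw [← h _ (Ψ.mapsTo_inv hq), Ψ.right_inv hq]

/-- correspondence of vertical sets -/
theorem cor_of_level {W X : Set E} {W' Y : Set F} {Ψ : ConHomeo (W ×ˢ LI) (W' ×ˢ LI)}
    (hl : IsLev Ψ) (hX : X ⊆ W) (h : Ψ.toFun '' (X ×ˢ LI) = Y ×ˢ LI) :
    Cor W (trk Ψ.toFun) X Y := by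
  rintro x hx y ⟨s, hs, rfl⟩
  have hp : (x, s) ∈ W ×ˢ LI := ⟨hx, hs⟩
  have h2 : (Ψ.toFun (x, s)).2 = s := hl _ hp
  constructor
  · intro hy
    have h3 : Ψ.toFun (x, s) ∈ Y ×ˢ LI := ⟨hy, by rw [h2]; exact hs⟩
    rw [← h] at h3
    obtain ⟨q, hq, he⟩ := h3
    have : q = (x, s) := Ψ.injOn ⟨hX hq.1, hq.2⟩ hp he
    rw [this] at hq
    exact hq.1
  · intro hx'
    have h3 : Ψ.toFun (x, s) ∈ Y ×ˢ LI := by
      rw [← h]; exact mem_image_of_mem _ (show (x, s) ∈ X ×ˢ LI from ⟨hx', hs⟩)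
    exact h3.1

theorem image_of_cor_level {W X : Set E} {W' Y : Set F} {Ψ : ConHomeo (W ×ˢ LI) (W' ×ˢ LI)}
    (hl : IsLev Ψ) (hX : X ⊆ W) (hY : Y ⊆ W') (h : Cor W (trk Ψ.toFun) X Y) :
    Ψ.toFun '' (X ×ˢ LI) = Y ×ˢ LI := by
  apply Subset.antisymm
  · rintro _ ⟨⟨x, s⟩, ⟨hx, hs⟩, rfl⟩
    refine ⟨(h x (hX hx) _ ⟨s, hs, rfl⟩).2 hx, ?_⟩
    rw [hl (x, s) ⟨hX hx, hs⟩]; exact hs
  · rintro ⟨y, s⟩ ⟨hy, hs⟩
    have hq : (y, s) ∈ W' ×ˢ LI := ⟨hY hy, hs⟩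
    have h1 := Ψ.mapsTo_inv hq
    have h2 : (Ψ.invFun (y, s)).2 = s := hl.inv hq
    have h3 := Ψ.right_inv hq
    have h4 : ((Ψ.invFun (y, s)).1, s) = Ψ.invFun (y, s) := Prod.ext rfl h2.symm
    refine ⟨Ψ.invFun (y, s), ⟨?_, h1.2⟩, h3⟩
    refine (h _ h1.1 y ⟨s, hs, ?_⟩).1 hy
    rw [h4, h3]

/-- level-preserving extension from the thin skeleton -/
theorem exists_extend_thin {n : ℕ} (hP : CutP (n + 1) E) (hP' : CutP (n + 1) F)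
    {D δ : Set E} {L : Finset ι} {S : ι → Set E} {D' δ' : Set F} {S' : ι → Set F}
    (h : Fam (n + 1) D δ L S) (h' : Fam (n + 1) D' δ' L S') {G : Set E} {G' : Set F}
    (hG : G = δ ∪ ⋃ k ∈ L, S k) (hG' : G' = δ' ∪ ⋃ k ∈ L, S' k)
    (Ψ : ConHomeo (G ×ˢ LI) (G' ×ˢ LI)) (hl : IsLev Ψ) (hδ : Cor G (trk Ψ.toFun) δ δ')
    (hS : ∀ k ∈ L, Cor G (trk Ψ.toFun) (S k) (S' k)) :
    ∃ Φ : ConHomeo (D ×ˢ LI) (D' ×ˢ LI), IsLev Φ ∧ EqOn Φ.toFun Ψ.toFun (G ×ˢ LI) := by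
  have hGc : IsClosed G := hG ▸ h.isClosed_skel
  have hGc' : IsClosed G' := hG' ▸ h'.isClosed_skel
  have hTr : Track G G' (trk Ψ.toFun) := Track.of_level LI_pre LI_ne Ψ hl
  obtain ⟨J, _, Q, R, Q', R', a1, a2, a3, a4, a5, a6, a7, a8, a9⟩ :=
    h.chambers hP hP' h' hG hG' hTr hδ hS
  have hRG : ∀ a, R a ⊆ G := fun a => a4 a ▸ inter_subset_right
  have hRG' : ∀ a, R' a ⊆ G' := fun a => a5 a ▸ inter_subset_right
  have hR : ∀ a, Ψ.toFun '' (R a ×ˢ LI) = R' a ×ˢ LI := fun a =>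
    image_of_cor_level hl (hRG a) (hRG' a) (a3 a)
  have hext : ∀ a, ∃ Φ : ConHomeo (Q a ×ˢ LI) (Q' a ×ˢ LI),
      EqOn Φ.toFun Ψ.toFun (R a ×ˢ LI) ∧ ∀ x ∈ Q a ×ˢ LI, (Φ.toFun x).2 = x.2 := by
    intro a
    have hc : ConicalSet (R a ×ˢ LI) := (a1 a).conicalSet_bdry.prod LI_conical
    obtain ⟨Φ, e1, -, e3⟩ := (H936.thick_prod (a1 a)).exists_extend (H936.thick_prod (a2 a))
      ((Ψ.restr hc (prod_mono (hRG a) Subset.rfl)).cast rfl (hR a))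
      (fun x hx => hl x ⟨hRG a hx.1, hx.2⟩)
    exact ⟨Φ, e1, e3⟩
  choose Φ hΦ1 hΦ2 using hext
  let X : Option J → Set (E × ℝ) := fun o => o.elim (G ×ˢ LI) (fun a => Q a ×ˢ LI)
  let Y : Option J → Set (F × ℝ) := fun o => o.elim (G' ×ˢ LI) (fun a => Q' a ×ˢ LI)
  let H : ∀ o, ConHomeo (X o) (Y o) := fun o =>
    match o with
    | none => Ψ
    | some a => Φ a
  have hX : RelLF X := RelLF.of_finite (by
    rintro (_ | a)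
    exacts [hGc.prod isClosed_Icc, (a1 a).isClosed.prod isClosed_Icc])
  have hY : RelLF Y := RelLF.of_finite (by
    rintro (_ | a)
    exacts [hGc'.prod isClosed_Icc, (a2 a).isClosed.prod isClosed_Icc])
  have inR : ∀ a, ∀ x ∈ Q a ×ˢ LI, x ∈ G ×ˢ LI → x ∈ R a ×ˢ LI := fun a x h1 h2 =>
    ⟨a4 a ▸ ⟨h1.1, h2.1⟩, h1.2⟩
  have inR' : ∀ a, ∀ x ∈ Q' a ×ˢ LI, x ∈ G' ×ˢ LI → x ∈ R' a ×ˢ LI := fun a x h1 h2 =>
    ⟨a5 a ▸ ⟨h1.1, h2.1⟩, h1.2⟩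
  have same : ∀ a, ∀ x ∈ Q a ×ˢ LI, x ∈ G ×ˢ LI → (Φ a).toFun x = Ψ.toFun x := fun a x h1 h2 =>
    hΦ1 a (inR a x h1 h2)
  have inB : ∀ a, ∀ y ∈ Q' a ×ˢ LI, y ∈ G' ×ˢ LI → ∃ x, x ∈ Q a ×ˢ LI ∧ x ∈ G ×ˢ LI ∧
      Ψ.toFun x = y := by
    intro a y h1 h2
    have h3 := inR' a y h1 h2
    rw [← hR a] at h3
    obtain ⟨x, hx, rfl⟩ := h3
    exact ⟨x, ⟨(a1 a).1 hx.1, hx.2⟩, ⟨hRG a hx.1, hx.2⟩, rfl⟩
  obtain ⟨Θ, hΘ⟩ := ConHomeo.exists_glue_family hX hY H (by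
    rintro (_ | a) (_ | b) x hx
    · rfl
    · exact (same b x hx.2 hx.1).symm
    · exact same a x hx.1 hx.2
    · by_cases hab : a = b
      · subst hab; rfl
      · have hxG : x ∈ G ×ˢ LI := ⟨a6 a b hab ⟨hx.1.1, hx.2.1⟩, hx.1.2⟩
        exact (same a x hx.1 hxG).trans (same b x hx.2 hxG).symm) (by
    rintro (_ | a) (_ | b) y hy
    · exact ⟨Ψ.invFun y, ⟨Ψ.mapsTo_inv hy.1, Ψ.mapsTo_inv hy.1⟩, Ψ.right_inv hy.1⟩
    · obtain ⟨x, h1, h2, h3⟩ := inB b y hy.2 hy.1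
      exact ⟨x, ⟨h2, h1⟩, h3⟩
    · obtain ⟨x, h1, h2, h3⟩ := inB a y hy.1 hy.2
      exact ⟨x, ⟨h1, h2⟩, (same a x h1 h2).trans h3⟩
    · by_cases hab : a = b
      · subst hab
        exact ⟨(Φ a).invFun y, ⟨(Φ a).mapsTo_inv hy.1, (Φ a).mapsTo_inv hy.1⟩,
          (Φ a).right_inv hy.1⟩
      · have hyG : y ∈ G' ×ˢ LI := ⟨a7 a b hab ⟨hy.1.1, hy.2.1⟩, hy.1.2⟩
        obtain ⟨x, h1, h2, h3⟩ := inB a y hy.1 hyG
        obtain ⟨x', h1', h2', h3'⟩ := inB b y hy.2 hyG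
        have : x = x' := Ψ.injOn h2 h2' (h3.trans h3'.symm)
        subst this
        exact ⟨x, ⟨h1, h1'⟩, (same a x h1 h2).trans h3⟩)
  have eX : (⋃ o, X o) = D ×ˢ LI := by
    rw [iUnion_option]
    show (G ×ˢ LI) ∪ ⋃ a, (Q a ×ˢ LI) = _
    rw [← a8, union_prod, iUnion_prod_const]
  have eY : (⋃ o, Y o) = D' ×ˢ LI := by
    rw [iUnion_option]
    show (G' ×ˢ LI) ∪ ⋃ a, (Q' a ×ˢ LI) = _
    rw [← a9, union_prod, iUnion_prod_const]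
  refine ⟨Θ.cast eX eY, ?_, (hΘ none).1⟩
  intro x hx
  show (Θ.toFun x).2 = x.2
  rw [← eX] at hx
  obtain ⟨o, ho⟩ := mem_iUnion.1 hx
  rw [(hΘ o).1 ho]
  cases o with
  | none => exact hl x ho
  | some a => exact hΦ2 a x ho

/-- the slices of a level-preserving homeomorphism -/
theorem exists_slice {D : Set E} {D' : Set F} (hD : ConicalSet D) (hD' : ConicalSet D')
    (Φ : ConHomeo (D ×ˢ LI) (D' ×ˢ LI)) (hl : IsLev Φ) {s : ℝ} (hs : s ∈ LI) :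
    ∃ φ : ConHomeo D D', ∀ x ∈ D, φ.toFun x = (Φ.toFun (x, s)).1 := by
  have hsub : (D ×ˢ {s} : Set (E × ℝ)) ⊆ D ×ˢ LI := by
    rintro ⟨x, t⟩ ⟨hx, ht⟩
    exact ⟨hx, by rw [show t = s from ht]; exact hs⟩
  have himg : Φ.toFun '' (D ×ˢ {s}) = D' ×ˢ {s} := by
    apply Subset.antisymm
    · rintro _ ⟨p, hp, rfl⟩
      exact ⟨(Φ.mapsTo (hsub hp)).1, (hl p (hsub hp)).trans hp.2⟩
    · rintro q hq
      have hq' : q ∈ D' ×ˢ LI := ⟨hq.1, by rw [show q.2 = s from hq.2]; exact hs⟩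
      refine ⟨Φ.invFun q, ⟨(Φ.mapsTo_inv hq').1, ?_⟩, Φ.right_inv hq'⟩
      exact (hl.inv hq').trans hq.2
  have hc : ConicalSet (D ×ˢ {s} : Set (E × ℝ)) := (H936.slice hD s).conicalSet_right
  refine ⟨(H936.slice hD s).trans (((Φ.restr hc hsub).cast rfl himg).trans
    (H936.slice hD' s).symm), fun x _ => rfl⟩

theorem prod_image_iff {D X : Set E} {D' Y : Set F} (hX : X ⊆ D) (hY : Y ⊆ D')
    (Φ : ConHomeo (D ×ˢ LI) (D' ×ˢ LI)) (hl : IsLev Φ)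
    (h : ∀ s ∈ LI, ∀ x ∈ D, ((Φ.toFun (x, s)).1 ∈ Y ↔ x ∈ X)) :
    Φ.toFun '' (X ×ˢ LI) = Y ×ˢ LI := by
  refine image_of_cor_level hl hX hY ?_
  rintro x hx y ⟨s, hs, rfl⟩
  exact h s hs x hx

/-- **Level-preserving extension with prescribed thick strips.** -/
theorem exists_extend_level {n : ℕ} (hP : CutP (n + 1) E) (hP' : CutP (n + 1) F)
    (hI : IoDP (n + 2)) {D δ : Set E} {L : Finset ι} {A A₀ A₁ : ι → Set E} {D' δ' : Set F}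
    {A' A₀' A₁' : ι → Set F} (h : TFam n D δ L A A₀ A₁) (h' : TFam n D' δ' L A' A₀' A₁')
    (Ψ : ConHomeo (thick δ L A ×ˢ LI) (thick δ' L A' ×ˢ LI)) (hl : IsLev Ψ)
    (hδ : Ψ.toFun '' (δ ×ˢ LI) = δ' ×ˢ LI) (hA : ∀ l ∈ L, Ψ.toFun '' (A l ×ˢ LI) = A' l ×ˢ LI)
    (h0 : ∀ l ∈ L, Ψ.toFun '' (A₀ l ×ˢ LI) = A₀' l ×ˢ LI)
    (h1 : ∀ l ∈ L, Ψ.toFun '' (A₁ l ×ˢ LI) = A₁' l ×ˢ LI) :
    ∃ Φ : ConHomeo (D ×ˢ LI) (D' ×ˢ LI), IsLev Φ ∧ EqOn Φ.toFun Ψ.toFun (thick δ L A ×ˢ LI) := by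
  have sB : δ ⊆ thick δ L A := fun x hx => mem_thick.2 (Or.inl hx)
  have sN : ∀ l ∈ L, A l ⊆ thick δ L A := fun l hl x hx => mem_thick.2 (Or.inr ⟨l, hl, hx⟩)
  have s0 : ∀ l ∈ L, A₀ l ⊆ thick δ L A := fun l hl => (h.s0 hl).trans (sN l hl)
  have s1 : ∀ l ∈ L, A₁ l ⊆ thick δ L A := fun l hl => (h.s1 hl).trans (sN l hl)
  have sfc : ∀ p ∈ L ×ˢ (Finset.univ : Finset Bool), fc A₀ A₁ p ⊆ thick δ L A := fun p hp =>
    (h.sfc (Finset.mem_product.1 hp).1).trans (sN _ (Finset.mem_product.1 hp).1)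
  have sN' : ∀ l ∈ L, A' l ⊆ thick δ' L A' := fun l hl x hx => mem_thick.2 (Or.inr ⟨l, hl, hx⟩)
  have sB' : δ' ⊆ thick δ' L A' := fun x hx => mem_thick.2 (Or.inl hx)
  have sfc' : ∀ p ∈ L ×ˢ (Finset.univ : Finset Bool), fc A₀' A₁' p ⊆ thick δ' L A' := fun p hp =>
    (h'.sfc (Finset.mem_product.1 hp).1).trans (sN' _ (Finset.mem_product.1 hp).1)
  have hfc : ∀ p ∈ L ×ˢ (Finset.univ : Finset Bool),
      Ψ.toFun '' (fc A₀ A₁ p ×ˢ LI) = fc A₀' A₁' p ×ˢ LI := by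
    rintro ⟨l, b⟩ hp
    have hlL := (Finset.mem_product.1 hp).1
    cases b
    · exact h0 l hlL
    · exact h1 l hlL
  have cB := cor_of_level hl sB hδ
  have cA : ∀ l ∈ L, Cor (thick δ L A) (trk Ψ.toFun) (A l) (A' l) := fun l hl' =>
    cor_of_level hl (sN l hl') (hA l hl')
  have cfc : ∀ p ∈ L ×ˢ (Finset.univ : Finset Bool),
      Cor (thick δ L A) (trk Ψ.toFun) (fc A₀ A₁ p) (fc A₀' A₁' p) := fun p hp =>
    cor_of_level hl (sfc p hp) (hfc p hp)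
  -- the thin skeleton
  have hGW : thin δ L A₀ A₁ ⊆ thick δ L A :=
    union_subset sB (iUnion₂_subset sfc)
  have hGW' : thin δ' L A₀' A₁' ⊆ thick δ' L A' :=
    union_subset sB' (iUnion₂_subset sfc')
  have cG : Cor (thick δ L A) (trk Ψ.toFun) (thin δ L A₀ A₁) (thin δ' L A₀' A₁') := by
    intro x hx y hy
    simp only [thin, mem_union, mem_iUnion, exists_prop]
    rw [cB x hx y hy]
    refine or_congr Iff.rfl (exists_congr fun p => and_congr_right fun hp => cfc p hp x hx y hy)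
  have hΨG : Ψ.toFun '' (thin δ L A₀ A₁ ×ˢ LI) = thin δ' L A₀' A₁' ×ˢ LI :=
    image_of_cor_level hl hGW hGW' cG
  have hGc : ConicalSet (thin δ L A₀ A₁) := h.conical_thin
  let Ψ₁ : ConHomeo (thin δ L A₀ A₁ ×ˢ LI) (thin δ' L A₀' A₁' ×ˢ LI) :=
    (Ψ.restr (hGc.prod LI_conical) (prod_mono hGW Subset.rfl)).cast rfl hΨG
  have hl₁ : IsLev Ψ₁ := fun p hp => hl p ⟨hGW hp.1, hp.2⟩
  obtain ⟨Φ₁, hΦl, hΦ₁⟩ := exists_extend_thin hP hP' h.fam h'.fam (G := thin δ L A₀ A₁)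
    (G' := thin δ' L A₀' A₁') rfl rfl Ψ₁ hl₁ (fun x hx y hy => cB x (hGW hx) y hy)
    (fun p hp x hx y hy => cfc p hp x (hGW hx) y hy)
  have hΦΨ : ∀ x ∈ thin δ L A₀ A₁, ∀ s ∈ LI, Φ₁.toFun (x, s) = Ψ.toFun (x, s) := fun x hx s hs =>
    hΦ₁ (show (x, s) ∈ thin δ L A₀ A₁ ×ˢ LI from ⟨hx, hs⟩)
  have tB : δ ⊆ thin δ L A₀ A₁ := fun x hx => mem_thin.2 (Or.inl hx)
  have t0 : ∀ l ∈ L, A₀ l ⊆ thin δ L A₀ A₁ := fun l hl x hx =>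
    mem_thin.2 (Or.inr ⟨l, hl, Or.inl hx⟩)
  have t1 : ∀ l ∈ L, A₁ l ⊆ thin δ L A₀ A₁ := fun l hl x hx =>
    mem_thin.2 (Or.inr ⟨l, hl, Or.inr hx⟩)
  -- images under the slices
  have sliceimg : ∀ {X : Set E} {Y : Set F}, X ⊆ thin δ L A₀ A₁ → Y ⊆ D' →
      Ψ.toFun '' (X ×ˢ LI) = Y ×ˢ LI → ∀ s ∈ LI, ∀ φ : ConHomeo D D',
      (∀ x ∈ D, φ.toFun x = (Φ₁.toFun (x, s)).1) → X ⊆ D → φ.toFun '' X = Y := by
    intro X Y hX hY himg s hs φ hφ hXD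
    apply Subset.antisymm
    · rintro _ ⟨x, hx, rfl⟩
      rw [hφ x (hXD hx), hΦΨ x (hX hx) s hs]
      have : Ψ.toFun (x, s) ∈ Y ×ˢ LI := by
        rw [← himg]; exact mem_image_of_mem _ (show (x, s) ∈ X ×ˢ LI from ⟨hx, hs⟩)
      exact this.1
    · intro y hy
      have : (y, s) ∈ Ψ.toFun '' (X ×ˢ LI) := by rw [himg]; exact ⟨hy, hs⟩
      obtain ⟨⟨x, t⟩, ⟨hx, ht⟩, he⟩ := this
      have h2 : t = s := by
        have := hl (x, t) ⟨hGW (hX hx), ht⟩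
        rw [he] at this
        exact this.symm
      subst h2
      refine ⟨x, hx, ?_⟩
      rw [hφ x (hXD hx), hΦΨ x (hX hx) t ht, he]
  have key : ∀ l ∈ L, ∀ s ∈ LI, ∀ x ∈ D, ((Φ₁.toFun (x, s)).1 ∈ A' l ↔ x ∈ A l) := by
    intro l hl' s hs x hx
    obtain ⟨φ, hφ⟩ := exists_slice h.hC.conicalSet h'.hC.conicalSet Φ₁ hΦl hs
    have e := h.image_mid hP' hI h' φ
      (sliceimg tB h'.hC.1 hδ s hs φ hφ h.hC.1) hl'
      (sliceimg (t0 l hl') ((h'.s0 hl').trans (h'.NC hl')) (h0 l hl') s hs φ hφ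
        ((h.s0 hl').trans (h.NC hl')))
      (sliceimg (t1 l hl') ((h'.s1 hl').trans (h'.NC hl')) (h1 l hl') s hs φ hφ
        ((h.s1 hl').trans (h.NC hl')))
    rw [← hφ x hx, ← e]
    exact ⟨fun ⟨z, hz, he⟩ => φ.injOn (h.NC hl' hz) hx he ▸ hz, fun hx' => mem_image_of_mem _ hx'⟩
  have keyf : ∀ {X : Set E} {Y : Set F}, X ⊆ thin δ L A₀ A₁ → Y ⊆ D' →
      Ψ.toFun '' (X ×ˢ LI) = Y ×ˢ LI → X ⊆ D → ∀ s ∈ LI, ∀ x ∈ D,
      ((Φ₁.toFun (x, s)).1 ∈ Y ↔ x ∈ X) := by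
    intro X Y hX hY himg hXD s hs x hx
    obtain ⟨φ, hφ⟩ := exists_slice h.hC.conicalSet h'.hC.conicalSet Φ₁ hΦl hs
    have e := sliceimg hX hY himg s hs φ hφ hXD
    rw [← hφ x hx, ← e]
    exact ⟨fun ⟨z, hz, he⟩ => φ.injOn (hXD hz) hx he ▸ hz, fun hx' => mem_image_of_mem _ hx'⟩
  have key0 : ∀ l ∈ L, ∀ s ∈ LI, ∀ x ∈ D, ((Φ₁.toFun (x, s)).1 ∈ A₀' l ↔ x ∈ A₀ l) :=
    fun l hl' => keyf (t0 l hl') ((h'.s0 hl').trans (h'.NC hl')) (h0 l hl')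
      ((h.s0 hl').trans (h.NC hl'))
  have key1 : ∀ l ∈ L, ∀ s ∈ LI, ∀ x ∈ D, ((Φ₁.toFun (x, s)).1 ∈ A₁' l ↔ x ∈ A₁ l) :=
    fun l hl' => keyf (t1 l hl') ((h'.s1 hl').trans (h'.NC hl')) (h1 l hl')
      ((h.s1 hl').trans (h.NC hl'))
  -- replace on the strips
  obtain ⟨o1, o2⟩ := h.outs_props hP hI
  obtain ⟨o1', o2'⟩ := h'.outs_props hP' hI
  have hWc : IsClosed (thick δ L A) := h.hC.isCompact_bdry.isClosed.union
    (L.finite_toSet.isClosed_biUnion fun l hl => h.isClosedN hl)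
  have hWc' : IsClosed (thick δ' L A') := h'.hC.isCompact_bdry.isClosed.union
    (L.finite_toSet.isClosed_biUnion fun l hl => h'.isClosedN hl)
  have int : ∀ x ∈ thick δ L A, x ∈ outs D L A A₀ A₁ → x ∈ thin δ L A₀ A₁ := by
    intro x hx hx'
    rw [mem_thick] at hx
    rcases hx with hx | ⟨l, hl, hx⟩
    · exact tB hx
    · exact mem_thin.2 (Or.inr ⟨l, hl, hx'.2 l hl hx⟩)
  have memO : ∀ s ∈ LI, ∀ x ∈ D, ((Φ₁.toFun (x, s)).1 ∈ outs D' L A' A₀' A₁' ↔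
      x ∈ outs D L A A₀ A₁) := by
    intro s hs x hx
    have hy : (Φ₁.toFun (x, s)).1 ∈ D' := (Φ₁.mapsTo (show (x, s) ∈ D ×ˢ LI from ⟨hx, hs⟩)).1
    constructor
    · rintro ⟨_, hq⟩
      refine ⟨hx, fun l hl' hxA => ?_⟩
      exact (hq l hl' ((key l hl' s hs x hx).2 hxA)).imp (key0 l hl' s hs x hx).1
        (key1 l hl' s hs x hx).1
    · rintro ⟨_, hq⟩
      refine ⟨hy, fun l hl' hxA => ?_⟩
      exact (hq l hl' ((key l hl' s hs x hx).1 hxA)).imp (key0 l hl' s hs x hx).2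
        (key1 l hl' s hs x hx).2
  have hΦO : Φ₁.toFun '' (outs D L A A₀ A₁ ×ˢ LI) = outs D' L A' A₀' A₁' ×ˢ LI :=
    prod_image_iff (fun _ hx => hx.1) (fun _ hx => hx.1) Φ₁ hΦl memO
  obtain ⟨Θ, hΘ1, hΘ2⟩ := exists_replace_on Φ₁ Ψ (hWc.prod isClosed_Icc) (o1.prod isClosed_Icc)
    (o2.prod LI_conical) (hWc'.prod isClosed_Icc) (o1'.prod isClosed_Icc)
    (by rw [← union_prod, h.cover]) (by rw [← union_prod, h'.cover]) hΦO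
    (by
      rintro ⟨x, s⟩ ⟨⟨hx, hs⟩, ⟨hx', _⟩⟩
      exact (hΦΨ x (int x hx hx') s hs).symm)
    (by
      rintro ⟨y, s⟩ ⟨⟨hy, hs⟩, ⟨hy', _⟩⟩
      have hq : (y, s) ∈ D' ×ˢ LI := ⟨hy'.1, hs⟩
      have h2 := Φ₁.mapsTo_inv hq
      have h3 := Φ₁.right_inv hq
      have h4 : (Φ₁.invFun (y, s)).2 = s := hΦl.inv hq
      have h5 : ((Φ₁.invFun (y, s)).1, s) = Φ₁.invFun (y, s) := Prod.ext rfl h4.symm
      have h6 : (Φ₁.toFun ((Φ₁.invFun (y, s)).1, s)).1 = y := by rw [h5, h3]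
      have hxD := h2.1
      have hxO : (Φ₁.invFun (y, s)).1 ∈ outs D L A A₀ A₁ := (memO s hs _ hxD).1 (by rw [h6]; exact hy')
      refine ⟨Φ₁.invFun (y, s), ⟨⟨?_, h2.2⟩, ⟨hxO, h2.2⟩⟩, h3⟩
      rw [mem_thick] at hy ⊢
      rcases hy with hy | ⟨l, hl', hy⟩
      · left
        exact (keyf tB h'.hC.1 hδ h.hC.1 s hs _ hxD).1 (by rw [h6]; exact hy)
      · right
        exact ⟨l, hl', (key l hl' s hs _ hxD).1 (by rw [h6]; exact hy)⟩)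
  refine ⟨Θ, ?_, hΘ1⟩
  rintro p hp
  have hp' : p ∈ (thick δ L A ×ˢ LI) ∪ (outs D L A A₀ A₁ ×ˢ LI) := by
    rw [← union_prod, h.cover]; exact hp
  rcases hp' with hp' | hp'
  · rw [hΘ1 hp']; exact hl p hp'
  · rw [hΘ2 hp']; exact hΦl p hp

end P073.H341
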