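import Vale.Agent.P073.H341.ThickFam

/-!
# P073, H341: extension from two families of thick sheets
-/

set_option linter.unusedSectionVars false

open Set Metric Topology Filter

namespace P073.H341

open P073 P073.H339

variable {E F : Type*} [NormedAddCommGroup E] [NormedSpace ℝ E]
  [NormedAddCommGroup F] [NormedSpace ℝ F] {ι κ : Type*}

/-- two finite families of thick proper sheets in the ball `C` -/
structure TTwo (n : ℕ) (C B : Set E) (K : Finset ι) (N S₀ S₁ : ι → Set E) (L : Finset κ)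
    (M T₀ T₁ : κ → Set E) : Prop where
  fN : TFam n C B K N S₀ S₁
  fM : TFam n C B L M T₀ T₁
  hX : ∀ k ∈ K, ∀ l ∈ L, ∀ a b : Bool, (fc S₀ S₁ (k, a) ∩ fc T₀ T₁ (l, b)).Nonempty →
    ConBall n (fc S₀ S₁ (k, a) ∩ fc T₀ T₁ (l, b)) (fc S₀ S₁ (k, a) ∩ fc T₀ T₁ (l, b) ∩ B)

section

variable {n : ℕ} {C B : Set E} {K : Finset ι} {N S₀ S₁ : ι → Set E} {L : Finset κ}
    {M T₀ T₁ : κ → Set E}

/-- the thin two-family configuration -/
theorem TTwo.thin (h : TTwo n C B K N S₀ S₁ L M T₀ T₁) :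
    TwoFam n C B (K ×ˢ (Finset.univ : Finset Bool)) (fc S₀ S₁)
      (L ×ˢ (Finset.univ : Finset Bool)) (fc T₀ T₁) where
  hC := h.fN.hC
  hS := h.fN.fam.hS
  hSC := h.fN.fam.hSC
  hSd := h.fN.fam.hSd
  hT := h.fM.fam.hS
  hTC := h.fM.fam.hSC
  hTd := h.fM.fam.hSd
  hX := by
    rintro ⟨k, a⟩ hp ⟨l, b⟩ hq hne
    exact h.hX k (Finset.mem_product.1 hp).1 l (Finset.mem_product.1 hq).1 a b hne

/-- the region outside all open thick sheets -/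
def TO (C : Set E) (K : Finset ι) (N S₀ S₁ : ι → Set E) (L : Finset κ)
    (M T₀ T₁ : κ → Set E) : Set E := outs C K N S₀ S₁ ∩ outs C L M T₀ T₁

theorem TTwo.cover (h : TTwo n C B K N S₀ S₁ L M T₀ T₁) :
    skel B K N L M ∪ TO C K N S₀ S₁ L M T₀ T₁ = C := by
  apply Subset.antisymm
  · rintro x (hx | hx)
    · rw [mem_skel] at hx
      rcases hx with hx | ⟨k, hk, hx⟩ | ⟨l, hl, hx⟩
      · exact h.fN.hC.1 hx
      · exact h.fN.NC hk hx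
      · exact h.fM.NC hl hx
    · exact hx.1.1
  · intro x hx
    by_cases hx1 : x ∈ skel B K N L M
    · exact Or.inl hx1
    · exact Or.inr ⟨⟨hx, fun k hk hxA => absurd (mem_skel.2 (Or.inr (Or.inl ⟨k, hk, hxA⟩))) hx1⟩,
        ⟨hx, fun l hl hxA => absurd (mem_skel.2 (Or.inr (Or.inr ⟨l, hl, hxA⟩))) hx1⟩⟩

theorem TTwo.isClosed_W (h : TTwo n C B K N S₀ S₁ L M T₀ T₁) : IsClosed (skel B K N L M) :=
  h.fN.hC.isCompact_bdry.isClosed.union ((K.finite_toSet.isClosed_biUnion fun _ hk =>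
    h.fN.isClosedN hk).union (L.finite_toSet.isClosed_biUnion fun _ hl => h.fM.isClosedN hl))

theorem mem_fc {X Y : ι → Set E} {K : Finset ι} {x : E} :
    (∃ p ∈ K ×ˢ (Finset.univ : Finset Bool), x ∈ fc X Y p) ↔ ∃ k ∈ K, x ∈ X k ∪ Y k := by
  simp only [Finset.mem_product, Finset.mem_univ, and_true, Prod.exists, Bool.exists_bool,
    fc_true, fc_false]
  constructor
  · rintro ⟨k, h | h⟩
    · exact ⟨k, h.1, Or.inl h.2⟩
    · exact ⟨k, h.1, Or.inr h.2⟩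
  · rintro ⟨k, hk, h | h⟩
    · exact ⟨k, Or.inl ⟨hk, h⟩⟩
    · exact ⟨k, Or.inr ⟨hk, h⟩⟩

end

/-- **Extension theorem for two families of thick sheets.**  A conical homeomorphism between the
unions of the boundary and the thick sheets, which respects the faces, extends to the balls. -/
theorem exists_extend_thick {n : ℕ} (hP1 : CutP (n + 1) E) (hP1' : CutP (n + 1) F)
    (hP : CutP n E) (hP' : CutP n F) (hI : IoDP (n + 2)) {C B : Set E} {K : Finset ι}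
    {N S₀ S₁ : ι → Set E} {L : Finset κ} {M T₀ T₁ : κ → Set E} {C' B' : Set F}
    {N' S₀' S₁' : ι → Set F} {M' T₀' T₁' : κ → Set F} (h : TTwo n C B K N S₀ S₁ L M T₀ T₁)
    (h' : TTwo n C' B' K N' S₀' S₁' L M' T₀' T₁')
    (hcross : ∀ k ∈ K, ∀ l ∈ L, ∀ a b : Bool, (fc S₀' S₁' (k, a) ∩ fc T₀' T₁' (l, b)).Nonempty →
      Crosses C' (fc S₀' S₁' (k, a)) (fc T₀' T₁' (l, b)))
    {W : Set E} {W' : Set F} (hW : W = skel B K N L M) (hW' : W' = skel B' K N' L M')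
    (Ψ : ConHomeo W W') (hB : Ψ.toFun '' B = B')
    (hS0 : ∀ k ∈ K, Ψ.toFun '' S₀ k = S₀' k)
    (hS1 : ∀ k ∈ K, Ψ.toFun '' S₁ k = S₁' k)
    (hT0 : ∀ l ∈ L, Ψ.toFun '' T₀ l = T₀' l) (hT1 : ∀ l ∈ L, Ψ.toFun '' T₁ l = T₁' l) :
    ∃ Φ : ConHomeo C C', EqOn Φ.toFun Ψ.toFun W := by
  set KK := K ×ˢ (Finset.univ : Finset Bool) with hKK
  set LL := L ×ˢ (Finset.univ : Finset Bool) with hLL
  have sB : B ⊆ W := fun x hx => hW ▸ mem_skel.2 (Or.inl hx)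
  have sN : ∀ k ∈ K, N k ⊆ W := fun k hk x hx => hW ▸ mem_skel.2 (Or.inr (Or.inl ⟨k, hk, hx⟩))
  have sM : ∀ l ∈ L, M l ⊆ W := fun l hl x hx => hW ▸ mem_skel.2 (Or.inr (Or.inr ⟨l, hl, hx⟩))
  have sB' : B' ⊆ W' := fun x hx => hW' ▸ mem_skel.2 (Or.inl hx)
  have sN' : ∀ k ∈ K, N' k ⊆ W' := fun k hk x hx =>
    hW' ▸ mem_skel.2 (Or.inr (Or.inl ⟨k, hk, hx⟩))
  have sM' : ∀ l ∈ L, M' l ⊆ W' := fun l hl x hx =>
    hW' ▸ mem_skel.2 (Or.inr (Or.inr ⟨l, hl, hx⟩))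
  have s1 : ∀ p ∈ KK, fc S₀ S₁ p ⊆ W := fun p hp => (h.fN.sfc (Finset.mem_product.1 hp).1).trans
    (sN _ (Finset.mem_product.1 hp).1)
  have s2 : ∀ p ∈ LL, fc T₀ T₁ p ⊆ W := fun p hp => (h.fM.sfc (Finset.mem_product.1 hp).1).trans
    (sM _ (Finset.mem_product.1 hp).1)
  have s1' : ∀ p ∈ KK, fc S₀' S₁' p ⊆ W' := fun p hp =>
    (h'.fN.sfc (Finset.mem_product.1 hp).1).trans (sN' _ (Finset.mem_product.1 hp).1)
  have s2' : ∀ p ∈ LL, fc T₀' T₁' p ⊆ W' := fun p hp =>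
    (h'.fM.sfc (Finset.mem_product.1 hp).1).trans (sM' _ (Finset.mem_product.1 hp).1)
  have iS : ∀ p ∈ KK, Ψ.toFun '' fc S₀ S₁ p = fc S₀' S₁' p := by
    rintro ⟨k, b⟩ hp
    have hk := (Finset.mem_product.1 hp).1
    cases b
    exacts [hS0 k hk, hS1 k hk]
  have iT : ∀ p ∈ LL, Ψ.toFun '' fc T₀ T₁ p = fc T₀' T₁' p := by
    rintro ⟨k, b⟩ hp
    have hk := (Finset.mem_product.1 hp).1
    cases b
    exacts [hT0 k hk, hT1 k hk]
  -- the thin skeleton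
  set G := skel B KK (fc S₀ S₁) LL (fc T₀ T₁) with hG
  set G' := skel B' KK (fc S₀' S₁') LL (fc T₀' T₁') with hG'
  have hGW : G ⊆ W := by
    intro x hx
    rw [hG, mem_skel] at hx
    rcases hx with hx | ⟨p, hp, hx⟩ | ⟨p, hp, hx⟩
    exacts [sB hx, s1 p hp hx, s2 p hp hx]
  have hGW' : G' ⊆ W' := by
    intro x hx
    rw [hG', mem_skel] at hx
    rcases hx with hx | ⟨p, hp, hx⟩ | ⟨p, hp, hx⟩
    exacts [sB' hx, s1' p hp hx, s2' p hp hx]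
  have mem : ∀ {X : Set E} {Y : Set F}, X ⊆ W → Ψ.toFun '' X = Y → ∀ x ∈ W,
      (Ψ.toFun x ∈ Y ↔ x ∈ X) := fun {X Y} hX hXY x hx => cor_of_image Ψ hX hXY x hx _ rfl
  have hΨG : Ψ.toFun '' G = G' := by
    refine image_of_cor Ψ hGW hGW' ?_
    rintro x hx _ rfl
    rw [hG, hG', mem_skel, mem_skel, mem sB hB x hx]
    refine or_congr Iff.rfl (or_congr (exists_congr fun p => and_congr_right fun hp =>
      mem (s1 p hp) (iS p hp) x hx) (exists_congr fun p => and_congr_right fun hp =>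
      mem (s2 p hp) (iT p hp) x hx))
  have hGc : ConicalSet G := by
    refine conicalSet_union h.fN.hC.conicalSet_bdry (conicalSet_union
      (conicalSet_biUnion (fun p hp => (h.thin.hS p hp).isClosed)
        (fun p hp => (h.thin.hS p hp).conicalSet))
      (conicalSet_biUnion (fun p hp => (h.thin.hT p hp).isClosed)
        (fun p hp => (h.thin.hT p hp).conicalSet)) ?_ ?_)
      h.fN.hC.isCompact_bdry.isClosed (IsClosed.union ?_ ?_)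
    · exact KK.finite_toSet.isClosed_biUnion fun p hp => (h.thin.hS p hp).isClosed
    · exact LL.finite_toSet.isClosed_biUnion fun p hp => (h.thin.hT p hp).isClosed
    · exact KK.finite_toSet.isClosed_biUnion fun p hp => (h.thin.hS p hp).isClosed
    · exact LL.finite_toSet.isClosed_biUnion fun p hp => (h.thin.hT p hp).isClosed
  let Ψ₁ : ConHomeo G G' := (Ψ.restr hGc hGW).cast rfl hΨG
  obtain ⟨Φ₁, hΦ₁⟩ := exists_extend_two hP1 hP1' hP hP' h.thin h'.thin (by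
    rintro ⟨k, a⟩ hp ⟨l, b⟩ hq hne
    exact hcross k (Finset.mem_product.1 hp).1 l (Finset.mem_product.1 hq).1 a b hne)
    hG hG' Ψ₁ hB iS iT
  have hΦΨ : ∀ x ∈ G, Φ₁.toFun x = Ψ.toFun x := fun x hx => hΦ₁ hx
  have tB : B ⊆ G := fun x hx => by rw [hG]; exact mem_skel.2 (Or.inl hx)
  have tS : ∀ k ∈ K, ∀ x, x ∈ S₀ k ∪ S₁ k → x ∈ G := fun k hk x hx => by
    rw [hG, mem_skel]
    exact Or.inr (Or.inl (mem_fc.2 ⟨k, hk, hx⟩))
  have tT : ∀ l ∈ L, ∀ x, x ∈ T₀ l ∪ T₁ l → x ∈ G := fun k hk x hx => by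
    rw [hG, mem_skel]
    exact Or.inr (Or.inr (mem_fc.2 ⟨k, hk, hx⟩))
  have im : ∀ {X : Set E} {Y : Set F}, X ⊆ G → Ψ.toFun '' X = Y → Φ₁.toFun '' X = Y := by
    intro X Y hX hXY
    rw [← hXY]
    exact (EqOn.mono hX hΦΨ).image_eq
  have jB : Φ₁.toFun '' B = B' := im tB hB
  have jS0 : ∀ k ∈ K, Φ₁.toFun '' S₀ k = S₀' k := fun k hk =>
    im (fun x hx => tS k hk x (Or.inl hx)) (hS0 k hk)
  have jS1 : ∀ k ∈ K, Φ₁.toFun '' S₁ k = S₁' k := fun k hk =>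
    im (fun x hx => tS k hk x (Or.inr hx)) (hS1 k hk)
  have jT0 : ∀ k ∈ L, Φ₁.toFun '' T₀ k = T₀' k := fun k hk =>
    im (fun x hx => tT k hk x (Or.inl hx)) (hT0 k hk)
  have jT1 : ∀ k ∈ L, Φ₁.toFun '' T₁ k = T₁' k := fun k hk =>
    im (fun x hx => tT k hk x (Or.inr hx)) (hT1 k hk)
  have jN : ∀ k ∈ K, Φ₁.toFun '' N k = N' k := fun k hk =>
    h.fN.image_mid hP1' hI h'.fN Φ₁ jB hk (jS0 k hk) (jS1 k hk)
  have jM : ∀ k ∈ L, Φ₁.toFun '' M k = M' k := fun k hk =>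
    h.fM.image_mid hP1' hI h'.fM Φ₁ jB hk (jT0 k hk) (jT1 k hk)
  have memC : ∀ {X : Set E} {Y : Set F}, X ⊆ C → Φ₁.toFun '' X = Y → ∀ x ∈ C,
      (Φ₁.toFun x ∈ Y ↔ x ∈ X) := fun {X Y} hX hXY x hx => cor_of_image Φ₁ hX hXY x hx _ rfl
  -- the outside
  have oN : ∀ x ∈ C, (Φ₁.toFun x ∈ outs C' K N' S₀' S₁' ↔ x ∈ outs C K N S₀ S₁) := by
    intro x hx
    have hy := Φ₁.mapsTo hx
    constructor
    · rintro ⟨_, hq⟩
      refine ⟨hx, fun k hk hxA => ?_⟩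
      exact (hq k hk ((memC (h.fN.NC hk) (jN k hk) x hx).2 hxA)).imp
        (memC ((h.fN.s0 hk).trans (h.fN.NC hk)) (jS0 k hk) x hx).1
        (memC ((h.fN.s1 hk).trans (h.fN.NC hk)) (jS1 k hk) x hx).1
    · rintro ⟨_, hq⟩
      refine ⟨hy, fun k hk hxA => ?_⟩
      exact (hq k hk ((memC (h.fN.NC hk) (jN k hk) x hx).1 hxA)).imp
        (memC ((h.fN.s0 hk).trans (h.fN.NC hk)) (jS0 k hk) x hx).2
        (memC ((h.fN.s1 hk).trans (h.fN.NC hk)) (jS1 k hk) x hx).2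
  have oM : ∀ x ∈ C, (Φ₁.toFun x ∈ outs C' L M' T₀' T₁' ↔ x ∈ outs C L M T₀ T₁) := by
    intro x hx
    have hy := Φ₁.mapsTo hx
    constructor
    · rintro ⟨_, hq⟩
      refine ⟨hx, fun k hk hxA => ?_⟩
      exact (hq k hk ((memC (h.fM.NC hk) (jM k hk) x hx).2 hxA)).imp
        (memC ((h.fM.s0 hk).trans (h.fM.NC hk)) (jT0 k hk) x hx).1
        (memC ((h.fM.s1 hk).trans (h.fM.NC hk)) (jT1 k hk) x hx).1
    · rintro ⟨_, hq⟩
      refine ⟨hy, fun k hk hxA => ?_⟩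
      exact (hq k hk ((memC (h.fM.NC hk) (jM k hk) x hx).1 hxA)).imp
        (memC ((h.fM.s0 hk).trans (h.fM.NC hk)) (jT0 k hk) x hx).2
        (memC ((h.fM.s1 hk).trans (h.fM.NC hk)) (jT1 k hk) x hx).2
  have hΦO : Φ₁.toFun '' TO C K N S₀ S₁ L M T₀ T₁ = TO C' K N' S₀' S₁' L M' T₀' T₁' := by
    refine image_of_cor Φ₁ (fun x hx => hx.1.1) (fun x hx => hx.1.1) ?_
    rintro x hx _ rfl
    exact and_congr (oN x hx) (oM x hx)
  have int : ∀ x ∈ W, x ∈ TO C K N S₀ S₁ L M T₀ T₁ → x ∈ G := by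
    intro x hx hx'
    rw [hW, mem_skel] at hx
    rcases hx with hx | ⟨k, hk, hx⟩ | ⟨l, hl, hx⟩
    · exact tB hx
    · exact tS k hk x (hx'.1.2 k hk hx)
    · exact tT l hl x (hx'.2.2 l hl hx)
  obtain ⟨a1, a2⟩ := h.fN.outs_props hP1 hI
  obtain ⟨b1, b2⟩ := h.fM.outs_props hP1 hI
  obtain ⟨a1', a2'⟩ := h'.fN.outs_props hP1' hI
  obtain ⟨b1', b2'⟩ := h'.fM.outs_props hP1' hI
  obtain ⟨Θ, hΘ1, -⟩ := exists_replace_on Φ₁ Ψ (hW ▸ h.isClosed_W) (a1.inter b1) (a2.inter b2)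
    (hW' ▸ h'.isClosed_W) (a1'.inter b1') (hW ▸ h.cover) (hW' ▸ h'.cover) hΦO
    (fun x hx => (hΦΨ x (int x hx.1 hx.2)).symm) (by
      rintro y ⟨hy, hy'⟩
      have hy'' : y ∈ TO C' K N' S₀' S₁' L M' T₀' T₁' := hy'
      rw [← hΦO] at hy''
      obtain ⟨x, hx, rfl⟩ := hy''
      have hxC : x ∈ C := hx.1.1
      refine ⟨x, ⟨?_, hx⟩, rfl⟩
      rw [hW', mem_skel] at hy
      rw [hW, mem_skel]
      rcases hy with hy | ⟨k, hk, hy⟩ | ⟨l, hl, hy⟩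
      · exact Or.inl ((memC h.fN.hC.1 jB x hxC).1 hy)
      · exact Or.inr (Or.inl ⟨k, hk, (memC (h.fN.NC hk) (jN k hk) x hxC).1 hy⟩)
      · exact Or.inr (Or.inr ⟨l, hl, (memC (h.fM.NC hl) (jM l hl) x hxC).1 hy⟩))
  exact ⟨Θ, hΘ1⟩

end P073.H341
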