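import Vale.Agent.P073.H341.Two
import Vale.Agent.P073.H341.Thick3
import Vale.Agent.P073.H341.Level
import Vale.Agent.P073.ALX.Alexander
import Vale.Agent.P073.H339.SphereJS
import Vale.Agent.P073.IoD

/-!
# P073, H341: the unconditional forms in dimensions two and three
-/

set_option linter.unusedSectionVars false

open Set Metric Topology Filter

namespace P073.H341

open P073 P073.H339

variable {E F : Type*} [NormedAddCommGroup E] [NormedSpace ℝ E]
  [NormedAddCommGroup F] [NormedSpace ℝ F] {ι κ : Type*}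

/-- **every proper disc cuts a conical three-ball** -/
theorem cutP_two' : CutP 2 E := cutP_two ALX.ambStd_three jordanSch_sphere

theorem ioDP (n : ℕ) : IoDP n := fun _ _ hU hf hi =>
  Vale.Agent.P073.Sep.isOpen_image_of_injOn hU hf hi

/-- disjoint proper arcs in a disc -/
theorem fel_two {C B : Set E} {K : Finset ι} {S : ι → Set E} {C' B' : Set F} {S' : ι → Set F}
    (h : Fam 1 C B K S) (h' : Fam 1 C' B' K S') (φ : ConHomeo B B')
    (ψ : ∀ k ∈ K, ConHomeo (S k) (S' k)) (hφ : ∀ k ∈ K, φ.toFun '' (S k ∩ B) = S' k ∩ B')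
    (hψ : ∀ k (hk : k ∈ K), EqOn (ψ k hk).toFun φ.toFun (S k ∩ B)) :
    ∃ Φ : ConHomeo C C', EqOn Φ.toFun φ.toFun B ∧
      ∀ k (hk : k ∈ K), EqOn Φ.toFun (ψ k hk).toFun (S k) :=
  fel' cutP_one cutP_one h h' φ ψ hφ hψ

/-- disjoint proper discs in a ball -/
theorem fel_three {C B : Set E} {K : Finset ι} {S : ι → Set E} {C' B' : Set F} {S' : ι → Set F}
    (h : Fam 2 C B K S) (h' : Fam 2 C' B' K S') (φ : ConHomeo B B')
    (ψ : ∀ k ∈ K, ConHomeo (S k) (S' k)) (hφ : ∀ k ∈ K, φ.toFun '' (S k ∩ B) = S' k ∩ B')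
    (hψ : ∀ k (hk : k ∈ K), EqOn (ψ k hk).toFun φ.toFun (S k ∩ B)) :
    ∃ Φ : ConHomeo C C', EqOn Φ.toFun φ.toFun B ∧
      ∀ k (hk : k ∈ K), EqOn Φ.toFun (ψ k hk).toFun (S k) :=
  fel' cutP_two' cutP_two' h h' φ ψ hφ hψ

/-- **two crossing families of discs in a ball**, only the homeomorphism of the boundary is given -/
theorem two_three {C B : Set E} {K : Finset ι} {S : ι → Set E} {L : Finset κ}
    {T : κ → Set E} {C' B' : Set F} {S' : ι → Set F} {T' : κ → Set F}
    (h : TwoFam 1 C B K S L T) (h' : TwoFam 1 C' B' K S' L T')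
    (hx : ∀ k ∈ K, ∀ l ∈ L, (S' k ∩ T' l).Nonempty → Crosses C' (S' k) (T' l))
    (φ : ConHomeo B B') (hS : ∀ k ∈ K, φ.toFun '' (S k ∩ B) = S' k ∩ B')
    (hT : ∀ l ∈ L, φ.toFun '' (T l ∩ B) = T' l ∩ B')
    (hne : ∀ k ∈ K, ∀ l ∈ L, ((S k ∩ T l).Nonempty ↔ (S' k ∩ T' l).Nonempty)) :
    ∃ Φ : ConHomeo C C', EqOn Φ.toFun φ.toFun B ∧ (∀ k ∈ K, Φ.toFun '' S k = S' k) ∧
      ∀ l ∈ L, Φ.toFun '' T l = T' l :=
  two cutP_two' cutP_two' cutP_one cutP_one h h' hx φ hS hT hne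

/-- two crossing families of discs in a ball, homeomorphism given on boundary and sheets -/
theorem exists_extend_two_three {C B : Set E} {K : Finset ι} {S : ι → Set E} {L : Finset κ}
    {T : κ → Set E} {C' B' : Set F} {S' : ι → Set F} {T' : κ → Set F} (h : TwoFam 1 C B K S L T)
    (h' : TwoFam 1 C' B' K S' L T')
    (hx : ∀ k ∈ K, ∀ l ∈ L, (S' k ∩ T' l).Nonempty → Crosses C' (S' k) (T' l))
    {G : Set E} {G' : Set F} (hG : G = skel B K S L T) (hG' : G' = skel B' K S' L T')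
    (Ψ : ConHomeo G G') (hB : Ψ.toFun '' B = B') (hS : ∀ k ∈ K, Ψ.toFun '' S k = S' k)
    (hT : ∀ l ∈ L, Ψ.toFun '' T l = T' l) :
    ∃ Φ : ConHomeo C C', EqOn Φ.toFun Ψ.toFun G :=
  exists_extend_two cutP_two' cutP_two' cutP_one cutP_one h h' hx hG hG' Ψ hB hS hT

/-- two crossing families of arcs in a disc, homeomorphism given on boundary and arcs -/
theorem exists_extend_two_two {C B : Set E} {K : Finset ι} {S : ι → Set E} {L : Finset κ}
    {T : κ → Set E} {C' B' : Set F} {S' : ι → Set F} {T' : κ → Set F} (h : TwoFam 0 C B K S L T)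
    (h' : TwoFam 0 C' B' K S' L T')
    (hx : ∀ k ∈ K, ∀ l ∈ L, (S' k ∩ T' l).Nonempty → Crosses C' (S' k) (T' l))
    {G : Set E} {G' : Set F} (hG : G = skel B K S L T) (hG' : G' = skel B' K S' L T')
    (Ψ : ConHomeo G G') (hB : Ψ.toFun '' B = B') (hS : ∀ k ∈ K, Ψ.toFun '' S k = S' k)
    (hT : ∀ l ∈ L, Ψ.toFun '' T l = T' l) :
    ∃ Φ : ConHomeo C C', EqOn Φ.toFun Ψ.toFun G :=
  exists_extend_two cutP_one cutP_one cutP_zero cutP_zero h h' hx hG hG' Ψ hB hS hT

/-- the chamber theorem in dimension three -/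
theorem chambers_three (K : Finset ι) (L : Finset κ) : Good 1 E F K L :=
  good_two cutP_two' cutP_two' cutP_one cutP_one K L

/-- the chamber theorem in dimension two -/
theorem chambers_two (K : Finset ι) (L : Finset κ) : Good 0 E F K L :=
  good_two cutP_one cutP_one cutP_zero cutP_zero K L

end P073.H341
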