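import Vale.Agent.P073.H341.PIn3C

/-!
# P073, H341: **[P-IN3]**, segments, regularity, and the theorem

`exists_pin3`: H880's `ROut3` and further fields `ROutZ`.
-/

set_option linter.unusedSectionVars false

open Set Metric Topology Filter

namespace Vale.Agent.P073.H341

open _root_.P073 _root_.P073.TR _root_.P073.H579 _root_.P073.PA691
open _root_.P073.H805 (Plate HasPat Clean Reg pFam SameLev Crosses crosses_of_box ptsI ptsJ)
open _root_.P073.H341 (ZOk YZ PlateInZ PlatesOutZ TouchP hasPat_cleanP hasPat_injP exists_platesZ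
  trP)
open _root_.P073.H880.RP (Dat ROut3)
open _root_.P073.H345 (tg)
open Vale.Agent.P073.H238 (PFace meshFace mesh_sub)
open Vale.Agent.P073.H73 (Mesh)
open Vale.Agent.P073.St (V)
open Vale.Agent.P073.H471 (Rad Wid Boxes Near)
open Vale.Agent.P073.H267 (Geo)
open Vale.Agent.P073.H193 (Edges)
open Vale.Agent.P073.H805 (t1 t2 t1_ne t2_ne t1_ne_t2 t_cases near_of_PB isOpen_near oS_pos oS_p
  SideNear PB_mono PB_eq lvs mem_lvs not_two EdgeOk mFam mFam_mesh closure_relint)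

variable {Ω Λ : Set V} {v : V} {K : BoxCx Λ v} {S : Rad K} {W : Wid K S} {B : Boxes W}
  {G : Geo B} {M : Mesh Ω} {h h2 : ConHomeo Ω Λ} {D : Dat K M} {L : K.S → Fin 3 → Finset ℝ}
  {E : Edges M} {ι : Type} {F : ι → Set V}

theorem pts_eq3 (c : {s : K.S // s ∈ D.S₀}) (w : V → V) (A : Set V) :
    {x | x ∈ A ∧ ∃ l, w x l ∈ lvs L c.1 l} =
      ptsI w (pzc G D L c) A ∪ ptsJ w (pzc G D L c) A := by
  ext x
  simp only [ptsI, ptsJ, mem_ofPred_eq, mem_union, pzc, pz]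
  constructor
  · rintro ⟨hx, l, hl⟩
    rw [mem_lvs] at hl
    rcases t_cases hl.1 with rfl | rfl
    · exact Or.inl ⟨hx, hl.2⟩
    · exact Or.inr ⟨hx, hl.2⟩
  · rintro (⟨hx, h1⟩ | ⟨hx, h1⟩)
    · exact ⟨hx, _, mem_lvs.2 ⟨t1_ne _, h1⟩⟩
    · exact ⟨hx, _, mem_lvs.2 ⟨t2_ne _, h1⟩⟩

/-- the points of a segment on the levels are finitely many -/
theorem fin_pts {w : ConHomeo Ω Λ} {s : K.S} {A : Set V} {a b : V} (hA : A = segment ℝ a b)
    (hAΩ : A ⊆ Ω) (Q : EdgeOk w.toFun L s A) : {x | x ∈ A ∧ ∃ l, w.toFun x l ∈ lvs L s l}.Finite := by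
  by_cases hab : a = b
  · refine (finite_singleton a).subset ?_
    rintro x ⟨hx, -⟩
    rw [hA, ← hab, segment_same] at hx
    exact hx
  · subst hA
    exact (_root_.P073.H805.exists_edgeIn (segC hab) (w.injOn.mono hAΩ) (w.cont.mono hAΩ)
      (w.conical.mono ((convex_segment _ _).conicalSet) hAΩ) Q.off Q.cross).1

section

variable (H : RIn3 G E D h L F)

include H

theorem RIn3.edgeOk_h {s : K.S} (hs : s ∈ D.S₀) {i : ι} {a b : V} (hi : F i = segment ℝ a b)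
    (hΩ : F i ⊆ Ω) : EdgeOk h.toFun L s (F i) := by
  constructor
  · intro x hx l l' h1 h3
    rw [mem_lvs] at h1 h3
    have key : h.toFun x (t1 (K.nrm s)) ∈ L s (t1 (K.nrm s)) →
        h.toFun x (t2 (K.nrm s)) ∈ L s (t2 (K.nrm s)) → False := fun k1 k2 =>
      not_two (F := pFam h F (pzc G D L)) (m := Sum.inl i) (a := a) (b := b) hi (hi ▸ hx)
        (H.reg2 s hs x (hΩ hx) k1 k2)
    rcases t_cases h1.1 with rfl | rfl <;> rcases t_cases h3.1 with h4 | h4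
    · exact h4.symm
    · rw [h4] at h3
      exact (key h1.2 h3.2).elim
    · rw [h4] at h3
      exact (key h3.2 h1.2).elim
    · exact h4.symm
  · intro x hx l h1
    rw [mem_lvs] at h1
    obtain ⟨σ, r, hb⟩ := H.reg1 s hs l h1.1 x (hΩ hx) h1.2
    have h3 := crosses_of_box hb (m := Sum.inl i) (n := Sum.inl i) hx hx
    exact h3.mono inter_subset_left

variable (O : PlatesOutZ h h2 M.F (fun k => meshFace M k) F (pzc G D L) (zc G D) (univ : Set M.κ))

include O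

/-- **segments after the exchange** -/
theorem RIn3.edge_of {s : K.S} (hs : s ∈ D.S₀) {i : ι} {a b : V} (hi : F i = segment ℝ a b)
    (hΩ : F i ⊆ Ω) (hno : ∀ s' ∈ D.S₀, s' ≠ s → ∀ x ∈ F i, h.toFun x ∉ interior (D.PE G s')) :
    EdgeOk h2.toFun L s (F i) ∧
      {x | x ∈ F i ∧ ∃ l, h2.toFun x l ∈ lvs L s l}.Finite ∧
      {x | x ∈ F i ∧ ∃ l, h.toFun x l ∈ lvs L s l}.Finite ∧
      {x | x ∈ F i ∧ ∃ l, h2.toFun x l ∈ lvs L s l}.ncard ≤
        {x | x ∈ F i ∧ ∃ l, h.toFun x l ∈ lvs L s l}.ncard := by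
  have Q := H.edgeOk_h hs hi hΩ
  set c : {s : K.S // s ∈ D.S₀} := ⟨s, hs⟩ with hc
  have hcs : c.1 = s := rfl
  have hd : ∀ d, d ≠ c → F i ∩ (pzc G D L d).U h ⊆ (pzc G D L d).B h := by
    rintro d hd z ⟨hz, hzU⟩
    have hU' := (mem_U_pz H.ht H.win d.2).1 hzU
    exact (mem_B_pz H.ht H.win d.2).2 ⟨hU'.1, hU'.2,
      hno d.1 d.2 (fun he => hd (Subtype.ext he)) z hz⟩
  have cross2 : ∀ y ∈ F i, ∀ l, h2.toFun y l ∈ lvs L s l →
      Crosses (F i) (fun y => h2.toFun y l) y := by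
    intro y hy l hl
    rw [mem_lvs] at hl
    rcases t_cases hl.1 with rfl | rfl
    · exact O.crossi c i hd y hy (hΩ hy) hl.2
    · exact O.crossj c i hd y hy (hΩ hy) hl.2
  have hP : {x | x ∈ F i ∧ ∃ l, h.toFun x l ∈ lvs L s l}.Finite := fin_pts hi hΩ Q
  have hoff1 : ∀ y ∈ F i, h.toFun y (pzc G D L c).i ∈ (pzc G D L c).a →
      h.toFun y (pzc G D L c).j ∉ (pzc G D L c).b := by
    intro y hy h1 h3
    exact t1_ne_t2 _ (Q.off y hy _ _ (mem_lvs.2 ⟨t1_ne _, h1⟩) (mem_lvs.2 ⟨t2_ne _, h3⟩))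
  have hPe := pts_eq3 (G := G) (L := L) c h.toFun (F i)
  rw [hcs] at hPe
  obtain ⟨k0, k1, k2, k3⟩ := O.count c i hd hΩ hoff1
    (hP.subset (by rw [hPe]; exact subset_union_left))
    (hP.subset (by rw [hPe]; exact subset_union_right))
  have hPe2 := pts_eq3 (G := G) (L := L) c h2.toFun (F i)
  rw [hcs] at hPe2
  have dis : ∀ w : V → V, (∀ y ∈ F i, w y (pzc G D L c).i ∈ (pzc G D L c).a →
      w y (pzc G D L c).j ∉ (pzc G D L c).b) →
      Disjoint (ptsI w (pzc G D L c) (F i)) (ptsJ w (pzc G D L c) (F i)) := by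
    intro w hw
    rw [Set.disjoint_left]
    rintro y ⟨hy, h1⟩ ⟨-, h3⟩
    exact hw y hy h1 h3
  have Q2 : EdgeOk h2.toFun L s (F i) := by
    refine ⟨fun y hy l l' h1 h3 => ?_, cross2⟩
    rw [mem_lvs] at h1 h3
    have key : h2.toFun y (t1 (K.nrm s)) ∈ L s (t1 (K.nrm s)) →
        h2.toFun y (t2 (K.nrm s)) ∈ L s (t2 (K.nrm s)) → False := fun j1 j2 => k0 y hy j1 j2
    rcases t_cases h1.1 with rfl | rfl <;> rcases t_cases h3.1 with h4 | h4
    · exact h4.symm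
    · rw [h4] at h3
      exact (key h1.2 h3.2).elim
    · rw [h4] at h3
      exact (key h3.2 h1.2).elim
    · exact h4.symm
  refine ⟨Q2, fin_pts hi hΩ Q2, hP, ?_⟩
  rw [hPe, hPe2, ncard_union_eq (dis _ k0) k1 k2,
    ncard_union_eq (dis _ hoff1) (hP.subset (by rw [hPe]; exact subset_union_left))
      (hP.subset (by rw [hPe]; exact subset_union_right))]
  exact k3

/-- **regular functions with the levels of `h2`** -/
theorem RIn3.reg_of {s : K.S} (hs : s ∈ D.S₀) :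
    ∃ u : Bool → V → ℝ, (∀ β, ConicalOn (u β) Ω ∧ ContinuousOn (u β) Ω) ∧
      (∀ β, SameLev (L s (tg s β)) {x | x ∈ Ω ∧ ∀ s' ∈ D.S₀, s' ≠ s →
          h.toFun x ∉ interior (D.PE G s')} (fun x => h2.toFun x (tg s β)) (u β)) ∧
      (∀ β, ∀ x ∈ Ω, u β x ∈ L s (tg s β) → Reg (u β) (pFam h F (pzc G D L)) x) ∧
      ∀ x ∈ Ω, u false x ∈ L s (tg s false) → u true x ∈ L s (tg s true) →
        Reg (fun y => (u false y, u true y)) (pFam h F (pzc G D L)) x := by
  obtain ⟨u, v, Q⟩ := O.reg ⟨s, hs⟩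
  have hsub : {x | x ∈ Ω ∧ ∀ s' ∈ D.S₀, s' ≠ s → h.toFun x ∉ interior (D.PE G s')} ⊆
      {x | x ∈ Ω ∧ ∀ d, d ≠ (⟨s, hs⟩ : {s : K.S // s ∈ D.S₀}) →
        h.toFun x ∉ interior (Icc (pzc G D L d).lo (pzc G D L d).hi)} := by
    rintro x ⟨hx, hxs⟩
    refine ⟨hx, fun d hd => ?_⟩
    show h.toFun x ∉ interior (Icc (pz G D L d.1).lo (pz G D L d.1).hi)
    rw [pz_eq]
    exact hxs d.1 d.2 fun he => hd (Subtype.ext he)
  refine ⟨fun β => bif β then v else u, ?_, ?_, ?_, ?_⟩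
  · rintro (_ | _)
    · exact ⟨Q.conu, Q.contu⟩
    · exact ⟨Q.conv, Q.contv⟩
  · rintro (_ | _)
    · exact Q.su.mono hsub
    · exact Q.sv.mono hsub
  · rintro (_ | _)
    · exact Q.regu
    · exact Q.regv
  · exact Q.reguv

/-- the vertices are on no level -/
theorem RIn3.vertex {s : K.S} (hs : s ∈ D.S₀) {y : V} (hy : y ∈ E.verts)
    (hno : ∀ s' ∈ D.S₀, s' ≠ s → h.toFun y ∉ interior (D.PE G s')) (l : Fin 3) :
    h2.toFun y l ∉ lvs L s l := by
  intro hl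
  rw [mem_lvs] at hl
  obtain ⟨e, he⟩ : ∃ e, y = E.a e ∨ y = E.b e := by
    rcases hy with ⟨e, rfl⟩ | ⟨e, rfl⟩
    · exact ⟨e, Or.inl rfl⟩
    · exact ⟨e, Or.inr rfl⟩
  have hye : y ∈ E.seg e := by
    rcases he with rfl | rfl
    · exact left_mem_segment ℝ _ _
    · exact right_mem_segment ℝ _ _
  have hyΩ : y ∈ Ω := E.seg_sub_Ω e hye
  obtain ⟨g, hg⟩ := H.seg e
  obtain ⟨u, k1, k2, k3, -⟩ := H.reg_of O hs
  -- one of the two functions is regular at the vertex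
  obtain ⟨β, hβ⟩ : ∃ β, tg s β = l := by
    rcases _root_.P073.H345.tg_cases s true hl.1 with h1 | h1
    · exact ⟨_, h1.symm⟩
    · exact ⟨_, h1.symm⟩
  subst hβ
  have hu : u β y ∈ L s (tg s β) := by
    have h1 := (k2 β _ hl.2 y ⟨hyΩ, hno⟩).1.1 rfl
    rw [h1]; exact hl.2
  obtain ⟨σ, r, hb⟩ := k3 β y hyΩ hu
  have hyg : y ∈ F g := by rw [hg]; exact hye
  have hcr : Crosses (E.seg e) (u β) y := by
    have h3 := (crosses_of_box hb (m := Sum.inl g) (n := Sum.inl g) hyg hyg).mono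
      (A' := F g) inter_subset_left
    rw [hg] at h3
    exact h3
  have hkj : ConicalOn (u β) (E.seg e) :=
    (k1 β).1.mono ((convex_segment _ _).conicalSet) (E.seg_sub_Ω e)
  have i0 : (0:ℝ) ∈ Icc (0:ℝ) 1 := ⟨le_refl _, zero_le_one⟩
  have i1 : (1:ℝ) ∈ Icc (0:ℝ) 1 := ⟨zero_le_one, le_refl _⟩
  have ea : (segC (E.ne e)).toFun 0 = E.a e := by rw [segC_toFun]; simp
  have eb : (segC (E.ne e)).toFun 1 = E.b e := by rw [segC_toFun]; simp
  have h3 := (_root_.P073.H805.Crosses.local (segC (E.ne e)) hkj hye hcr).1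
  rcases he with rfl | rfl
  · rw [(congrArg (segC (E.ne e)).invFun ea.symm).trans ((segC (E.ne e)).left_inv i0)] at h3
    exact lt_irrefl _ h3.1
  · rw [(congrArg (segC (E.ne e)).invFun eb.symm).trans ((segC (E.ne e)).left_inv i1)] at h3
    exact lt_irrefl _ h3.2

end

/-- **further output of the exchange** -/
structure ROutZ (G : Geo B) (E : Edges M) (D : Dat K M) (h h2 : ConHomeo Ω Λ)
    (L : K.S → Fin 3 → Finset ℝ) {ι : Type} (F : ι → Set V) : Prop where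
  /-- the interiors of the boxes are preserved -/
  intbox : ∀ s ∈ D.S₀, ∀ x ∈ Ω,
    h2.toFun x ∈ interior (D.PE G s) ↔ h.toFun x ∈ interior (D.PE G s)
  /-- the levels on the safe sets are unchanged -/
  lev : ∀ s ∈ D.S₀, ∀ x ∈ Ω, (h.toFun x ∈ interior (D.PE G s) →
      h.toFun x ∈ D.ZE G s ∨ Mg G s (5 / 4) (h.toFun x)) →
    (∀ s' ∈ D.S₀, s' ≠ s → h.toFun x ∉ interior (D.PE G s')) → ∀ l, ∀ t ∈ lvs L s l,
    (h2.toFun x l = t ↔ h.toFun x l = t) ∧ (h2.toFun x l < t ↔ h.toFun x l < t) ∧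
      (t < h2.toFun x l ↔ t < h.toFun x l)
  /-- pattern of the faces inside a box, off the safe set, or without circles and crossing
  points -/
  patIn : ∀ s ∈ D.S₀, ∀ k, (∀ x ∈ M.F k, h.toFun x ∈ D.PE G s) →
    (∀ x ∈ intrinsicInterior ℝ (M.F k), h.toFun x ∈ interior (D.PE G s)) →
    ((∀ x ∈ intrinsicInterior ℝ (M.F k), h.toFun x ∉ D.ZE G s ∧
      ¬ Mg G s (5 / 4) (h.toFun x)) ∨ Clean h.toFun (pz G D L s) (M.F k)) →
    PatS L s h2.toFun (M.F k)
  /-- sets which meet the box in the safe set keep their pattern -/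
  keep : ∀ s ∈ D.S₀, ∀ A : Set V, A ⊆ Ω → (∀ x ∈ A, h.toFun x ∈ interior (D.PE G s) →
      h.toFun x ∈ D.ZE G s ∨ Mg G s (5 / 4) (h.toFun x)) →
    (∀ s' ∈ D.S₀, s' ≠ s → ∀ x ∈ A, h.toFun x ∉ interior (D.PE G s')) →
    PatS L s h.toFun A → PatS L s h2.toFun A
  /-- the pattern before the exchange -/
  pat_clean : ∀ s ∈ D.S₀, ∀ k, Clean h.toFun (pz G D L s) (M.F k) → PatS L s h.toFun (M.F k)
  pat_inj : ∀ s ∈ D.S₀, ∀ k, (∀ x ∈ M.F k, ∀ y ∈ M.F k,
      h.toFun x (t1 (K.nrm s)) = h.toFun y (t1 (K.nrm s)) →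
      h.toFun x (t2 (K.nrm s)) = h.toFun y (t2 (K.nrm s)) → x = y) → PatS L s h.toFun (M.F k)
  /-- every clean disc of a face inside a box meets the safe set -/
  clean : ∀ s ∈ D.S₀, ∀ k, (∀ x ∈ M.F k, h.toFun x ∈ D.PE G s) →
    (∀ x ∈ intrinsicInterior ℝ (M.F k), h.toFun x ∈ interior (D.PE G s)) →
    ∀ A, _root_.P073.H579.CleanDisc (meshFace M k).C
      (trP (meshFace M k) h2.toFun (pz G D L s)) A →
    ∃ z ∈ A, h.toFun ((meshFace M k).ch z) ∈ D.ZE G s ∨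
      Mg G s (5 / 4) (h.toFun ((meshFace M k).ch z))
  /-- vertices are on no level -/
  vertex : ∀ s ∈ D.S₀, ∀ y ∈ E.verts,
    (∀ s' ∈ D.S₀, s' ≠ s → h.toFun y ∉ interior (D.PE G s')) → ∀ l, h2.toFun y l ∉ lvs L s l
  /-- segments which meet no other box -/
  seg : ∀ i, (∃ a b, F i = segment ℝ a b) → F i ⊆ Ω → ∀ s ∈ D.S₀,
    (∀ s' ∈ D.S₀, s' ≠ s → ∀ x ∈ F i, h.toFun x ∉ interior (D.PE G s')) →
    EdgeOk h2.toFun L s (F i) ∧
    {x | x ∈ F i ∧ ∃ l, h2.toFun x l ∈ lvs L s l}.Finite ∧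
    {x | x ∈ F i ∧ ∃ l, h.toFun x l ∈ lvs L s l}.Finite ∧
    {x | x ∈ F i ∧ ∃ l, h2.toFun x l ∈ lvs L s l}.ncard ≤
      {x | x ∈ F i ∧ ∃ l, h.toFun x l ∈ lvs L s l}.ncard
  /-- regular functions, for the family with the preimages of the boxes -/
  reg : ∀ s ∈ D.S₀, ∃ u : Bool → V → ℝ, (∀ β, ConicalOn (u β) Ω ∧ ContinuousOn (u β) Ω) ∧
    (∀ β, SameLev (L s (tg s β)) {x | x ∈ Ω ∧ ∀ s' ∈ D.S₀, s' ≠ s →
        h.toFun x ∉ interior (D.PE G s')} (fun x => h2.toFun x (tg s β)) (u β)) ∧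
    (∀ β, ∀ x ∈ Ω, u β x ∈ L s (tg s β) → Reg (u β) (pFam h F (pzc G D L)) x) ∧
    ∀ x ∈ Ω, u false x ∈ L s (tg s false) → u true x ∈ L s (tg s true) →
      Reg (fun y => (u false y, u true y)) (pFam h F (pzc G D L)) x
  /-- the output in the form of the plates -/
  plates : PlatesOutZ h h2 M.F (fun k => meshFace M k) F (pzc G D L) (zc G D) (univ : Set M.κ)

/-- **[P-IN3]** -/
theorem exists_pin3 (hΩ : IsOpen Ω) (hΛ : IsOpen Λ) (H : RIn3 G E D h L F) :
    ∃ h2 : ConHomeo Ω Λ, ROut3 G E D h h2 L F ∧ ROutZ G E D h h2 L F := by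
  obtain ⟨h2, O⟩ := exists_platesZ hΩ hΛ (fun k => meshFace M k) (H.plateIn hΩ)
  have hedge : ∀ s k, D.PkS G h s k → ∀ e, E.seg e ⊆ M.F k → EdgeOk h2.toFun L s (E.seg e) := by
    intro s k hk e he
    obtain ⟨g, hg⟩ := H.seg e
    rw [← hg]
    refine (H.edge_of O hk.1 (a := E.a e) (b := E.b e) hg
      (by rw [hg]; exact E.seg_sub_Ω e) fun s' hs' hne x hx hi => ?_).1
    rw [hg] at hx
    exact H.other O hk hs' hne (he hx) (interior_subset hi)
  refine ⟨h2, ?_, ?_⟩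
  · exact {
      off := fun x hx hno => off3 O hx hno
      box := fun s hs x hx => box3 O hs hx
      prot := fun i hi x hx => off3 O (M.sub i hx) (H.prot i hi x hx)
      near := fun s k hk y hy => H.near2 O hk hy
      pat := fun s k hk => H.pat_of O hΩ hk
      vert := fun s k hk y hy hyk l => H.vertex O hk.1 hy (fun s' hs' hne hi =>
        H.other O hk hs' hne hyk (interior_subset hi)) l
      edge := hedge
      reg := by
        intro s hs
        obtain ⟨u, k1, k2, k3, k4⟩ := H.reg_of O hs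
        refine ⟨u, k1, fun β => (k2 β).mono ?_, fun β x hx hu =>
          (k3 β x hx hu).reindex fun k => ⟨Sum.inl k, rfl⟩, fun x hx h1 h3 =>
          (k4 x hx h1 h3).reindex fun k => ⟨Sum.inl k, rfl⟩⟩
        rintro x ⟨hx, hxs⟩
        exact ⟨hx, fun s' hs' hne hi => hxs s' hs' hne (interior_subset hi)⟩
      cnt := by
        rintro i ⟨a, b, hi⟩ hΩi s hs hno
        exact H.edge_of O hs hi hΩi fun s' hs' hne x hx hi' =>
          hno s' hs' hne x hx (interior_subset hi') }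
  · exact {
      intbox := by
        intro s hs x hx
        refine ⟨fun hi => ?_, fun hi => intbox3 H O hs hx hi⟩
        by_contra hno
        have h1 := (box3 O hs hx).1 (interior_subset hi)
        have h3 : h2.toFun x = h.toFun x := by
          refine off3 O hx fun s' hs' hd => ?_
          by_cases he : s' = s
          · subst he; exact hno hd
          · exact Set.disjoint_left.1 (pe_dis H.ht hs' hs he) (interior_subset hd) h1
        rw [h3] at hi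
        exact hno hi
      lev := fun s hs x hx h1 h3 l t ht => H.lev O hs hx h1 h3 ht
      patIn := fun s hs k h1 h3 h4 => H.pat_in O hs h1 h3 h4
      keep := fun s hs A hA h1 h3 hp => H.keep O hs hA h1 h3 hp
      pat_clean := fun s hs k hc => H.pat_clean hΩ hs hc
      pat_inj := fun s hs k hc => H.pat_inj hΩ hs hc
      clean := by
        intro s hs k h1 h3 A hA
        obtain ⟨k1, k2⟩ := H.inU hs h1 h3
        have h5 := O.clean ⟨s, hs⟩ k (mem_univ _) k1 k2 A hA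
        rw [Set.not_disjoint_iff] at h5
        obtain ⟨x, ⟨z, hz, rfl⟩, hx⟩ := h5
        exact ⟨z, hz, ((mem_YZ H.ht H.win ⟨s, hs⟩).1 hx).2⟩
      vertex := fun s hs y hy hno l => H.vertex O hs hy hno l
      seg := by
        rintro i ⟨a, b, hi⟩ hΩi s hs hno
        exact H.edge_of O hs hi hΩi hno
      reg := fun s hs => H.reg_of O hs
      plates := O }

end Vale.Agent.P073.H341
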