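import Vale.Agent.P073.H341.PIn3F

/-!
# P073, H341: **[P-IN3]**, the family of the mesh with its vertices

`vFam M E`: faces, cells, edges and vertices; `famOk_vFam`, `famOk_mFam`.
-/

set_option linter.unusedSectionVars false

open Set Metric Topology Filter

namespace Vale.Agent.P073.H341

open _root_.P073 _root_.P073.TR _root_.P073.H579
open Vale.Agent.P073.H73 (Mesh)
open Vale.Agent.P073.St (V)
open Vale.Agent.P073.H193 (Edges)
open Vale.Agent.P073.H805 (mFam mFam_closed mFam_cone mFam_fin mFam_face mFam_mesh)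

variable {Ω : Set V} {M : Mesh Ω} {E : Edges M}

theorem famOk_mFam (hΩ : IsOpen Ω) (M : Mesh Ω) (E : Edges M) : FamOk M (mFam M E) where
  closed := mFam_closed
  cone := fun g x _ => mFam_cone g x
  fin := mFam_fin hΩ M E
  face := fun k => ⟨Sum.inl k, rfl⟩
  mesh := mFam_mesh M E

/-- **faces, cells, edges and vertices** -/
def vFam (M : Mesh Ω) (E : Edges M) : (M.κ ⊕ (M.ι ⊕ E.ε)) ⊕ {x : V // x ∈ E.verts} → Set V :=
  Sum.elim (mFam M E) fun x => {x.1}

theorem vFam_face (k : M.κ) : vFam M E (Sum.inl (Sum.inl k)) = M.F k := rfl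

theorem vFam_cell (i : M.ι) : vFam M E (Sum.inl (Sum.inr (Sum.inl i))) = M.Q i := rfl

theorem vFam_seg (e : E.ε) : vFam M E (Sum.inl (Sum.inr (Sum.inr e))) = E.seg e := rfl

theorem vFam_vert (x : {x : V // x ∈ E.verts}) : vFam M E (Sum.inr x) = {x.1} := rfl

theorem verts_seg {x : V} (hx : x ∈ E.verts) : ∃ e, x ∈ E.seg e := by
  rcases hx with ⟨e, rfl⟩ | ⟨e, rfl⟩
  · exact ⟨e, left_mem_segment ℝ _ _⟩
  · exact ⟨e, right_mem_segment ℝ _ _⟩

theorem verts_end {x : V} (hx : x ∈ E.verts) : ∃ e, x = E.a e ∨ x = E.b e := by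
  rcases hx with ⟨e, rfl⟩ | ⟨e, rfl⟩
  · exact ⟨e, Or.inl rfl⟩
  · exact ⟨e, Or.inr rfl⟩

/-- **the family with the vertices** -/
theorem famOk_vFam (hΩ : IsOpen Ω) (M : Mesh Ω) (E : Edges M) : FamOk M (vFam M E) where
  closed := by
    rintro (g | x)
    · exact mFam_closed g
    · exact isClosed_singleton
  cone := by
    rintro (g | x) y _
    · exact mFam_cone g y
    · have h1 := _root_.P073.locCone_segment (p := x.1) (q := x.1) y
      rw [segment_same] at h1
      exact h1
  fin := by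
    intro x hx
    obtain ⟨O, hO, hf⟩ := mFam_fin hΩ M E x hx
    refine ⟨O, hO, ?_⟩
    have h1 : {e : E.ε | (E.seg e ∩ O).Nonempty}.Finite := by
      refine Set.Finite.of_finite_image (f := fun e => (Sum.inr (Sum.inr e) : M.κ ⊕ (M.ι ⊕ E.ε)))
        (hf.subset ?_) ?_
      · rintro _ ⟨e, he, rfl⟩
        exact he
      · intro e _ e' _ h
        exact Sum.inr.inj (Sum.inr.inj h)
    have h2 : {z : {x : V // x ∈ E.verts} | z.1 ∈ O}.Finite := by
      refine Set.Finite.of_finite_image (f := Subtype.val)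
        (((h1.image E.a).union (h1.image E.b)).subset ?_) Subtype.val_injective.injOn
      rintro _ ⟨z, hz, rfl⟩
      obtain ⟨e, he⟩ := verts_end z.2
      have hz' : z.1 ∈ O := hz
      rcases he with he | he
      · exact Or.inl ⟨e, ⟨z.1, by rw [he]; exact left_mem_segment ℝ _ _, hz'⟩, he.symm⟩
      · exact Or.inr ⟨e, ⟨z.1, by rw [he]; exact right_mem_segment ℝ _ _, hz'⟩, he.symm⟩
    refine ((hf.image Sum.inl).union (h2.image Sum.inr)).subset ?_
    rintro (g | z) ⟨y, hy, hyO⟩
    · exact Or.inl ⟨g, ⟨y, hy, hyO⟩, rfl⟩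
    · refine Or.inr ⟨z, ?_, rfl⟩
      have hy' : y = z.1 := hy
      rw [hy'] at hyO
      exact hyO
  face := fun k => ⟨Sum.inl (Sum.inl k), rfl⟩
  mesh := by
    rintro k (g | x)
    · exact mFam_mesh M E k g
    · right
      obtain ⟨e, he⟩ := verts_seg x.2
      rw [vFam_vert, Set.disjoint_singleton_right]
      exact fun hx => Set.disjoint_left.1 (E.rel e k) he hx

end Vale.Agent.P073.H341
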