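import Vale.Agent.P073.H341.PIn3E
import Vale.Agent.P073.H926.DatB

/-!
# P073, H341: **[P-IN3]**, the input `RIn3` for the data of `K3C` (H926)

`rin3_dat`: `RIn3 (D.G C) E (D.dat C) h1 L.lev.lv F`.
-/

set_option linter.unusedSectionVars false

open Set Metric Topology Filter

namespace Vale.Agent.P073.H341

open _root_.P073 _root_.P073.TR _root_.P073.Net _root_.P073.H579 _root_.P073.PA691 _root_.P073.TM
open _root_.P073.H880.RP (Dat ROut3)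
open _root_.P073.H805 (Reg)
open _root_.P073.H345 (PK PB_sub_PK)
open Vale.Agent.P073.H238 (PFace meshFace mesh_sub)
open Vale.Agent.P073.H73 (Mesh)
open Vale.Agent.P073.St (V)
open Vale.Agent.P073.H471 (Rad Wid Boxes Near Cells)
open Vale.Agent.P073.H267 (Geo TBx)
open Vale.Agent.P073.H193 (Edges)
open Vale.Agent.P073.H669 (PLg)
open Vale.Agent.P073.H805 (RelB PB_mono t1 t2 t1_ne_t2)
open Vale.Agent.P073.H926 Vale.Agent.P073.H926.KIn3

variable {c₀ n δ : ℝ} {j : ℕ} {Ω Λ : Set V} {v w : V} {ρ : V → ℝ} {M : Mesh Ω} {h : ConHomeo Ω Λ}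
  {J₀ J : Set (ℕ × (Fin 3 → ℤ))} {P Z : Set M.ι} {K : BoxCx Λ w} {h1 : ConHomeo Ω Λ}
  (D : KIn3 c₀ n j δ v w ρ M h J₀ J P Z) (C : Cells ρ w K)

include D C

theorem htOk_dat : HtOk (D.G C) (D.dat C) where
  pos := fun s _ β => D.dat_ht_pos C s β
  le := fun s _ β => D.dat_ht_le C s β
  lt := fun s _ β hβ => by
    have h1 := D.dat_ht_prot C (s := s) (β := β) hβ
    have h2 := (D.B C).τ_pos s
    linarith

/-- at a protected side, everything above the box is in a protected cell -/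
theorem cov_dat (hpr : ∀ i ∈ P, h1.toFun '' M.Q i = h.toFun '' M.Q i) :
    ∀ s ∈ (D.dat C).S₀, ∀ β, (D.dat C).sd s β → ∀ x ∈ Ω,
      h1.toFun x ∈ (D.G C).PB (15 / 16) s →
      Abv K s β ((D.dat C).ht s β) (h1.toFun x) → ∃ i ∈ (D.dat C).Pr, x ∈ M.Q i := by
  intro s _ β hβ x hx hxs hA
  have hη : (1:ℝ) / 2 ^ j ≤ 1 := D.η_le_one.trans (by norm_num)
  have hht := D.dat_ht_of C (s := s) (β := β) hβ
  have h0 := D.dat_ht_pos C s β
  have hyP : h1.toFun x ∈ PX (D.G C) s := PK_sub_PX s (PB_sub_PK (by norm_num) s hxs)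
  obtain ⟨q, hq⟩ := K.cover _ (h1.mapsTo hx)
  obtain ⟨-, -, h5⟩ := pos_PX (G := D.G C) hyP hq
  obtain ⟨hl1, hl2⟩ := K.s_lev s
  -- the tile on the side `β`
  have hqβ : q = (if β then K.sp s else K.sm s) ∧
      (D.dat C).ht s β ≤ |h1.toFun x (K.nrm s) - K.slo s (K.nrm s)| := by
    cases β
    · simp only [Abv, Bool.false_eq_true, if_false] at hA ⊢
      rcases h5 with ⟨h5, -, -⟩ | ⟨h5, h6, -⟩
      · refine ⟨h5, ?_⟩
        rw [abs_sub_comm]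
        exact (by linarith : (D.dat C).ht s false ≤ K.slo s (K.nrm s) - h1.toFun x (K.nrm s)).trans
          (le_abs_self _)
      · exfalso
        have h7 := abs_nonneg (h1.toFun x (K.nrm s) - K.slo s (K.nrm s))
        rw [← h6, h5, hl2] at h7
        linarith
    · simp only [Abv, if_true] at hA ⊢
      rcases h5 with ⟨h5, h6, -⟩ | ⟨h5, -, -⟩
      · exfalso
        have h7 := abs_nonneg (h1.toFun x (K.nrm s) - K.slo s (K.nrm s))
        rw [← h6, h5, hl1] at h7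
        linarith
      · refine ⟨h5, ?_⟩
        exact (by linarith : (D.dat C).ht s true ≤ h1.toFun x (K.nrm s) - K.slo s (K.nrm s)).trans
          (le_abs_self _)
  obtain ⟨hqe, hle⟩ := hqβ
  have hmid : ∀ k, K.lo q k + 1 / 2 ^ j / 2 * C.sT q ≤ h1.toFun x k ∧
      h1.toFun x k ≤ K.hi q k - 1 / 2 ^ j / 2 * C.sT q := by
    refine (mid_iff_PX (G := D.G C) hyP hq (D.η_κ C q)).1.2 ?_
    rw [hht, ← hqe] at hle
    exact hle
  have hqJ : C.fT q ∈ J := by rw [hqe]; exact hβ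
  obtain ⟨i₀, hi₀, hi₁⟩ := D.inp.surj _ hqJ
  refine ⟨i₀, hi₀, ?_⟩
  have h7 : h1.toFun x ∈ h1.toFun '' M.Q i₀ := by
    rw [hpr i₀ hi₀, hi₁]
    exact (mem_mid C hη).2 hmid
  obtain ⟨z, hz, hzx⟩ := h7
  rw [← h1.injOn (M.sub i₀ hz) hx hzx]
  exact hz

variable
    (hT : ∀ k, ∀ x ∈ M.F k, ∀ q, h.toFun x ∈ K.cube q → ‖h1.toFun x - h.toFun x‖ ≤ (D.G C).om q)

include hT

theorem near_dat {s : K.S} {k : M.κ} (hk : (D.dat C).PkS (D.G C) h1 s k) {x : V}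
    (hx : x ∈ M.F k) : h1.toFun x ∈ (D.G C).PB (15 / 16) s ∧
      |h1.toFun x (K.nrm s) - K.slo s (K.nrm s)| ≤ (D.B C).τ s / 5 := by
  obtain ⟨-, hDF, x0, hx0, hxs⟩ := hk
  obtain ⟨-, i, hi, hki, h3⟩ := D.df_PB C hT hDF hx0 hxs
  obtain ⟨h4, -⟩ := h3 x (hki hx)
  exact ⟨h4, (D.drawn_PK C hi (D.nearC_drawn C hT hi) (hki hx)
    (PB_sub_PK (by norm_num) s h4)).2⟩

theorem osc_dat {s : K.S} {k : M.κ} (hk : (D.dat C).PkS (D.G C) h1 s k) {x y : V}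
    (hx : x ∈ M.F k) (hy : y ∈ M.F k) : ‖h1.toFun x - h1.toFun y‖ ≤ (D.G C).p s / 16 := by
  have hx' := (near_dat D C hT hk hx).1
  obtain ⟨hs, hDF, x0, hx0, hxs⟩ := hk
  obtain ⟨-, i, hi, hki, -⟩ := D.df_PB C hT hDF hx0 hxs
  have h2 := (D.pos_PK C hs hi.1 (D.nearC_drawn C hT hi) (hki hx)
    (PB_sub_PK (by norm_num) s hx') (hki hy)).2
  have h3 := (D.G C).oS_τ s
  have h4 := (D.G C).τ_p s
  have hτ := (D.B C).τ_pos s
  rw [norm_sub_rev]
  linarith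

/-- **[RIN3]** for the data of `K3C`, any levels in the windows which are regular for `pxFam`;
`hcirc` is (T8) of round T -/
theorem rin3_datL {E : Edges M} {ι : Type} {F : ι → Set V} {L : K.S → Fin 3 → Finset ℝ}
    (hpr : ∀ i ∈ P, h1.toFun '' M.Q i = h.toFun '' M.Q i)
    (hwin : WinS (D.G C) (D.dat C) L)
    (hr1 : ∀ s ∈ (D.dat C).S₀, ∀ l, l ≠ K.nrm s → ∀ x ∈ Ω, h1.toFun x l ∈ L s l →
      Reg (fun y => h1.toFun y l) (pxFam h1 F (D.G C) (D.dat C)) x)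
    (hr2 : ∀ s ∈ (D.dat C).S₀, ∀ x ∈ Ω, h1.toFun x (t1 (K.nrm s)) ∈ L s (t1 (K.nrm s)) →
      h1.toFun x (t2 (K.nrm s)) ∈ L s (t2 (K.nrm s)) →
      Reg (fun y => (h1.toFun y (t1 (K.nrm s)), h1.toFun y (t2 (K.nrm s))))
        (pxFam h1 F (D.G C) (D.dat C)) x)
    (hcirc : ∀ s ∈ (D.dat C).S₀, ∀ l, l ≠ K.nrm s → ∀ t ∈ L s l, ∀ b : TBx K, RelB s l b →
      ∀ k ∈ (D.dat C).DF, ∀ σ : Set V, IsCircle σ → σ ⊆ M.F k →
      (∀ x ∈ σ, h1.toFun x ∈ (D.G C).TB true b ∧ h1.toFun x b.ax = t) → False)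
    (hfam : FamOk M F) (hseg : ∀ e, ∃ g, F g = E.seg e) :
    RIn3 (D.G C) E (D.dat C) h1 L F := by
  refine rin3_of hwin hr1 hr2 hcirc (htOk_dat D C) (fun i hi x hx s _ hxs => ?_)
    (fun s k hk x hx => (near_dat D C hT hk hx).1)
    (fun s k hk x hx y hy => osc_dat D C hT hk hx hy) (fun s k hk x hx => ?_)
    (fun s k hk β hβ x hx hA => ?_) (cov_dat D C hpr) hfam hseg
  · exact Set.disjoint_left.1 (D.prot_PE C hpr hi s) (mem_image_of_mem _ hx) hxs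
  · have h1 := (near_dat D C hT hk hx).2
    have h2 := (D.B C).τ_pos s
    linarith
  · have h1 := abs_le.1 (near_dat D C hT hk hx).2
    have h2 := (D.B C).τ_pos s
    rw [D.dat_ht_not C hβ] at hA
    cases β
    · simp only [Abv, Bool.false_eq_true, if_false] at hA
      linarith
    · simp only [Abv, if_true] at hA
      linarith

/-- **[RIN3]** for the data of `K3C`, with the levels of H669 -/
theorem rin3_dat {E : Edges M} {ι : Type} {F : ι → Set V}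
    (hpr : ∀ i ∈ P, h1.toFun '' M.Q i = h.toFun '' M.Q i)
    {T : K.S → Bool → Finset (ℝ × ℝ)} {η : ℝ} {X : Set ℝ}
    {ξ : Type*} {sa sb : ξ → V} {εE : ξ → ℝ} {μ δ' : K.S → ℝ}
    (L : PLg (D.G C) h1 T η (pxFam h1 F (D.G C) (D.dat C)) X sa sb εE μ δ')
    (hcirc : ∀ s ∈ (D.dat C).S₀, ∀ l, l ≠ K.nrm s → ∀ t ∈ L.lev.lv s l, ∀ b : TBx K, RelB s l b →
      ∀ k ∈ (D.dat C).DF, ∀ σ : Set V, IsCircle σ → σ ⊆ M.F k →
      (∀ x ∈ σ, h1.toFun x ∈ (D.G C).TB true b ∧ h1.toFun x b.ax = t) → False)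
    (hfam : FamOk M F) (hseg : ∀ e, ∃ g, F g = E.seg e) :
    RIn3 (D.G C) E (D.dat C) h1 L.lev.lv F :=
  rin3_datL D C hT hpr (fun s _ l hl => L.win s l hl) (fun _ _ _ _ _ hx hl => L.regF hx hl)
    (fun _ _ _ hx h1 h2 => L.regF2 (t1_ne_t2 _) hx h1 h2) hcirc hfam hseg

end Vale.Agent.P073.H341
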