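import Vale.Agent.P073.H341.PIn3A

/-!
# P073, H341: **[P-IN3]**, the input of the exchange

`RIn3`: the input; `RIn3.plateIn`: the hypotheses of [PLATE-Z]; `RIn3.low_of_cov`: the faces at a
protected side.
-/

set_option linter.unusedSectionVars false

open Set Metric Topology Filter

namespace Vale.Agent.P073.H341

open _root_.P073 _root_.P073.TR _root_.P073.H579 _root_.P073.PA691
open _root_.P073.H805 (Plate HasPat Clean Reg pFam SameLev Crosses)
open _root_.P073.H341 (ZOk YZ PlateInZ PlatesOutZ TouchP hasPat_cleanP hasPat_injP exists_platesZ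
  trP)
open _root_.P073.H880.RP (Dat)
open Vale.Agent.P073.H238 (PFace meshFace mesh_sub)
open Vale.Agent.P073.H73 (Mesh)
open Vale.Agent.P073.St (V)
open Vale.Agent.P073.H471 (Rad Wid Boxes Near)
open Vale.Agent.P073.H267 (Geo)
open Vale.Agent.P073.H193 (Edges)
open Vale.Agent.P073.H805 (t1 t2 t1_ne t2_ne t1_ne_t2 t_cases near_of_PB isOpen_near oS_pos oS_p
  SideNear PB_mono PB_eq lvs mem_lvs not_two EdgeOk mFam mFam_mesh closure_relint face_sub_of_mem)

variable {Ω Λ : Set V} {v : V} {K : BoxCx Λ v} {S : Rad K} {W : Wid K S} {B : Boxes W}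
  {G : Geo B} {M : Mesh Ω} {h : ConHomeo Ω Λ} {D : Dat K M} {L : K.S → Fin 3 → Finset ℝ}
  {E : Edges M} {ι : Type} {F : ι → Set V}

/-- the family: closed, conical, locally finite, compatible with the faces of the mesh -/
structure FamOk (M : Mesh Ω) (F : ι → Set V) : Prop where
  closed : ∀ g, IsClosed (F g)
  cone : ∀ g, ∀ x ∈ Ω, LocConeAt (F g) x
  fin : ∀ x ∈ Ω, ∃ O ∈ 𝓝 x, {g | (F g ∩ O).Nonempty}.Finite
  face : ∀ k, ∃ g, F g = M.F k
  mesh : ∀ k g, M.F k ⊆ F g ∨ Disjoint (intrinsicInterior ℝ (M.F k)) (F g)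

/-- **input of the exchange half of ROUND P, `K3C`** (`h` is the output `h1` of ROUND T) -/
structure RIn3 (G : Geo B) (E : Edges M) (D : Dat K M) (h : ConHomeo Ω Λ)
    (L : K.S → Fin 3 → Finset ℝ) {ι : Type} (F : ι → Set V) : Prop where
  ht : HtOk G D
  win : WinS G D L
  /-- protected cells are outside of the boxes -/
  prot : ∀ i ∈ D.Pr, ∀ x ∈ M.Q i, ∀ s ∈ D.S₀, h.toFun x ∉ interior (D.PE G s)
  /-- position of the faces which meet the plate of `s` -/
  near : ∀ s k, D.PkS G h s k → ∀ x ∈ M.F k, h.toFun x ∈ G.PB (15 / 16) s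
  osc : ∀ s k, D.PkS G h s k → ∀ x ∈ M.F k, ∀ y ∈ M.F k, ‖h.toFun x - h.toFun y‖ ≤ G.p s / 16
  /-- at a side which is not protected these faces are below half of the height of the box -/
  low : ∀ s k, D.PkS G h s k → ∀ β, ¬ D.sd s β → ∀ x ∈ M.F k,
    ¬ Abv K s β (D.ht s β / 2) (h.toFun x)
  /-- at a protected side they are in the box -/
  lowP : ∀ s k, D.PkS G h s k → ∀ β, D.sd s β → ∀ x ∈ intrinsicInterior ℝ (M.F k),
    ¬ Abv K s β (D.ht s β) (h.toFun x)
  /-- faces which are close to a side wall have no circles -/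
  noc : ∀ s k, D.PkS G h s k → ∀ (j l : Fin 3) (β : Bool),
    j ≠ K.nrm s → l ≠ K.nrm s → j ≠ l →
    (∀ x ∈ M.F k, h.toFun x ∈ G.PB (15 / 16) s ∧ SideNear G h s j β (3 / 2) x) →
    ∀ a ∈ L s l, ∀ σ : Set V, IsCircle σ → σ ⊆ M.F k → ¬ ∀ x ∈ σ, h.toFun x l = a
  fam : FamOk M F
  seg : ∀ e, ∃ g, F g = E.seg e
  reg1 : ∀ s ∈ D.S₀, ∀ l, l ≠ K.nrm s → ∀ x ∈ Ω, h.toFun x l ∈ L s l →
    Reg (fun y => h.toFun y l) (pFam h F (pzc G D L)) x
  reg2 : ∀ s ∈ D.S₀, ∀ x ∈ Ω, h.toFun x (t1 (K.nrm s)) ∈ L s (t1 (K.nrm s)) →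
    h.toFun x (t2 (K.nrm s)) ∈ L s (t2 (K.nrm s)) →
    Reg (fun y => (h.toFun y (t1 (K.nrm s)), h.toFun y (t2 (K.nrm s))))
      (pFam h F (pzc G D L)) x

/-- `lowP` from a covering by protected cells: the face is in no protected cell -/
theorem lowP_of_cov (hcov : ∀ s ∈ D.S₀, ∀ β, D.sd s β → ∀ x ∈ Ω, h.toFun x ∈ G.PB (15 / 16) s →
      Abv K s β (D.ht s β) (h.toFun x) → ∃ i ∈ D.Pr, x ∈ M.Q i)
    (hnear : ∀ s k, D.PkS G h s k → ∀ x ∈ M.F k, h.toFun x ∈ G.PB (15 / 16) s) :
    ∀ s k, D.PkS G h s k → ∀ β, D.sd s β → ∀ x ∈ intrinsicInterior ℝ (M.F k),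
      ¬ Abv K s β (D.ht s β) (h.toFun x) := by
  intro s k hk β hβ x hx hA
  have hxF := intrinsicInterior_subset hx
  obtain ⟨i, hi, hxi⟩ := hcov s hk.1 β hβ x (mesh_sub M k hxF) (hnear s k hk x hxF) hA
  exact hk.2.1.2 i hi (face_sub_of_mem hx hxi)

section

variable (H : RIn3 G E D h L F)

include H

/-- at a protected side all points of the face are in the box -/
theorem RIn3.lowP' {s : K.S} {k : M.κ} (hk : D.PkS G h s k) {β : Bool} (hβ : D.sd s β) {x : V}
    (hx : x ∈ M.F k) :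
    if β then h.toFun x (K.nrm s) ≤ K.slo s (K.nrm s) + D.ht s β
    else K.slo s (K.nrm s) - D.ht s β ≤ h.toFun x (K.nrm s) := by
  have hc : ContinuousOn (fun y => h.toFun y (K.nrm s)) (M.F k) :=
    ((continuous_apply _).comp_continuousOn h.cont).mono (mesh_sub M k)
  have hcl : x ∈ closure (intrinsicInterior ℝ (M.F k)) := by rw [closure_relint]; exact hx
  have hev : ∀ᶠ y in 𝓝[intrinsicInterior ℝ (M.F k)] x, y ∈ intrinsicInterior ℝ (M.F k) :=
    self_mem_nhdsWithin
  have hne : (𝓝[intrinsicInterior ℝ (M.F k)] x).NeBot := mem_closure_iff_nhdsWithin_neBot.1 hcl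
  have ht : Tendsto (fun y => h.toFun y (K.nrm s)) (𝓝[intrinsicInterior ℝ (M.F k)] x)
      (𝓝 (h.toFun x (K.nrm s))) :=
    (hc x hx).mono_left (nhdsWithin_mono _ intrinsicInterior_subset)
  cases β
  · simp only [Bool.false_eq_true, if_false]
    refine ge_of_tendsto ht (hev.mono fun y hy => ?_)
    have h1 := H.lowP s k hk false hβ y hy
    simp only [Abv, Bool.false_eq_true, if_false, not_le] at h1
    exact h1.le
  · simp only [if_true]
    refine le_of_tendsto ht (hev.mono fun y hy => ?_)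
    have h1 := H.lowP s k hk true hβ y hy
    simp only [Abv, if_true, not_le] at h1
    exact h1.le

/-- the heights of the points of a face which meets the plate -/
theorem RIn3.hgt {s : K.S} {k : M.κ} (hk : D.PkS G h s k) {x : V} (hx : x ∈ M.F k) :
    (K.slo s (K.nrm s) - D.ht s false ≤ h.toFun x (K.nrm s) ∧
      h.toFun x (K.nrm s) ≤ K.slo s (K.nrm s) + D.ht s true) ∧
    |h.toFun x (K.nrm s) - K.slo s (K.nrm s)| < B.τ s / 2 := by
  have hs := hk.1
  have a1 := H.ht.le s hs true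
  have a2 := H.ht.le s hs false
  have p1 := H.ht.pos s hs true
  have p2 := H.ht.pos s hs false
  have k1 : h.toFun x (K.nrm s) ≤ K.slo s (K.nrm s) + D.ht s true ∧
      h.toFun x (K.nrm s) < K.slo s (K.nrm s) + B.τ s / 2 := by
    by_cases hd : D.sd s true
    · have h1 := H.lowP' hk hd hx
      have h2 := H.ht.lt s hs true hd
      simp only [if_true] at h1
      exact ⟨h1, by linarith⟩
    · have h1 := H.low s k hk true hd x hx
      simp only [Abv, if_true, not_le] at h1
      exact ⟨by linarith, by linarith⟩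
  have k2 : K.slo s (K.nrm s) - D.ht s false ≤ h.toFun x (K.nrm s) ∧
      K.slo s (K.nrm s) - B.τ s / 2 < h.toFun x (K.nrm s) := by
    by_cases hd : D.sd s false
    · have h1 := H.lowP' hk hd hx
      have h2 := H.ht.lt s hs false hd
      simp only [Bool.false_eq_true, if_false] at h1
      exact ⟨h1, by linarith⟩
    · have h1 := H.low s k hk false hd x hx
      simp only [Abv, Bool.false_eq_true, if_false, not_le] at h1
      exact ⟨by linarith, by linarith⟩
  refine ⟨⟨k2.1, k1.1⟩, ?_⟩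
  rw [abs_lt]
  constructor <;> linarith [k1.2, k2.2]

/-- in the relative interior the inequalities are strict -/
theorem RIn3.hgt_int {s : K.S} {k : M.κ} (hk : D.PkS G h s k) {x : V}
    (hx : x ∈ intrinsicInterior ℝ (M.F k)) :
    (K.slo s (K.nrm s) - D.ht s false < h.toFun x (K.nrm s) ∧
      h.toFun x (K.nrm s) < K.slo s (K.nrm s) + D.ht s true) ∧ h.toFun x ∉ D.ZE G s := by
  have hs := hk.1
  have hxF := intrinsicInterior_subset hx
  have p1 := H.ht.pos s hs true
  have p2 := H.ht.pos s hs false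
  refine ⟨⟨?_, ?_⟩, ?_⟩
  · by_cases hd : D.sd s false
    · have h1 := H.lowP s k hk false hd x hx
      simp only [Abv, Bool.false_eq_true, if_false, not_le] at h1
      exact h1
    · have h1 := H.low s k hk false hd x hxF
      simp only [Abv, Bool.false_eq_true, if_false, not_le] at h1
      linarith
  · by_cases hd : D.sd s true
    · have h1 := H.lowP s k hk true hd x hx
      simp only [Abv, if_true, not_le] at h1
      exact h1
    · have h1 := H.low s k hk true hd x hxF
      simp only [Abv, if_true, not_le] at h1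
      linarith
  · rintro ⟨-, ⟨hd, h2⟩ | ⟨hd, h2⟩⟩
    · have h1 := H.low s k hk true hd x hxF
      simp only [Abv, if_true] at h1
      exact h1 h2
    · have h1 := H.low s k hk false hd x hxF
      simp only [Abv, Bool.false_eq_true, if_false] at h1
      exact h1 h2

/-- **the hypotheses of [PLATE-Z]** -/
theorem RIn3.plateIn (hΩ : IsOpen Ω) :
    PlateInZ h M.F F (pzc G D L) (zc G D) (univ : Set M.κ) where
  ok := fun c => pz_ok H.ht H.win c.2
  zok := fun c => ze_ok H.ht c.2
  lf := pz_lf H.ht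
  dis := fun c d hcd => (pz_dis H.ht c d hcd).mono_left interior_subset
  closed := H.fam.closed
  cone := H.fam.cone
  fin := H.fam.fin
  tfin := by
    intro x hx
    obtain ⟨r, hr, hb⟩ := Metric.nhds_basis_closedBall.mem_iff.1 (hΩ.mem_nhds hx)
    exact ⟨closedBall x r, closedBall_mem_nhds x hr, M.ffin _ hb (isCompact_closedBall x r)⟩
  piece := fun k _ => H.fam.face k
  mesh := fun k _ g => H.fam.mesh k g
  regi := fun c x hx hxa => H.reg1 c.1 c.2 _ (t1_ne _) x hx hxa
  regj := fun c x hx hxa => H.reg1 c.1 c.2 _ (t2_ne _) x hx hxa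
  regij := fun c x hx hxa hxb => H.reg2 c.1 c.2 x hx hxa hxb

/-- **faces near a side wall are clean** -/
theorem RIn3.clean {s : K.S} {k : M.κ} (hk : D.PkS G h s k) {j : Fin 3} {β : Bool}
    (hj : j ≠ K.nrm s) (hA : ∀ x ∈ M.F k, SideNear G h s j β (3 / 2) x) :
    Clean h.toFun (pz G D L s) (M.F k) := by
  have hp := Geo.p_pos (G := G) s
  have hpa := Geo.p_a (G := G) s
  -- no point of the face is on a level in the direction `j`
  have hno : ∀ x ∈ M.F k, h.toFun x j ∉ L s j := by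
    intro x hx hxL
    have h1 := H.win s hk.1 j hj _ hxL
    have h2 := hA x hx
    cases β
    · simp only [SideNear, Bool.false_eq_true, if_false] at h2
      linarith
    · simp only [SideNear, if_true] at h2
      linarith
  -- circles
  have hcirc : ∀ l, l ≠ K.nrm s → ∀ σ : Set V, IsCircle σ → σ ⊆ M.F k →
      ¬ ∀ x ∈ σ, h.toFun x l ∈ L s l := by
    intro l hl σ hσ hσk hall
    obtain ⟨hpre, x0, hx0⟩ := Vale.Agent.P073.H805.conn_circle hσ
    by_cases hjl : j = l
    · subst hjl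
      exact hno x0 (hσk hx0) (hall x0 hx0)
    · have hc : ContinuousOn (fun x => h.toFun x l) σ :=
        ((continuous_apply l).comp_continuousOn h.cont).mono
          (hσk.trans (mesh_sub M k))
      have hsub : ((fun x => h.toFun x l) '' σ).Subsingleton := by
        refine Vale.Agent.P073.H805.sub_of_fin (hpre.image _ hc) ?_
        exact (L s l).finite_toSet.subset (by rintro _ ⟨x, hx, rfl⟩; exact hall x hx)
      refine H.noc s k hk j l β hj hl hjl (fun x hx => ⟨H.near s k hk x hx, hA x hx⟩)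
        (h.toFun x0 l) (hall x0 hx0) σ hσ hσk fun x hx => ?_
      exact hsub (mem_image_of_mem _ hx) (mem_image_of_mem _ hx0)
  refine ⟨fun x hx h1 h2 => ?_, fun σ hσ hσk => ⟨hcirc _ (t1_ne _) σ hσ hσk,
    hcirc _ (t2_ne _) σ hσ hσk⟩⟩
  rcases t_cases hj with rfl | rfl
  · exact hno x hx h1
  · exact hno x hx h2

/-- **faces which do not come close to a side wall** -/
theorem RIn3.inner {s : K.S} {k : M.κ} (hk : D.PkS G h s k)
    (ht : ∀ x ∈ M.F k, ¬ Mg G s (5 / 4) (h.toFun x)) :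
    M.F k ⊆ (pzc G D L ⟨s, hk.1⟩).U h ∧
      Disjoint (intrinsicInterior ℝ (M.F k)) ((pzc G D L ⟨s, hk.1⟩).B h) ∧
      Disjoint (intrinsicInterior ℝ (M.F k)) (YZ h (pzc G D L) (zc G D) ⟨s, hk.1⟩) := by
  have hp := Geo.p_pos (G := G) s
  have htan : ∀ x ∈ M.F k, ∀ l, l ≠ K.nrm s → K.slo s l + G.p s < h.toFun x l ∧
      h.toFun x l < K.shi s l - G.p s := by
    intro x hx l hl
    have h1 := ht x hx
    unfold Mg at h1
    push Not at h1
    have h2 := h1 l hl
    constructor <;> linarith [h2.1, h2.2]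
  refine ⟨fun x hx => (mem_U_pz H.ht H.win hk.1).2 ⟨mesh_sub M k hx, fun l hl => ?_,
    (H.hgt hk hx).1⟩, Set.disjoint_left.2 fun x hx hB => ?_, Set.disjoint_left.2 fun x hx hY => ?_⟩
  · have := htan x hx l hl
    exact ⟨this.1.le, this.2.le⟩
  · have h1 := ((mem_B_pz H.ht H.win hk.1).1 hB).2.2
    exact h1 (mem_int_pe.2 ⟨htan x (intrinsicInterior_subset hx), (H.hgt_int hk hx).1⟩)
  · rcases ((mem_YZ H.ht H.win ⟨s, hk.1⟩).1 hY).2 with h1 | h1
    · exact (H.hgt_int hk hx).2 h1
    · exact ht x (intrinsicInterior_subset hx) h1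

end

end Vale.Agent.P073.H341
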