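import Vale.Agent.P073.H341.PL6

/-!
# P073, H341: **[DICH]**, from `NW` and `WallOut`

`hwall_of`: the hypothesis of `class_S2`; **`class_face`**: on a mesh with `NW` a face in no
protected cell with a point in `HB (7/8) (3/4)` has a pattern for `h2`, or is high.
-/

set_option linter.unusedSectionVars false

open Set Metric Topology Filter
open scoped ENNReal

namespace Vale.Agent.P073.H341

open _root_.P073 _root_.P073.TR _root_.P073.H579 _root_.P073.PA691 _root_.P073.H236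
open _root_.P073.H919 (lab LabPath HB mem_HB)
open _root_.P073.H345 (PK tg PLev PB_sub_PK)
open Vale.Agent.P073.H73 (Mesh)
open Vale.Agent.P073.St (V)
open Vale.Agent.P073.H471 Vale.Agent.P073.H267 Vale.Agent.P073.H267.K3
open Vale.Agent.P073.H193 (Edges pgn_of_fat mesh_sub edges)
open Vale.Agent.P073.H926 Vale.Agent.P073.H926.KIn3
open Vale.Agent.P073.H238.K3
open Vale.Agent.P073.H936.KR (QW QZG NWG NW Zw hgt)

variable {c₀ n δ : ℝ} {j : ℕ} {Ω Λ : Set V} {v w : V} {ρ : V → ℝ} {M : Mesh Ω} {h : ConHomeo Ω Λ}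
  {J₀ J : Set (ℕ × (Fin 3 → ℤ))} {P Z : Set M.ι} {K : BoxCx Λ w}
  {D : KIn3 c₀ n j δ v w ρ M h J₀ J P Z} {C : Cells ρ w K} {C₀ μT : ℝ} {X : S1 D C C₀ μT}
  {s : K.S} {k : M.κ}

theorem wFace_of {E : Edges M} {h1 : ConHomeo Ω Λ} (hW : WallOut D C E (Zw D C) h1) :
    WFace D C h1.toFun := hW.face

/-- **the hypothesis of `class_S2`** -/
theorem hwall_of (hNW : NW D C) (hW : WallOut D C (edges M) (Zw D C) X.h1) (hs : s ∈ pS C J₀)
    (hP : ∀ i ∈ P, ¬ M.F k ⊆ M.Q i) {x₀ : V} (hx₀ : x₀ ∈ M.F k)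
    (h₀ : X.h1.toFun x₀ ∈ HB (D.G C) (7 / 8) (3 / 4) s) :
    ∀ β, ¬ (D.dat C).sd s β → (∀ x ∈ M.F k, ¬ Mg (D.G C) s (5 / 4) (X.h1.toFun x)) →
      (∀ x ∈ intrinsicInterior ℝ (M.F k), ¬ Abv K s β ((D.dat C).ht s β / 2) (X.h1.toFun x)) ∨
        ∀ x ∈ M.F k, Abv K s β ((D.dat C).ht s β / 2) (X.h1.toFun x) :=
  fun _ hβ _ => wall_side X hNW (wFace_of hW) hs hP hx₀
    (_root_.P073.H919.HB_PB le_rfl (by norm_num) s h₀) hβ

/-- **[DICH]**: a pattern for `h2`, or high -/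
theorem class_face (Y₂ : S2 X) (hNW : NW D C) (hW : WallOut D C (edges M) (Zw D C) X.h1)
    (hs : s ∈ pS C J₀) (hP : ∀ i ∈ P, ¬ M.F k ⊆ M.Q i) {x₀ : V} (hx₀ : x₀ ∈ M.F k)
    (h₀ : X.h1.toFun x₀ ∈ HB (D.G C) (7 / 8) (3 / 4) s) :
    PatS Y₂.L.lv s Y₂.h2.toFun (M.F k) ∨
      ∃ β, ¬ (D.dat C).sd s β ∧ ∀ x ∈ M.F k, Abv K s β ((D.dat C).ht s β / 2) (X.h1.toFun x) :=
  class_S2 Y₂ hs hP hx₀ h₀ (hwall_of hNW hW hs hP hx₀ h₀)

end Vale.Agent.P073.H341
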