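import Vale.Agent.P073.H341.NewSheet

/-!
# P073, H341: removal of a circle: geometry and the new sheet
-/

set_option linter.unusedSectionVars false

open Set Metric Topology Filter

namespace P073.H341

open P073 P073.H339

variable {E : Type*} [NormedAddCommGroup E] [NormedSpace ℝ E]

/-- one sheet in a ball, given as zero set of a function -/
structure One (C B : Set E) (u : E → ℝ) : Prop where
  hC : ConBall 3 C B
  hu : ContinuousOn u C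
  hS : ConBall 2 {x | x ∈ C ∧ u x = 0} ({x | x ∈ C ∧ u x = 0} ∩ B)
  up : ∃ x ∈ C, 0 < u x
  un : ∃ x ∈ C, u x < 0

theorem One.half {C B : Set E} {u : E → ℝ} (h : One C B u) :
    Cut 2 C B {x | x ∈ C ∧ u x = 0} {x | x ∈ B ∧ 0 ≤ u x}
    {x | x ∈ B ∧ u x ≤ 0} {x | x ∈ C ∧ 0 ≤ u x} {x | x ∈ C ∧ u x ≤ 0} :=
  exists_half cutP_two' h.hC h.hu (fun x => Iff.rfl) h.hS h.up h.un

/-- the region between a disc with boundary on a sheet and the sheet -/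
structure CG (C B : Set E) (u : E → ℝ) (X c : Set E) (Z Z' : Set E) : Prop where
  hZ : ConBall 3 Z ({x | x ∈ Z ∧ u x = 0} ∪ X)
  hZ' : ∃ R, X ⊆ R ∧ R ∩ Z ⊆ X ∧ (∀ x ∈ C, u x = 0 → x ∈ Z' → x ∈ R) ∧ ConBall 3 Z' R
  un : Z ∪ Z' = {x | x ∈ C ∧ 0 ≤ u x}
  int : Z ∩ Z' = X
  hZB : Disjoint Z B
  hA : ConBall 2 {x | x ∈ Z ∧ u x = 0} c

theorem One.circ {C B : Set E} {u : E → ℝ} (h : One C B u) {X c : Set E}
    (hX : ConBall 2 X c) (hXC : X ⊆ C) (hXu : ∀ x ∈ X, 0 ≤ u x) (hXB : Disjoint X B)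
    (hc : ∀ x ∈ X, (x ∈ c ↔ u x = 0)) : ∃ Z Z', CG C B u X c Z Z' := by
  set bQ : Set E := {x | x ∈ B ∧ 0 ≤ u x} ∪ {x | x ∈ C ∧ u x = 0} with hbQ
  have hXbQ : X ∩ bQ = c := by
    ext x
    constructor
    · rintro ⟨hx, h1 | h1⟩
      · exact absurd h1.1 (Set.disjoint_left.1 hXB hx)
      · exact (hc x hx).2 h1.2
    · intro hx
      have hxX := hX.1 hx
      exact ⟨hxX, Or.inr ⟨hXC hxX, (hc x hxX).1 hx⟩⟩
  obtain ⟨b₁, b₂, Z, Z', hk, hb2, hZ0⟩ := cutOff cutP_two' h.half.hC₁ (α := X)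
    (R₀ := {x | x ∈ B ∧ 0 ≤ u x}) (by rw [← hbQ, hXbQ]; exact hX)
    (fun x hx => ⟨hXC hx, hXu x hx⟩) h.half.hB₁.isPreconnected' subset_union_left
    (Set.disjoint_left.2 fun x hx hxX => Set.disjoint_left.1 hXB hxX hx.1)
  rw [← hbQ] at hk
  have hZQ : ∀ {x}, x ∈ Z → x ∈ C ∧ 0 ≤ u x := fun {x} hx => hk.C₁_sub hx
  have eA : {x | x ∈ Z ∧ u x = 0} = b₁ := by
    apply Subset.antisymm
    · rintro x ⟨hx, hx0⟩
      rw [← hk.C₁_inter_B]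
      exact ⟨hx, Or.inr ⟨(hZQ hx).1, hx0⟩⟩
    · intro x hx
      have hxZ := hk.B₁_sub hx
      refine ⟨hxZ, ?_⟩
      rcases hk.B₁_subB hx with h1 | h1
      · exact absurd hxZ (Set.disjoint_left.1 hZ0 h1)
      · exact h1.2
  refine ⟨Z, Z', ⟨?_, ⟨b₂ ∪ X, subset_union_right, ?_, ?_, hk.hC₂⟩, hk.hCu, hk.hCi, ?_, ?_⟩⟩
  · rw [eA]; exact hk.hC₁
  · rintro x ⟨hx1 | hx1, hx2⟩
    · exact hk.not_both hx2 (hk.symm.B₁_sub hx1)
    · exact hx1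
  · intro x hxC hx0 hxZ'
    left
    rw [← hk.symm.C₁_inter_B]
    exact ⟨hxZ', Or.inr ⟨hxC, hx0⟩⟩
  · rw [Set.disjoint_left]
    intro x hx hxB
    exact Set.disjoint_left.1 hZ0 ⟨hxB, (hZQ hx).2⟩ hx
  · rw [eA, ← hXbQ]
    exact hk.hB₁

/-- **the region cut off by the disc is `{u, f ≥ 0}` near it** -/
theorem CG.region {C B : Set E} {u : E → ℝ} {X c : Set E} {Z Z' : Set E}
    (hP : One C B u) (h : CG C B u X c Z Z') {N : Set E} {f : E → ℝ}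
    (hN : IsClosed N) (hNC : N ⊆ C) (hNB : Disjoint N B) (hf : ContinuousOn f N)
    (hX : X = {x | x ∈ N ∧ 0 ≤ u x ∧ f x = 0})
    (hint : {x | x ∈ N ∧ 0 ≤ u x ∧ 0 ≤ f x} ⊆ interior N)
    (hne : ∃ x ∈ N, 0 ≤ u x ∧ 0 < f x) :
    Z = {x | x ∈ N ∧ 0 ≤ u x ∧ 0 ≤ f x} := by
  set P : Set E := {x | x ∈ N ∧ 0 ≤ u x ∧ 0 ≤ f x} with hPdef
  have hXP : X ⊆ P := by
    rw [hX]; exact fun x hx => ⟨hx.1, hx.2.1, hx.2.2.ge⟩
  have hPX : ∀ {x}, x ∈ P → x ∉ X → 0 < f x := by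
    intro x hx hxX
    refine lt_of_le_of_ne hx.2.2 fun h0 => hxX ?_
    rw [hX]; exact ⟨hx.1, hx.2.1, h0.symm⟩
  have hPcl : IsClosed P := by
    have h1 : IsClosed {x | x ∈ N ∧ 0 ≤ u x} :=
      (hP.hu.mono hNC).preimage_isClosed_of_isClosed hN isClosed_Ici
    have h3 : IsClosed {x | x ∈ N ∧ 0 ≤ f x} :=
      hf.preimage_isClosed_of_isClosed hN isClosed_Ici
    have : P = {x | x ∈ N ∧ 0 ≤ u x} ∩ {x | x ∈ N ∧ 0 ≤ f x} := by
      ext x; simp only [hPdef, mem_inter_iff, mem_ofPred_eq]; tauto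
    rw [this]; exact h1.inter h3
  obtain ⟨O, hO, hOe⟩ : ∃ O : Set E, IsOpen O ∧ O = {x | x ∈ interior N ∧ 0 < f x} :=
    ⟨_, (hf.mono interior_subset).isOpen_inter_preimage isOpen_interior isOpen_Ioi, rfl⟩
  have side : ∀ {K : Set E}, IsPreconnected K → K ⊆ {x | x ∈ C ∧ 0 ≤ u x} →
      Disjoint K X → K ⊆ P ∨ Disjoint K P := by
    intro K hK hKQ hKX
    have hcov : K ⊆ O ∪ Pᶜ := by
      intro x hx
      by_cases hxP : x ∈ P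
      · left
        rw [hOe]
        exact ⟨hint hxP, hPX hxP (Set.disjoint_left.1 hKX hx)⟩
      · exact Or.inr hxP
    have hdis : K ∩ (O ∩ Pᶜ) = ∅ := by
      rw [Set.eq_empty_iff_forall_notMem]
      rintro x ⟨hx, hxO, hxP⟩
      rw [hOe] at hxO
      exact hxP ⟨interior_subset hxO.1, (hKQ hx).2, hxO.2.le⟩
    rcases (isPreconnected_iff_subset_of_disjoint.1 hK) O Pᶜ hO hPcl.isOpen_compl hcov hdis with
      h1 | h1
    · left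
      intro x hx
      have hxO := h1 hx
      rw [hOe] at hxO
      exact ⟨interior_subset hxO.1, (hKQ hx).2, hxO.2.le⟩
    · exact Or.inr (Set.disjoint_left.2 fun x hx hxP => h1 hx hxP)
  have hZQ : ∀ x, x ∈ Z → x ∈ C ∧ 0 ≤ u x := fun x hx => by
    have : x ∈ Z ∪ Z' := Or.inl hx
    rw [h.un] at this; exact this
  have hZ'Q : ∀ x, x ∈ Z' → x ∈ C ∧ 0 ≤ u x := fun x hx => by
    have : x ∈ Z ∪ Z' := Or.inr hx
    rw [h.un] at this; exact this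
  have hd : ∀ Y : Set E, Disjoint (Y \ X) X := fun Y => Set.disjoint_left.2 fun x hx => hx.2
  obtain ⟨R', hXR', -, -, hZ'⟩ := h.hZ'
  have c' : IsPreconnected (Z' \ X) :=
    GB200.preconn_between hZ' (fun x hx => ⟨hx.1, fun h' => hx.2 (hXR' h')⟩) Set.sdiff_subset
  have c0 : IsPreconnected (Z \ X) :=
    GB200.preconn_between h.hZ (fun x hx => ⟨hx.1, fun h' => hx.2 (Or.inr h')⟩) Set.sdiff_subset
  have k' : Disjoint (Z' \ X) P := by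
    rcases side c' (fun x hx => hZ'Q x hx.1) (hd _) with h1 | h1
    · exfalso
      obtain ⟨x, hx⟩ := hP.half.hB₁.nonempty'
      have hxQ : x ∈ Z ∪ Z' := by
        rw [h.un]; exact ⟨hP.hC.1 hx.1, hx.2⟩
      have hxZ : x ∉ Z := fun hxZ => Set.disjoint_left.1 h.hZB hxZ hx.1
      have hxZ' : x ∈ Z' := hxQ.resolve_left hxZ
      have hxX : x ∉ X := fun hxX => hxZ (h.int.symm.subset hxX).1
      exact Set.disjoint_left.1 hNB (h1 ⟨hxZ', hxX⟩).1 hx.1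
    · exact h1
  have k : Z \ X ⊆ P := by
    rcases side c0 (fun x hx => hZQ x hx.1) (hd _) with h1 | h1
    · exact h1
    · exfalso
      obtain ⟨x, hxN, hxu, hxf⟩ := hne
      have hxP : x ∈ P := ⟨hxN, hxu, hxf.le⟩
      have hxX : x ∉ X := fun hxX => by rw [hX] at hxX; exact hxf.ne' hxX.2.2
      have hxQ : x ∈ Z ∪ Z' := by rw [h.un]; exact ⟨hNC hxN, hxu⟩
      rcases hxQ with hx | hx
      · exact Set.disjoint_left.1 h1 ⟨hx, hxX⟩ hxP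
      · exact Set.disjoint_left.1 k' ⟨hx, hxX⟩ hxP
  apply Subset.antisymm
  · intro x hx
    by_cases hxX : x ∈ X
    · exact hXP hxX
    · exact k ⟨hx, hxX⟩
  · intro x hx
    by_cases hxX : x ∈ X
    · exact (h.int.symm.subset hxX).1
    · have hxQ : x ∈ Z ∪ Z' := by rw [h.un]; exact ⟨hNC hx.1, hx.2.1⟩
      rcases hxQ with h1 | h1
      · exact h1
      · exact absurd hx (Set.disjoint_left.1 k' ⟨h1, hxX⟩)

/-- the flat disc of a circle configuration: `X = {x ∈ N | 0 ≤ u, f = 0}` -/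
structure FlatC (U B N : Set E) (u f : E → ℝ) : Prop where
  clN : IsClosed N
  NU : N ⊆ U
  NB : Disjoint N B
  fc : ContinuousOn f N
  disc : ConBall 2 {x | x ∈ N ∧ 0 ≤ u x ∧ f x = 0} {x | x ∈ N ∧ u x = 0 ∧ f x = 0}
  int : {x | x ∈ N ∧ 0 ≤ u x ∧ 0 ≤ f x} ⊆ interior N
  ne : ∃ x ∈ N, 0 ≤ u x ∧ 0 < f x

namespace FlatC

variable {U B N : Set E} {u f : E → ℝ}

/-- **the geometry of the cut off region** -/
theorem cg (hP : One U B u) (h : FlatC U B N u f) :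
    ∃ Z', CG U B u {x | x ∈ N ∧ 0 ≤ u x ∧ f x = 0} {x | x ∈ N ∧ u x = 0 ∧ f x = 0}
      {x | x ∈ N ∧ 0 ≤ u x ∧ 0 ≤ f x} Z' := by
  obtain ⟨Z, Z', hb⟩ := hP.circ h.disc
    (fun x hx => h.NU hx.1) (fun x hx => hx.2.1) (h.NB.mono_left fun x hx => hx.1)
    (fun x hx => ⟨fun h1 => h1.2.1, fun h1 => ⟨hx.1, h1, hx.2.2⟩⟩)
  have hZ := hb.region hP h.clN h.NU h.NB h.fc rfl h.int h.ne
  rw [hZ] at hb
  exact ⟨Z', hb⟩

/-- **the new sheet is a disc** -/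
theorem new_sheet (hP : One U B u) (h : FlatC U B N u f) {S : Set E}
    (hS : S = {x | x ∈ U ∧ ((x ∉ N ∧ u x = 0) ∨ (x ∈ N ∧ ((u x = 0 ∧ f x ≤ 0) ∨
      (0 ≤ u x ∧ f x = 0))))}) :
    ConBall 2 S (S ∩ B) := by
  obtain ⟨Z', hb⟩ := h.cg hP
  set Z : Set E := {x | x ∈ N ∧ 0 ≤ u x ∧ 0 ≤ f x} with hZdef
  set X : Set E := {x | x ∈ N ∧ 0 ≤ u x ∧ f x = 0} with hX
  set γ : Set E := {x | x ∈ N ∧ u x = 0 ∧ f x = 0} with hγ
  set D : Set E := {x | x ∈ Z ∧ u x = 0} with hD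
  have hDγ : D \ γ = {x | x ∈ U ∧ u x = 0} ∩ {x | x ∈ interior N ∧ 0 < f x} := by
    ext x
    simp only [Set.mem_sdiff, hγ, hD, hZdef, mem_inter_iff, mem_ofPred_eq]
    constructor
    · rintro ⟨⟨⟨h1, h2, h4⟩, h5⟩, h6⟩
      exact ⟨⟨h.NU h1, h5⟩, h.int ⟨h1, h2, h4⟩,
        lt_of_le_of_ne h4 fun h0 => h6 ⟨h1, h5, h0.symm⟩⟩
    · rintro ⟨⟨-, h5⟩, h1, h4⟩
      exact ⟨⟨⟨interior_subset h1, h5.ge, h4.le⟩, h5⟩, fun h' => h4.ne' h'.2.2⟩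
  have hopen : IsOpen {x | x ∈ interior N ∧ 0 < f x} :=
    (h.fc.mono interior_subset).isOpen_inter_preimage isOpen_interior isOpen_Ioi
  have hcl : IsClosed ({x | x ∈ U ∧ u x = 0} \ (D \ γ)) := by
    have e : {x | x ∈ U ∧ u x = 0} \ (D \ γ) =
        {x | x ∈ U ∧ u x = 0} ∩ {x | x ∈ interior N ∧ 0 < f x}ᶜ := by
      rw [hDγ]
      ext x; simp only [mem_inter_iff, Set.mem_sdiff, mem_compl_iff]; tauto
    rw [e]; exact hP.hS.isClosed.inter hopen.isClosed_compl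
  have hDS : D ⊆ {x | x ∈ U ∧ u x = 0} := fun x hx => ⟨h.NU hx.1.1, hx.2⟩
  have hDR : Disjoint D ({x | x ∈ U ∧ u x = 0} ∩ B) :=
    Set.disjoint_left.2 fun x hx hx' => Set.disjoint_left.1 h.NB hx.1.1 hx'.2
  have key := ball_replace hP.hS hb.hA hDS hDR hcl h.disc (by
    rintro x ⟨hx, hx'⟩
    exact ⟨hx.1, hx'.2, hx.2.2⟩)
  have e1 : ({x | x ∈ U ∧ u x = 0} \ (D \ γ)) ∪ X = S := by
    rw [hDγ, hS]
    ext x
    simp only [mem_union, Set.mem_sdiff, mem_inter_iff, mem_ofPred_eq, hX]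
    constructor
    · rintro (⟨⟨h1, h2⟩, h3⟩ | ⟨h1, h2, h4⟩)
      · refine ⟨h1, ?_⟩
        by_cases hN : x ∈ N
        · right
          refine ⟨hN, Or.inl ⟨h2, ?_⟩⟩
          by_contra hcon
          push Not at hcon
          exact h3 ⟨⟨h1, h2⟩, h.int ⟨hN, h2.ge, hcon.le⟩, hcon⟩
        · exact Or.inl ⟨hN, h2⟩
      · exact ⟨h.NU h1, Or.inr ⟨h1, Or.inr ⟨h2, h4⟩⟩⟩
    · rintro ⟨h1, ⟨h2, h3⟩ | ⟨h2, ⟨h3, h4⟩ | ⟨h3, h4⟩⟩⟩
      · left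
        exact ⟨⟨h1, h3⟩, fun h' => h2 (interior_subset h'.2.1)⟩
      · left
        exact ⟨⟨h1, h3⟩, fun h' => absurd h'.2.2 (not_lt.2 h4)⟩
      · exact Or.inr ⟨h2, h3, h4⟩
  have e2 : {x | x ∈ U ∧ u x = 0} ∩ B = S ∩ B := by
    rw [hS]
    ext x
    simp only [mem_inter_iff, mem_ofPred_eq]
    constructor
    · rintro ⟨⟨h1, h2⟩, h3⟩
      exact ⟨⟨h1, Or.inl ⟨fun hN => Set.disjoint_left.1 h.NB hN h3, h2⟩⟩, h3⟩
    · rintro ⟨⟨h1, ⟨h2, h3⟩ | ⟨h2, -⟩⟩, h4⟩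
      · exact ⟨⟨h1, h3⟩, h4⟩
      · exact absurd h4 (Set.disjoint_left.1 h.NB h2)
  rw [e1, e2] at key
  exact key

end FlatC

end P073.H341
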