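import Vale.Agent.P073.H341.Lift5
import Vale.Agent.P073.H805.StepC
import Vale.Agent.P073.H579.Safe

/-!
# P073, H341: **(E2)** every clean disc can be removed by a step
-/

set_option linter.unusedSectionVars false

open Set Metric Topology Filter

namespace P073.H341

open P073 P073.TR P073.H339 P073.H579 P073.H805

variable {E : Type*} [NormedAddCommGroup E] [NormedSpace ℝ E] [FiniteDimensional ℝ E]
  {ι J : Type*} {D : Data E ι}

theorem safe_swap {u v : E → ℝ} {Y : Set E} (h : Safe D u v Y) : Safe (swapD D) v u Y where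
  closed := h.closed
  sub := h.sub
  all := h.all
  ju := h.jv
  jv := h.ju
  juv := fun k hk l hl => by
    have e : {x | x ∈ Y ∧ v x = k ∧ u x = l} = {x | x ∈ Y ∧ u x = l ∧ v x = k} := by
      ext x; simp only [mem_ofPred_eq]; tauto
    rw [e]; exact h.juv l hl k hk

/-- **(GEO)** for every clean disc -/
theorem geoOut [Finite ι] (h3 : Module.finrank ℝ E = 3) (hD : D.Ok) (F : J → Face D)
    (hF : MeshOk F) {u v : E → ℝ} (h : State D u v) {Y : Set E} (hY : Safe D u v Y) (j : J)
    {K : Set P} (hK : CleanDisc (F j).C ((F j).tr u v) K) (hj : Disjoint ((F j).ch '' K) Y) :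
    GeoOut F Y u v j := by
  rcases hK.bd with ⟨i, hi, hi'⟩ | ⟨a, b, p, q, ha, hb, haA, hbA, haT, hbF, hab, hfr⟩
  · cases i
    · right; left
      exact exists_geoC h3 hD F hF h j hK.disc hK.int hK.clean hi hi' hY.closed
        fun hk hs _ hX hg => hY.disjoint_circle hs hk hg (h.contu.mono hD.UW) (hj.mono_left hX)
    · right; right
      have hY' := safe_swap hY
      exact exists_geoC (D := swapD D) (u := v) (v := u) h3 (ok_swap hD) (fun j => swapF (F j)) hF
        (state_swap hD h) j hK.disc hK.int (fun i => by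
          have := hK.clean (!i)
          cases i <;> exact this) hi hi' hY.closed
        fun hk hs _ hX hg => hY'.disjoint_circle hs hk hg (h.contv.mono hD.UW) (hj.mono_left hX)
  · left
    exact exists_geoB h3 hD F hF h j hK.disc hK.int hK.clean ha hb haA hbA haT hbF hab hfr
      hY.closed fun hk hl hs ht _ hX hg => hY.disjoint_bigon hs ht hk hl hg
        (h.contu.mono hD.UW) (h.contv.mono hD.UW) (hj.mono_left hX)

/-- **(E2)**: one step of the exchange process -/
theorem stepY [Finite ι] [Fintype J] (h3 : Module.finrank ℝ E = 3) (hD : D.Ok) (F : J → Face D)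
    (hF : MeshOk F) (Y : Set E) : StepY F Y :=
  fun _ _ h hY j _ hK hj => step_of_geo hD h (geoOut h3 hD F hF h hY j hK
    (hj.mono_left (by
      rintro _ ⟨z, hz, rfl⟩
      exact (F j).ch_mem (interior_subset (hK.int hz)))))

theorem stepP [Finite ι] [Fintype J] (h3 : Module.finrank ℝ E = 3) (hD : D.Ok) (F : J → Face D)
    (hF : MeshOk F) : StepP F := (stepY h3 hD F hF ∅).stepP

/-- the mesh condition of #6482 -/
theorem meshOk_of (F : J → Face D) (hcl : ∀ i, IsClosed (D.M i))
    (h : ∀ j i, D.M i = D.M (F j).i₀ ∨ D.U ⊆ D.M i ∨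
      Disjoint (D.M i) ((F j).ch '' interior (F j).C)) : MeshOk F := by
  intro j i
  rcases h j i with h1 | h1 | h1
  · exact Or.inl h1.ge
  · exact Or.inl ((F j).subU.trans h1)
  · right
    intro z hz
    refine (hcl i).isOpen_compl.mem_nhds fun hz' => ?_
    exact Set.disjoint_left.1 h1 hz' (mem_image_of_mem _ hz)

/-- **(E3)**: good patterns on all faces, nothing changes on the safe set `Y` -/
theorem exists_good_state [Finite ι] [Fintype J] (h3 : Module.finrank ℝ E = 3) (hD : D.Ok)
    (F : J → Face D) (hF : MeshOk F) {Y : Set E} {u v : E → ℝ} (h : State D u v)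
    (hY : Safe D u v Y)
    (hFY : ∀ j, ¬ Disjoint (D.M (F j).i₀) Y → Off D (F j).i₀ u v ∧ NoCirc D (F j).i₀ u v) :
    ∃ u' v', State D u' v' ∧ Rel D u v u' v' ∧ (∀ j, H579.Good ((F j).tr u' v')) ∧
      EqOn u' u Y ∧ EqOn v' v Y :=
  exists_good_safe hD F (stepY h3 hD F hF Y) h hY hFY

end P073.H341
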