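import Vale.Agent.P073.H341.RetB
import Vale.Agent.P073.H142.Neck2
import Vale.Agent.P073.H238.StepC

/-!
# P073, H341: **[RETRACT]** (P2d + P2e)

A conical disc `E` in a face, whose boundary is mapped into a small cube, is retracted into a
bigger cube by an ambient conical homeomorphism `Θ` of the target; outside the two open cells `q`
at the face every point is either not moved or moved into the bigger cube.
-/

open Set Metric Topology Filter

namespace P073.H341

open P073 Vale.Agent.P073.H238 P073.TR P073.SCH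

theorem Mv.mono {Ω Λ q N E E' : Set V3} {b : V3} {ρ' : ℝ} {h : V3 → V3}
    {Θ : ConHomeo (univ : Set V3) (univ : Set V3)} (H : Mv Ω Λ q N E b ρ' h Θ) (hE : E ⊆ E') :
    Mv Ω Λ q N E' b ρ' h Θ where
  supp := H.supp
  mv := H.mv
  all A h1 h2 h3 h4 h5 := H.all A h1 h2 (h3.mono_right hE) h4 h5
  fix A h1 h2 h3 h4 h5 h6 := H.fix A h1 h2 (h3.mono_right hE) h4 h5 h6

theorem Mv.trans {Ω Λ q N E : Set V3} {b : V3} {ρ' : ℝ} {h h' : V3 → V3}
    {Θ Θ' : ConHomeo (univ : Set V3) (univ : Set V3)} (H : Mv Ω Λ q N E b ρ' h Θ)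
    (hh : ∀ x, h' x = Θ.toFun (h x)) (H' : Mv Ω Λ q N E b ρ' h' Θ') :
    Mv Ω Λ q N E b ρ' h (Θ.trans Θ') where
  supp := by
    obtain ⟨C, h1, h2, h3⟩ := H.supp
    obtain ⟨C', h1', h2', h3'⟩ := H'.supp
    refine ⟨C ∪ C', h1.union h1', union_subset h2 h2', fun y hy => ?_⟩
    show Θ'.toFun (Θ.toFun y) = y
    rw [h3 y fun h => hy (Or.inl h), h3' y fun h => hy (Or.inr h)]
  mv := by
    intro x hx hxq
    show Θ'.toFun (Θ.toFun (h x)) = h x ∨ Θ'.toFun (Θ.toFun (h x)) ∈ ball b ρ'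
    rw [← hh]
    rcases H'.mv x hx hxq with h1 | h1
    · rw [h1, hh]; exact H.mv x hx hxq
    · exact Or.inr h1
  all := by
    intro A a1 a2 a3 a4 a5
    show (∀ x ∈ A, Θ'.toFun (Θ.toFun (h x)) = h x) ∨
      ∀ x ∈ A, Θ'.toFun (Θ.toFun (h x)) ∈ ball b ρ'
    simp only [← hh]
    rcases H.all A a1 a2 a3 a4 a5 with h1 | h1
    · rcases H'.all A a1 a2 a3 a4 (fun x hx => by rw [hh, h1 x hx]; exact a5 x hx) with h2 | h2
      · exact Or.inl fun x hx => by rw [h2 x hx, hh, h1 x hx]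
      · exact Or.inr h2
    · right
      intro x hx
      rcases H'.mv x (a1 hx) (disjoint_left.1 a4 hx) with h2 | h2
      · rw [h2, hh]; exact h1 x hx
      · exact h2
  fix := by
    intro A a1 a2 a3 a4 a5 a6 x hx
    show Θ'.toFun (Θ.toFun (h x)) = h x
    have h1 := H.fix A a1 a2 a3 a4 a5 a6
    have h2 := H'.fix A a1 a2 a3 a4 (fun x hx => by rw [hh, h1 x hx]; exact a5 x hx) a6 x hx
    rw [← hh, h2, hh, h1 x hx]

/-- **the induction on the circles** -/
theorem ret_induct {Ω Λ q O : Set V3} (hΛ : IsOpen Λ) (hO : IsOpen O) (hOΩ : O ⊆ Ω)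
    {φ : V3 →L[ℝ] ℝ} {n : V3} (hn : φ n = 1) {k : ℝ} (hOq : ∀ x ∈ O, x ∉ q → φ x = k)
    {E κ N L : Set V3} (hE : ConBall 2 E κ) (hEO : E ⊆ O) (hEP : E ⊆ Pln φ k)
    (hEq : Disjoint E q) {b : V3} {ρ r ρ' : ℝ} (hρ : 0 < ρ) (hr : ρ < r) (hr' : r < ρ')
    (hB : closedBall b ρ' ⊆ Λ) (hN : IsPreconnected N) (hNΩ : N ⊆ Ω) (hNE : Disjoint N E)
    (hNq : Disjoint N q) (hL : IsCompact L) (hLΩ : L ⊆ Ω) (hfar : Ω \ L ⊆ N)
    {J : Type*} {Es cs : J → Set V3} (hEs : ∀ j, ConBall 2 (Es j) (cs j))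
    (hsub : ∀ j, Es j ⊆ E \ κ)
    (hnest : ∀ j j', j ≠ j' → Es j ⊆ Es j' \ cs j' ∨ Es j' ⊆ Es j \ cs j ∨
      Disjoint (Es j) (Es j')) (m : ℕ) :
    ∀ T : Finset J, T.card = m → ∀ h : ConHomeo Ω Λ,
      (∀ x ∈ E, (‖h.toFun x - b‖ = r ↔ ∃ j ∈ T, x ∈ cs j)) →
      (∀ x ∈ E, ‖h.toFun x - b‖ = r →
        H805.Reg (fun y => ‖h.toFun y - b‖) (fun _ : Unit => Pln φ k) x) →
      (∀ x ∈ κ, h.toFun x ∈ ball b ρ) → (∀ x ∈ N, h.toFun x ∉ closedBall b ρ') →
      ∃ Θ : ConHomeo (univ : Set V3) (univ : Set V3), Mv Ω Λ q N E b ρ' h.toFun Θ ∧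
        (∀ x ∈ κ, Θ.toFun (h.toFun x) = h.toFun x) ∧ ∀ x ∈ E, Θ.toFun (h.toFun x) ∈ ball b ρ' := by
  classical
  have hEΩ : E ⊆ Ω := hEO.trans hOΩ
  have hκne : κ.Nonempty := hE.conSphere.nonempty
  have hκE : κ ⊆ E := hE.1
  induction m using Nat.strong_induction_on with
  | _ m IH =>
    intro T hT h hlev hreg hκb hNb
    rcases T.eq_empty_or_nonempty with hT0 | hTne
    · -- no circle
      have huc : ContinuousOn (fun y => ‖h.toFun y - b‖) E :=
        ((h.cont.mono hEΩ).sub continuousOn_const).norm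
      have h1 : IsPreconnected ((fun y => ‖h.toFun y - b‖) '' E) :=
        hE.isPreconnected.image _ huc
      have h2 : ∀ x ∈ E, ‖h.toFun x - b‖ < r := by
        rcases h1.subset_or_subset (u := Ioi r) (v := Iio r) isOpen_Ioi isOpen_Iio (by
          rw [disjoint_left]; intro y h1 h2; exact lt_asymm (mem_Ioi.1 h1) (mem_Iio.1 h2)) (by
          rintro _ ⟨x, hx, rfl⟩
          rcases lt_trichotomy ‖h.toFun x - b‖ r with h2 | h2 | h2
          · exact Or.inr h2
          · obtain ⟨j, hj, -⟩ := (hlev x hx).1 h2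
            rw [hT0] at hj
            exact absurd hj (Finset.notMem_empty j)
          · exact Or.inl h2) with h2 | h2
        · exfalso
          obtain ⟨p, hp⟩ := hκne
          have h3 : r < ‖h.toFun p - b‖ := h2 ⟨p, hκE hp, rfl⟩
          have h4 := mem_ball_iff_norm.1 (hκb p hp)
          linarith
        · exact fun x hx => h2 ⟨x, hx, rfl⟩
      refine ⟨ConHomeo.refl isOpen_univ.conicalSet, ⟨⟨∅, isCompact_empty, empty_subset _,
        fun y _ => rfl⟩, fun x _ _ => Or.inl rfl, fun A _ _ _ _ _ => Or.inl fun x _ => rfl,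
        fun A _ _ _ _ _ _ x _ => rfl⟩, fun x _ => rfl, fun x hx => ?_⟩
      show h.toFun x ∈ ball b ρ'
      rw [mem_ball_iff_norm]
      exact (h2 x hx).trans hr'
    · -- an innermost circle
      obtain ⟨i, hiT, himin⟩ := T.exists_minimalFor Es hTne
      have hci : ∀ x ∈ Es i, (‖h.toFun x - b‖ = r ↔ x ∈ cs i) := by
        intro x hx
        have hxE : x ∈ E := (hsub i hx).1
        rw [hlev x hxE]
        constructor
        · rintro ⟨j, hj, hxj⟩
          by_contra hne'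
          have hij : i ≠ j := fun h' => hne' (h' ▸ hxj)
          rcases hnest i j hij with h1 | h1 | h1
          · exact (h1 hx).2 hxj
          · have h2 : Es i ⊆ Es j := himin hj (h1.trans sdiff_subset)
            obtain ⟨z, hz⟩ := (hEs i).conSphere.nonempty
            exact (h1 (h2 ((hEs i).1 hz))).2 hz
          · exact disjoint_left.1 h1 hx ((hEs j).1 hxj)
        · exact fun hx' => ⟨i, hiT, hx'⟩
      have hEsE : Es i ⊆ E := (hsub i).trans sdiff_subset
      have hcsE : ∀ j, cs j ⊆ E := fun j => (hEs j).1.trans ((hsub j).trans sdiff_subset)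
      obtain ⟨Θ₁, M₁, f1, f2, f3, f4⟩ := clean_step (n := n) (κ := κ) (q := q) (N := N)
        hΛ h hO hOΩ hn hOq (hEs i) (hEsE.trans hEO) (hEsE.trans hEP) (hEq.mono_left hEsE)
        hρ hr hr' hB hci
        (fun x hx => hreg x (hcsE i hx) ((hci x ((hEs i).1 hx)).2 hx)) hE.conSphere.isCompact
        hE.conSphere.isPreconnected (hκE.trans hEΩ)
        (disjoint_left.2 fun x hx hx' => (hsub i hx').2 hx) hκb hN hNΩ (hNE.mono_right hEsE)
        hNb hL hLΩ hfar
      have M₁' := M₁.mono hEsE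
      obtain ⟨C, hC, hCΛ, hΘC⟩ := M₁.supp
      set h' : ConHomeo Ω Λ := comp h Θ₁ hΛ (fun x hx => hΘC x fun h' => hx (hCΛ h')) with hh'
      have hh : ∀ x, h'.toFun x = Θ₁.toFun (h.toFun x) := fun _ => rfl
      -- the remaining circles
      set T' : Finset J := T.filter fun j => ∀ x ∈ cs j, ∀ᶠ z in 𝓝 (h.toFun x), Θ₁.toFun z = z
        with hT'
      have hiT' : i ∉ T' := by
        rw [hT', Finset.mem_filter]
        rintro ⟨-, h1⟩
        obtain ⟨z, hz⟩ := (hEs i).conSphere.nonempty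
        refine f2 z hz ?_
        rw [(h1 z hz).self_of_nhds]
        exact (hci z ((hEs i).1 hz)).2 hz
      have hcard : T'.card < m := by
        rw [← hT]
        refine Finset.card_lt_card ⟨Finset.filter_subset _ _, fun h1 => hiT' (h1 hiT)⟩
      have hcr : ∀ j ∈ T, ∀ x ∈ cs j, ‖h.toFun x - b‖ = r := fun j hj x hx =>
        (hlev x (hcsE j hx)).2 ⟨j, hj, hx⟩
      have hlev' : ∀ x ∈ E, (‖h'.toFun x - b‖ = r ↔ ∃ j ∈ T', x ∈ cs j) := by
        intro x hx
        constructor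
        · intro hxr
          rw [hh] at hxr
          have hxq := disjoint_left.1 hEq hx
          obtain ⟨j, hj, hxj⟩ := (hlev x hx).1 (f3 x (hEΩ hx) hxq hxr)
          refine ⟨j, ?_, hxj⟩
          rw [hT', Finset.mem_filter]
          refine ⟨hj, ?_⟩
          have hji : j ≠ i := by
            rintro rfl
            exact f2 x hxj hxr
          have hdis : Disjoint (cs j) (cs i) := by
            rw [disjoint_left]
            intro z hz hz'
            rcases hnest j i hji with h1 | h1 | h1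
            · exact (h1 ((hEs j).1 hz)).2 hz'
            · exact (h1 ((hEs i).1 hz')).2 hz
            · exact disjoint_left.1 h1 ((hEs j).1 hz) ((hEs i).1 hz')
          rcases f4 (cs j) ((hcsE j).trans hEΩ) (hEq.mono_left (hcsE j)) hdis
            (hEs j).conSphere.isPreconnected (hcr j hj) with h1 | h1
          · exact absurd hxr (h1 x hxj)
          · exact h1
        · rintro ⟨j, hj, hxj⟩
          rw [hT', Finset.mem_filter] at hj
          rw [hh, (hj.2 x hxj).self_of_nhds]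
          exact hcr j hj.1 x hxj
      have hreg' : ∀ x ∈ E, ‖h'.toFun x - b‖ = r →
          H805.Reg (fun y => ‖h'.toFun y - b‖) (fun _ : Unit => Pln φ k) x := by
        intro x hx hxr
        obtain ⟨j, hj, hxj⟩ := (hlev' x hx).1 hxr
        rw [hT', Finset.mem_filter] at hj
        have h1 := hreg x hx (hcr j hj.1 x hxj)
        have hcont : ContinuousAt h.toFun x :=
          (h.cont.mono hOΩ).continuousAt (hO.mem_nhds (hEO hx))
        refine h1.congr_fun ?_
        filter_upwards [hcont.eventually (hj.2 x hxj)] with y hy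
        show ‖Θ₁.toFun (h.toFun y) - b‖ = ‖h.toFun y - b‖
        rw [hy]
      have hκb' : ∀ x ∈ κ, h'.toFun x ∈ ball b ρ := fun x hx => by
        rw [hh, f1 x hx]; exact hκb x hx
      have hNfix : ∀ x ∈ N, Θ₁.toFun (h.toFun x) = h.toFun x := fun x hx =>
        M₁'.fix N hNΩ hN hNE hNq hNb ⟨x, hx, hx⟩ x hx
      have hNb' : ∀ x ∈ N, h'.toFun x ∉ closedBall b ρ' := fun x hx => by
        rw [hh, hNfix x hx]; exact hNb x hx
      obtain ⟨Θ₂, M₂, g1, g2⟩ := IH T'.card hcard T' rfl h' hlev' hreg' hκb' hNb'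
      refine ⟨Θ₁.trans Θ₂, M₁'.trans hh M₂, fun x hx => ?_, fun x hx => g2 x hx⟩
      show Θ₂.toFun (Θ₁.toFun (h.toFun x)) = h.toFun x
      rw [← hh, g1 x hx, hh, f1 x hx]

/-- **[RETRACT]** -/
theorem retract {Ω Λ q O : Set V3} (hΛ : IsOpen Λ) (h : ConHomeo Ω Λ) (hO : IsOpen O)
    (hOΩ : O ⊆ Ω) {φ : V3 →L[ℝ] ℝ} (hφ : ∃ n, φ n = 1) {k : ℝ}
    (hOq : ∀ x ∈ O, x ∉ q → φ x = k) {E κ N L : Set V3} (hE : ConBall 2 E κ) (hEO : E ⊆ O)
    (hEφ : ∀ x ∈ E, φ x = k) (hEq : Disjoint E q) {b : V3} {ρ ρ' : ℝ} (hρ : 0 < ρ)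
    (hρ' : ρ < ρ') (hB : closedBall b ρ' ⊆ Λ) (hκ : ∀ x ∈ κ, h.toFun x ∈ ball b ρ)
    (hN : IsPreconnected N) (hNΩ : N ⊆ Ω) (hNE : Disjoint N E) (hNq : Disjoint N q)
    (hNb : ∀ x ∈ N, h.toFun x ∉ closedBall b ρ') (hL : IsCompact L) (hLΩ : L ⊆ Ω)
    (hfar : Ω \ L ⊆ N) :
    ∃ Θ : ConHomeo (univ : Set V3) (univ : Set V3), Mv Ω Λ q N E b ρ' h.toFun Θ ∧
      (∀ x ∈ κ, Θ.toFun (h.toFun x) = h.toFun x) ∧ ∀ x ∈ E, Θ.toFun (h.toFun x) ∈ ball b ρ' := by
  obtain ⟨n, hn⟩ := hφ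
  have hEΩ : E ⊆ Ω := hEO.trans hOΩ
  have hκE : κ ⊆ E := hE.1
  -- the chart
  obtain ⟨Q, hQ, χ, hχ⟩ : ∃ Q : Set (ℝ × ℝ), Q = closedBall 0 1 ∧ ∃ χ : ConHomeo E Q,
      ∀ x ∈ E, (χ.toFun x ∈ sphere (0 : ℝ × ℝ) 1 ↔ x ∈ κ) :=
    ⟨_, rfl, H142.exists_plane_chart hE⟩
  have hQc : IsClosed Q := by rw [hQ]; exact isClosed_closedBall
  have hQcomp : IsCompact Q := by rw [hQ]; exact isCompact_closedBall _ _
  have hQint : interior Q = ball 0 1 := by rw [hQ]; exact interior_closedBall _ one_ne_zero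
  have hIQ : interior Q ⊆ Q := interior_subset
  have hAQ : AmbDisc Q := by rw [hQ]; exact H142.ambDisc_square
  -- the function
  have hnc : ConicalOn (fun y : V3 => ‖y - b‖) univ := by
    have hu : ConicalSet (univ : Set V3) := isOpen_univ.conicalSet
    exact (conicalOn_norm_pi 3 (X := univ) hu).comp ((conicalOn_id hu).sub (conicalOn_const b hu))
      (mapsTo_univ _ _) (by fun_prop)
  have hwO : ConicalOn (fun y => ‖h.toFun y - b‖) O :=
    hnc.comp (h.conical.mono (IsOpen.conicalSet hO) hOΩ) (mapsTo_univ _ _) (h.cont.mono hOΩ)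
  have hwOc : ContinuousOn (fun y => ‖h.toFun y - b‖) O :=
    ((h.cont.mono hOΩ).sub continuousOn_const).norm
  obtain ⟨C₁, hC₁, hflow⟩ := exists_flowBox_real (ι := Unit) (M := fun _ => Pln φ k) hO hwO hwOc
    (fun _ x _ => by
      have h1 : LocCone (Pln φ k) := by
        intro x
        by_cases hx : x ∈ Pln φ k
        · refine ⟨1, one_pos, fun v _ r hr => ?_⟩
          have hx' : φ x = k := hx
          show φ (x + r • v) = k ↔ φ (x + v) = k
          rw [map_add, map_add, map_smul, smul_eq_mul, hx']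
          constructor
          · intro h1
            have h2 : r * φ v = 0 := by linarith
            rcases mul_eq_zero.1 h2 with h3 | h3
            · exact absurd h3 hr.1.ne'
            · rw [h3, add_zero]
          · intro h1
            have : φ v = 0 := by linarith
            rw [this, mul_zero, add_zero]
        · exact locConeAt_of_compl_mem_nhds ((isClosed_Pln φ k).isOpen_compl.mem_nhds hx)
      exact h1 x)
  -- the function in the chart
  have hinvc : ConicalOn χ.invFun Q := χ.conical_inv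
  have hwE : ContinuousOn (fun y => ‖h.toFun y - b‖) E := hwOc.mono hEO
  have hgI : ConicalOn (fun z => ‖h.toFun (χ.invFun z) - b‖) (interior Q) := by
    have h1 : ConicalOn χ.invFun (interior Q) :=
      hinvc.mono (IsOpen.conicalSet isOpen_interior) hIQ
    exact hwO.comp h1 (fun z hz => hEO (χ.mapsTo_inv (hIQ hz))) (χ.cont_inv.mono hIQ)
  have hgc : ContinuousOn (fun z => ‖h.toFun (χ.invFun z) - b‖) Q :=
    hwE.comp χ.cont_inv χ.mapsTo_inv
  obtain ⟨C₂, hC₂, hgen⟩ := exists_generic_circles (E := ℝ × ℝ) (by simp) isOpen_interior hgI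
    (hgc.mono hIQ)
  obtain ⟨r, hr, hrC⟩ : ∃ r ∈ Ioo ρ ρ', r ∉ C₁ ∪ C₂ := by
    by_contra hcon
    push Not at hcon
    exact (Cardinal.Real.Ioo_countable_iff.not.2 (not_le.2 hρ')) ((hC₁.union hC₂).mono hcon)
  have hr1 : r ∉ C₁ := fun h => hrC (Or.inl h)
  have hr2 : r ∉ C₂ := fun h => hrC (Or.inr h)
  -- the level is in the interior
  have hlevQ : {z | z ∈ interior Q ∧ ‖h.toFun (χ.invFun z) - b‖ = r} =
      Q ∩ (fun z => ‖h.toFun (χ.invFun z) - b‖) ⁻¹' {r} := by
    ext z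
    constructor
    · rintro ⟨h1, h2⟩; exact ⟨hIQ h1, h2⟩
    · rintro ⟨h1, h2⟩
      refine ⟨?_, h2⟩
      rw [hQint, mem_ball_zero_iff]
      have h3 : ‖z‖ ≤ 1 := by rw [hQ, mem_closedBall_zero_iff] at h1; exact h1
      refine lt_of_le_of_ne h3 fun h4 => ?_
      have h5 : χ.invFun z ∈ κ := by
        rw [← hχ _ (χ.mapsTo_inv h1), χ.right_inv h1, mem_sphere_zero_iff_norm]; exact h4
      have h6 := mem_ball_iff_norm.1 (hκ _ h5)
      have h7 : ‖h.toFun (χ.invFun z) - b‖ = r := h2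
      linarith [hr.1]
  have hcomp : IsCompact {z | z ∈ interior Q ∧ ‖h.toFun (χ.invFun z) - b‖ = r} := by
    rw [hlevQ]
    exact hQcomp.of_isClosed_subset (hgc.preimage_isClosed_of_isClosed hQc isClosed_singleton)
      inter_subset_left
  obtain ⟨J, hJ, Cs, hCU, hCd, hCc⟩ := hgen r hr2 hcomp
  have hlevel : ∀ i, ∀ z ∈ Cs i, z ∈ interior Q ∧ ‖h.toFun (χ.invFun z) - b‖ = r :=
    fun i z hz => by
      have : z ∈ ⋃ j, Cs j := mem_iUnion.2 ⟨i, hz⟩
      rwa [hCU] at this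
  have hex : ∀ i, ∃ D, AmbDisc D ∧ frontier D = Cs i := fun i =>
    schoenflies (H339.conSphere_iff.1 (hCc i))
  choose D hD hDf using hex
  have hDS : ∀ i, D i ⊆ interior Q := fun i =>
    (AmbDisc.subset_interior_of_frontier (hD i)) hAQ (by
      rw [hDf]; exact fun x hx => (hlevel i x hx).1)
  have hDQ : ∀ i, D i ⊆ Q := fun i => (hDS i).trans hIQ
  have hfD : ∀ i, frontier (D i) ⊆ D i := fun i => (hD i).isClosed.frontier_subset
  have himg : ∀ (X : Set (ℝ × ℝ)) (z : ℝ × ℝ), X ⊆ Q → z ∈ Q →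
      (χ.invFun z ∈ χ.invFun '' X ↔ z ∈ X) := by
    intro X z hX hz
    constructor
    · rintro ⟨w, hw, he⟩
      rwa [← χ.symm.injOn (hX hw) hz he]
    · exact fun h => ⟨z, h, rfl⟩
  obtain ⟨fin⟩ := nonempty_fintype J
  refine ret_induct hΛ hO hOΩ hn hOq hE hEO hEφ hEq hρ hr.1 hr.2 hB hN hNΩ hNE hNq hL hLΩ hfar
    (Es := fun j => χ.invFun '' D j) (cs := fun j => χ.invFun '' frontier (D j))
    (fun j => (conBall_of_ambDisc (hD j)).image χ.symm (hDQ j)) ?_ ?_ _ Finset.univ rfl h ?_ ?_ hκ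
    hNb
  · rintro j _ ⟨z, hz, rfl⟩
    refine ⟨χ.mapsTo_inv (hDQ j hz), fun hb => ?_⟩
    have h9 := (hχ _ (χ.mapsTo_inv (hDQ j hz))).2 hb
    rw [χ.right_inv (hDQ j hz), mem_sphere_zero_iff_norm] at h9
    have h10 := hDS j hz
    rw [hQint, mem_ball_zero_iff] at h10
    exact h10.ne h9
  · intro j j' hjj'
    have hdis : Disjoint (frontier (D j)) (frontier (D j')) := by
      rw [hDf, hDf]; exact hCd j j' hjj'
    have key : ∀ j j', D j ⊆ interior (D j') →
        χ.invFun '' D j ⊆ χ.invFun '' D j' \ χ.invFun '' frontier (D j') := by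
      rintro j j' h1 _ ⟨z, hz, rfl⟩
      refine ⟨mem_image_of_mem _ (interior_subset (h1 hz)), fun h2 => ?_⟩
      rw [himg _ z ((hfD j').trans (hDQ j')) (hDQ j hz)] at h2
      exact h2.2 (h1 hz)
    rcases (AmbDisc.nested (hD j)) (hD j') hdis with h1 | h1 | h1
    · exact Or.inl (key j j' h1)
    · exact Or.inr (Or.inl (key j' j h1))
    · refine Or.inr (Or.inr ?_)
      rw [disjoint_left]
      rintro _ ⟨z, hz, rfl⟩ h2
      rw [himg _ z (hDQ j') (hDQ j hz)] at h2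
      exact disjoint_left.1 h1 hz h2
  · intro x hx
    have hz : χ.toFun x ∈ Q := χ.mapsTo hx
    have hxz : χ.invFun (χ.toFun x) = x := χ.left_inv hx
    constructor
    · intro hxr
      have h1 : χ.toFun x ∈ ⋃ j, Cs j := by
        rw [hCU, hlevQ]
        refine ⟨hz, ?_⟩
        show ‖h.toFun (χ.invFun (χ.toFun x)) - b‖ = r
        rw [hxz]; exact hxr
      obtain ⟨j, hj⟩ := mem_iUnion.1 h1
      exact ⟨j, Finset.mem_univ j, χ.toFun x, by rw [hDf]; exact hj, hxz⟩
    · rintro ⟨j, -, z, hz', rfl⟩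
      rw [hDf] at hz'
      exact (hlevel j z hz').2
  · intro x hx hxr
    exact hflow x (hEO hx) (by rw [hxr]; exact hr1)

end P073.H341
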