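import Vale.Agent.P073.H341.Circ

/-!
# P073, H341: the cut off region does not meet the other sheets
-/

set_option linter.unusedSectionVars false

open Set Metric Topology Filter

namespace P073.H341

open P073 P073.H339

variable {E : Type*} [NormedAddCommGroup E] [NormedSpace ℝ E]

/-- a preconnected set with a point of `B` in a closed cover `Y ∪ W`, not meeting `Y ∩ W`, where `Y`
misses `B`, misses `Y` -/
theorem avoid_aux {S Y W B : Set E} (hS : IsPreconnected S) (hY : IsClosed Y) (hW : IsClosed W)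
    (hcov : S ⊆ Y ∪ W) (hd : S ∩ (Y ∩ W) = ∅) (hYB : Disjoint Y B) (hSB : (S ∩ B).Nonempty) :
    Disjoint S Y := by
  obtain ⟨b, hb, hbB⟩ := hSB
  rcases isPreconnected_iff_subset_of_disjoint_closed.1 hS Y W hY hW hcov hd with h | h
  · exact absurd hbB (Set.disjoint_left.1 hYB (h hb))
  · exact Set.disjoint_left.2 fun x hx hxY => by
      have : x ∈ S ∩ (Y ∩ W) := ⟨hx, hxY, h hx⟩
      rw [hd] at this; exact this

/-- **a sheet disjoint from the first sheet and from the disc misses the region** (bigon) -/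
theorem BG.avoid {C B : Set E} {u v : E → ℝ} {X α β : Set E} {p q : E} {Z Z' l₀ : Set E}
    (hP : Pair C B u v) (h : BG C B u v X α β p q Z Z' l₀) {S : Set E} (hSC : S ⊆ C)
    (hS : ConBall 2 S (S ∩ B)) (hSu : ∀ x ∈ S, u x ≠ 0) (hSX : Disjoint S X)
    (hST : (S ∩ {x | x ∈ C ∧ v x = 0}).Nonempty →
      ConBall 1 (S ∩ {x | x ∈ C ∧ v x = 0}) (S ∩ {x | x ∈ C ∧ v x = 0} ∩ B)) :
    Disjoint S Z := by
  have hZc : IsClosed Z := h.hZ.isClosed
  obtain ⟨R, -, -, -, hZ'⟩ := h.hZ'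
  have hZ'c : IsClosed Z' := hZ'.isClosed
  have clu : IsClosed {x | x ∈ C ∧ u x ≤ 0} :=
    hP.hu.preimage_isClosed_of_isClosed hP.hC.isClosed isClosed_Iic
  have clv : IsClosed {x | x ∈ C ∧ v x ≤ 0} :=
    hP.hv.preimage_isClosed_of_isClosed hP.hC.isClosed isClosed_Iic
  have hZQ : ∀ x, x ∈ Z → x ∈ C ∧ 0 ≤ u x ∧ 0 ≤ v x := fun x hx => by
    have : x ∈ Z ∪ Z' := Or.inl hx
    rw [h.un] at this; exact this
  -- first: `S` misses `Z ∩ {v = 0}`
  have hDB : Disjoint (S ∩ {x | x ∈ C ∧ v x = 0}) Z := by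
    rcases (S ∩ {x | x ∈ C ∧ v x = 0}).eq_empty_or_nonempty with he | hne
    · rw [he]; exact Set.disjoint_left.2 fun x hx => absurd hx (notMem_empty x)
    · have hb := hST hne
      refine avoid_aux hb.isPreconnected' hZc (clu.union hZ'c) ?_ ?_ h.hZB
        (by obtain ⟨x, hx⟩ := hb.bdry_nonempty'; exact ⟨x, hx.1, hx.2⟩)
      · rintro x ⟨hxS, hxC, hxv⟩
        rcases le_total (u x) 0 with hu | hu
        · exact Or.inr (Or.inl ⟨hxC, hu⟩)
        · have : x ∈ Z ∪ Z' := by rw [h.un]; exact ⟨hxC, hu, hxv.ge⟩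
          exact this.imp id Or.inr
      · rw [Set.eq_empty_iff_forall_notMem]
        rintro x ⟨⟨hxS, hxC, hxv⟩, hxZ, hx | hx⟩
        · exact hSu x hxS (le_antisymm hx.2 (hZQ x hxZ).2.1)
        · exact Set.disjoint_left.1 hSX hxS (h.int ▸ ⟨hxZ, hx⟩)
  refine avoid_aux hS.isPreconnected' hZc ((clu.union clv).union hZ'c) ?_ ?_ h.hZB
    (by obtain ⟨x, hx⟩ := hS.bdry_nonempty'; exact ⟨x, hx.1, hx.2⟩)
  · intro x hxS
    rcases le_total (u x) 0 with hu | hu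
    · exact Or.inr (Or.inl (Or.inl ⟨hSC hxS, hu⟩))
    · rcases le_total (v x) 0 with hv | hv
      · exact Or.inr (Or.inl (Or.inr ⟨hSC hxS, hv⟩))
      · have : x ∈ Z ∪ Z' := by rw [h.un]; exact ⟨hSC hxS, hu, hv⟩
        exact this.imp id Or.inr
  · rw [Set.eq_empty_iff_forall_notMem]
    rintro x ⟨hxS, hxZ, (hx | hx) | hx⟩
    · exact hSu x hxS (le_antisymm hx.2 (hZQ x hxZ).2.1)
    · exact Set.disjoint_left.1 hDB ⟨hxS, hx.1, le_antisymm hx.2 (hZQ x hxZ).2.2⟩ hxZ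
    · exact Set.disjoint_left.1 hSX hxS (h.int ▸ ⟨hxZ, hx⟩)

/-- a sheet of the first family (circle case) -/
theorem CG.avoid₁ {C B : Set E} {u : E → ℝ} {X c : Set E} {Z Z' : Set E}
    (hP : One C B u) (h : CG C B u X c Z Z') {S : Set E} (hSC : S ⊆ C)
    (hS : IsPreconnected S) (hSB : (S ∩ B).Nonempty) (hSu : ∀ x ∈ S, x ∈ Z → u x ≠ 0)
    (hSX : Disjoint S X) : Disjoint S Z := by
  have hZc : IsClosed Z := h.hZ.isClosed
  obtain ⟨R, -, -, -, hZ'⟩ := h.hZ'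
  have hZ'c : IsClosed Z' := hZ'.isClosed
  have clu : IsClosed {x | x ∈ C ∧ u x ≤ 0} :=
    hP.hu.preimage_isClosed_of_isClosed hP.hC.isClosed isClosed_Iic
  have hZQ : ∀ x, x ∈ Z → x ∈ C ∧ 0 ≤ u x := fun x hx => by
    have : x ∈ Z ∪ Z' := Or.inl hx
    rw [h.un] at this; exact this
  refine avoid_aux hS hZc (clu.union hZ'c) ?_ ?_ h.hZB hSB
  · intro x hxS
    rcases le_total (u x) 0 with hu | hu
    · exact Or.inr (Or.inl ⟨hSC hxS, hu⟩)
    · have : x ∈ Z ∪ Z' := by rw [h.un]; exact ⟨hSC hxS, hu⟩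
      exact this.imp id Or.inr
  · rw [Set.eq_empty_iff_forall_notMem]
    rintro x ⟨hxS, hxZ, hx | hx⟩
    · exact hSu x hxS hxZ (le_antisymm hx.2 (hZQ x hxZ).2)
    · exact Set.disjoint_left.1 hSX hxS (h.int ▸ ⟨hxZ, hx⟩)

/-- a sheet of the other family (circle case) -/
theorem CG.avoid₂ {C B : Set E} {u : E → ℝ} {X c : Set E} {Z Z' : Set E}
    (hP : One C B u) (h : CG C B u X c Z Z') {S : Set E} (hSC : S ⊆ C)
    (hS : ConBall 2 S (S ∩ B)) (hSX : Disjoint S X)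
    (hST : (S ∩ {x | x ∈ C ∧ u x = 0}).Nonempty →
      ConBall 1 (S ∩ {x | x ∈ C ∧ u x = 0}) (S ∩ {x | x ∈ C ∧ u x = 0} ∩ B)) :
    Disjoint S Z := by
  have hZc : IsClosed Z := h.hZ.isClosed
  obtain ⟨R, -, -, -, hZ'⟩ := h.hZ'
  have hZ'c : IsClosed Z' := hZ'.isClosed
  have hZQ : ∀ x, x ∈ Z → x ∈ C ∧ 0 ≤ u x := fun x hx => by
    have : x ∈ Z ∪ Z' := Or.inl hx
    rw [h.un] at this; exact this
  have cl0 : IsClosed {x | x ∈ C ∧ u x ≤ 0} :=
    hP.hu.preimage_isClosed_of_isClosed hP.hC.isClosed isClosed_Iic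
  have hDc : Disjoint (S ∩ {x | x ∈ C ∧ u x = 0}) Z := by
    rcases (S ∩ {x | x ∈ C ∧ u x = 0}).eq_empty_or_nonempty with he | hne
    · rw [he]; exact Set.disjoint_left.2 fun x hx => absurd hx (notMem_empty x)
    · have hb := hST hne
      refine avoid_aux hb.isPreconnected' hZc hZ'c ?_ ?_ h.hZB
        (by obtain ⟨x, hx⟩ := hb.bdry_nonempty'; exact ⟨x, hx.1, hx.2⟩)
      · rintro x ⟨hxS, hxC, hxu⟩
        have : x ∈ Z ∪ Z' := by rw [h.un]; exact ⟨hxC, hxu.ge⟩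
        exact this
      · rw [Set.eq_empty_iff_forall_notMem]
        rintro x ⟨⟨hxS, hxC, hxu⟩, hxZ⟩
        rw [h.int] at hxZ
        exact Set.disjoint_left.1 hSX hxS hxZ
  refine h.avoid₁ hP hSC hS.isPreconnected'
    (by obtain ⟨x, hx⟩ := hS.bdry_nonempty'; exact ⟨x, hx.1, hx.2⟩) ?_ hSX
  intro x hxS hxZ hxu
  exact Set.disjoint_left.1 hDc ⟨hxS, hSC hxS, hxu⟩ hxZ

end P073.H341
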