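import Vale.Agent.P073.H341.Quad

/-!
# P073, H341: geometry of a bigon
-/

set_option linter.unusedSectionVars false

open Set Metric Topology Filter

namespace P073.H341

open P073 P073.H339

variable {E : Type*} [NormedAddCommGroup E] [NormedSpace ℝ E]

/-- cutting off the part which does not contain `R₀` -/
theorem cutOff {m : ℕ} (hP : CutP m E) {D R R₀ α : Set E} (hD : ConBall (m + 1) D R)
    (hα : ConBall m α (α ∩ R)) (hαD : α ⊆ D) (hR₀ : IsPreconnected R₀) (hR₀R : R₀ ⊆ R)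
    (hd : Disjoint R₀ α) :
    ∃ B₁ B₂ C₁ C₂, Cut m D R α B₁ B₂ C₁ C₂ ∧ R₀ ⊆ B₂ ∧ Disjoint R₀ C₁ := by
  obtain ⟨B₁, B₂, C₁, C₂, hc⟩ := hP D R α hD hα hαD
  have main : ∀ {B₁ B₂ C₁ C₂ : Set E}, Cut m D R α B₁ B₂ C₁ C₂ → R₀ ⊆ C₂ \ α →
      ∃ B₁ B₂ C₁ C₂, Cut m D R α B₁ B₂ C₁ C₂ ∧ R₀ ⊆ B₂ ∧ Disjoint R₀ C₁ := by
    intro B₁ B₂ C₁ C₂ hc h
    refine ⟨B₁, B₂, C₁, C₂, hc, ?_, ?_⟩
    · rw [← hc.symm.C₁_inter_B]
      exact fun x hx => ⟨(h hx).1, hR₀R hx⟩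
    · rw [Set.disjoint_left]
      exact fun x hx hx1 => (h hx).2 (hc.not_both hx1 (h hx).1)
  rcases hc.side hR₀ (hR₀R.trans hD.1) hd with h | h
  · exact main hc.symm h
  · exact main hc h

/-- the disc cut off from a half sheet by an arc with end points on `l` -/
theorem Pair.disc {C B : Set E} {u v : E → ℝ} (h : Pair C B u v) {α : Set E} {p q : E}
    (hα : IsArc α p q) (hαC : α ⊆ C) (hαu : ∀ x ∈ α, u x = 0) (hαv : ∀ x ∈ α, 0 ≤ v x)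
    (hpq : ∀ x ∈ α, (v x = 0 ↔ x = p ∨ x = q)) (hαB : Disjoint α B) :
    ∃ D D' l₀ : Set E, ConBall 2 D (l₀ ∪ α) ∧ IsClosed D' ∧
      D ∪ D' = {x | x ∈ C ∧ u x = 0 ∧ 0 ≤ v x} ∧ D ∩ D' = α ∧ Disjoint D B ∧
      IsArc l₀ p q ∧ ∀ x ∈ D, (v x = 0 ↔ x ∈ l₀) := by
  have e0 : {x | x ∈ {x | x ∈ C ∧ u x = 0} ∧ 0 ≤ v x} = {x | x ∈ C ∧ u x = 0 ∧ 0 ≤ v x} := by
    ext x; simp only [mem_ofPred_eq]; tauto
  set R : Set E := {x | x ∈ {x | x ∈ C ∧ u x = 0} ∩ B ∧ 0 ≤ v x} ∪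
    {x | x ∈ C ∧ u x = 0 ∧ v x = 0} with hR
  have hpα := hα.left_mem
  have hqα := hα.right_mem
  have hi : α ∩ R = {p, q} := by
    ext x
    simp only [hR, mem_inter_iff, mem_union, mem_ofPred_eq, mem_insert_iff, mem_singleton_iff]
    constructor
    · rintro ⟨hx, ⟨⟨-, h1⟩, -⟩ | ⟨-, -, h1⟩⟩
      · exact absurd h1 (Set.disjoint_left.1 hαB hx)
      · exact (hpq x hx).1 h1
    · intro hx
      have hxα : x ∈ α := by rcases hx with rfl | rfl <;> assumption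
      exact ⟨hxα, Or.inr ⟨hαC hxα, hαu x hxα, (hpq x hxα).2 hx⟩⟩
  obtain ⟨B₁, B₂, C₁, C₂, hc, hR2, hR1⟩ := cutOff (R₀ := {x | x ∈ {x | x ∈ C ∧ u x = 0} ∩ B ∧
      0 ≤ v x}) cutP_one h.half_sheet.hC₁ (α := α)
    (by rw [← hR, hi]; exact isArc_iff_conBall.1 hα)
    (fun x hx => ⟨⟨hαC hx, hαu x hx⟩, hαv x hx⟩) h.half_sheet.hB₁.isPreconnected'
    subset_union_left (Set.disjoint_left.2 fun x hx hxα => Set.disjoint_left.1 hαB hxα hx.1.2)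
  rw [← hR] at hc
  have h1 := hc.hB₁
  rw [hi] at h1
  refine ⟨C₁, C₂, B₁, hc.hC₁, hc.hC₂.isClosed, hc.hCu.trans e0, hc.hCi, ?_,
    isArc_iff_conBall.2 h1, ?_⟩
  · rw [Set.disjoint_left]
    intro x hx hxB
    have hx' := hc.C₁_sub hx
    exact Set.disjoint_left.1 hR1 ⟨⟨hx'.1, hxB⟩, hx'.2⟩ hx
  · intro x hx
    have hx' := hc.C₁_sub hx
    constructor
    · intro hv
      rw [← hc.C₁_inter_B]
      exact ⟨hx, Or.inr ⟨hx'.1.1, hx'.1.2, hv⟩⟩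
    · intro hxB
      rw [← hc.C₁_inter_B] at hxB
      rcases hxB.2 with h2 | h2
      · exact absurd hx (Set.disjoint_left.1 hR1 h2)
      · exact h2.2.2

/-- sub-arcs of an arc with the same end points coincide -/
theorem subarc_unique {l A A' : Set E} {a b p q : E} (hl : IsArc l a b) (hA : IsArc A p q)
    (hA' : IsArc A' p q) (h1 : A ⊆ l) (h2 : A' ⊆ l) : A = A' := by
  obtain ⟨φ, -, -⟩ := hl
  have hp := φ.mapsTo_inv (h1 hA.left_mem)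
  have hq := φ.mapsTo_inv (h1 hA.right_mem)
  have hne : φ.invFun p ≠ φ.invFun q := by
    intro h
    have := congrArg φ.toFun h
    rw [φ.right_inv (h1 hA.left_mem), φ.right_inv (h1 hA.right_mem)] at this
    exact hA.ne this
  have hsub : segment ℝ (φ.invFun p) (φ.invFun q) ⊆ Icc 0 1 :=
    (convex_Icc (0:ℝ) 1).segment_subset hp hq
  have hm := (isArc_segment hne).image φ hsub
  rw [φ.right_inv (h1 hA.left_mem), φ.right_inv (h1 hA.right_mem)] at hm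
  have key : ∀ {A : Set E}, IsArc A p q → A ⊆ l →
      φ.toFun '' segment ℝ (φ.invFun p) (φ.invFun q) ⊆ A := by
    intro A hA h1
    have hc : IsPreconnected (φ.invFun '' A) :=
      hA.isConnected.isPreconnected.image _ (φ.cont_inv.mono h1)
    have hs : segment ℝ (φ.invFun p) (φ.invFun q) ⊆ φ.invFun '' A := by
      rw [segment_eq_uIcc]
      exact hc.ordConnected.uIcc_subset (mem_image_of_mem _ hA.left_mem)
        (mem_image_of_mem _ hA.right_mem)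
    rintro _ ⟨t, ht, rfl⟩
    obtain ⟨x, hx, hxt⟩ := hs ht
    rw [← hxt, φ.right_inv (h1 hx)]
    exact hx
  rw [← arc_eq_of_subset hA hm (key hA h1), ← arc_eq_of_subset hA' hm (key hA' h2)]

/-- **the region between a bigon and the two sheets** -/
structure BG (C B : Set E) (u v : E → ℝ) (X α β : Set E) (p q : E) (Z Z' l₀ : Set E) :
    Prop where
  hZ : ConBall 3 Z ({x | x ∈ Z ∧ u x = 0} ∪ {x | x ∈ Z ∧ v x = 0} ∪ X)
  hZ' : ∃ R, X ⊆ R ∧ R ∩ Z ⊆ X ∧ (∀ x ∈ C, 0 ≤ u x → 0 ≤ v x → (u x = 0 ∨ v x = 0) →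
    x ∈ Z' → x ∈ R) ∧ ConBall 3 Z' R
  un : Z ∪ Z' = {x | x ∈ C ∧ 0 ≤ u x ∧ 0 ≤ v x}
  int : Z ∩ Z' = X
  hZB : Disjoint Z B
  hA : ConBall 2 {x | x ∈ Z ∧ u x = 0} (α ∪ l₀)
  hB : ConBall 2 {x | x ∈ Z ∧ v x = 0} (β ∪ l₀)
  hl : IsArc l₀ p q
  hl' : ∀ x, x ∈ l₀ ↔ x ∈ Z ∧ u x = 0 ∧ v x = 0
  hAX : ConBall 2 ({x | x ∈ Z ∧ u x = 0} ∪ X) (l₀ ∪ β)
  hBX : ConBall 2 ({x | x ∈ Z ∧ v x = 0} ∪ X) (l₀ ∪ α)

theorem Pair.bigon {C B : Set E} {u v : E → ℝ} (h : Pair C B u v) {X α β : Set E} {p q : E}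
    (hX : ConBall 2 X (α ∪ β)) (hα : IsArc α p q) (hβ : IsArc β p q) (hαβ : α ∩ β = {p, q})
    (hXC : X ⊆ C) (hXu : ∀ x ∈ X, 0 ≤ u x) (hXv : ∀ x ∈ X, 0 ≤ v x) (hXB : Disjoint X B)
    (hα' : ∀ x ∈ X, (x ∈ α ↔ u x = 0)) (hβ' : ∀ x ∈ X, (x ∈ β ↔ v x = 0)) :
    ∃ Z Z' l₀, BG C B u v X α β p q Z Z' l₀ := by
  have hαX : α ⊆ X := subset_union_left.trans hX.1
  have hβX : β ⊆ X := subset_union_right.trans hX.1
  have hpq : ∀ x, x ∈ α → (x ∈ β ↔ x = p ∨ x = q) := by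
    intro x hx
    have : x ∈ α ∩ β ↔ x ∈ ({p, q} : Set E) := by rw [hαβ]
    simp only [mem_inter_iff, mem_insert_iff, mem_singleton_iff] at this
    tauto
  have hpq' : ∀ x, x ∈ β → (x ∈ α ↔ x = p ∨ x = q) := by
    intro x hx
    have : x ∈ α ∩ β ↔ x ∈ ({p, q} : Set E) := by rw [hαβ]
    simp only [mem_inter_iff, mem_insert_iff, mem_singleton_iff] at this
    tauto
  obtain ⟨DA, DA', lA, a1, a2, a3, a4, a5, a6, a7⟩ := h.disc hα (hαX.trans hXC)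
    (fun x hx => (hα' x (hαX hx)).1 hx) (fun x hx => hXv x (hαX hx))
    (fun x hx => by rw [← hβ' x (hαX hx)]; exact hpq x hx) (hXB.mono_left hαX)
  obtain ⟨DB, DB', lB, b1, b2, b3, b4, b5, b6, b7⟩ := h.swap.disc hβ (hβX.trans hXC)
    (fun x hx => (hβ' x (hβX hx)).1 hx) (fun x hx => hXu x (hβX hx))
    (fun x hx => by rw [← hα' x (hβX hx)]; exact hpq' x hx) (hXB.mono_left hβX)
  -- membership facts
  have mA : ∀ {x}, x ∈ DA → x ∈ C ∧ u x = 0 ∧ 0 ≤ v x := fun {x} hx => by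
    have : x ∈ DA ∪ DA' := Or.inl hx
    rw [a3] at this; exact this
  have mA' : ∀ {x}, x ∈ DA' → x ∈ C ∧ u x = 0 ∧ 0 ≤ v x := fun {x} hx => by
    have : x ∈ DA ∪ DA' := Or.inr hx
    rw [a3] at this; exact this
  have mB : ∀ {x}, x ∈ DB → x ∈ C ∧ v x = 0 ∧ 0 ≤ u x := fun {x} hx => by
    have : x ∈ DB ∪ DB' := Or.inl hx
    rw [b3] at this; exact this
  have mB' : ∀ {x}, x ∈ DB' → x ∈ C ∧ v x = 0 ∧ 0 ≤ u x := fun {x} hx => by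
    have : x ∈ DB ∪ DB' := Or.inr hx
    rw [b3] at this; exact this
  have lAl : lA ⊆ {x | x ∈ C ∧ u x = 0 ∧ v x = 0} := fun x hx => by
    have hxD : x ∈ DA := a1.1 (Or.inl hx)
    exact ⟨(mA hxD).1, (mA hxD).2.1, (a7 x hxD).2 hx⟩
  have lBl : lB ⊆ {x | x ∈ C ∧ u x = 0 ∧ v x = 0} := fun x hx => by
    have hxD : x ∈ DB := b1.1 (Or.inl hx)
    exact ⟨(mB hxD).1, (b7 x hxD).2 hx, (mB hxD).2.1⟩
  have hll : lA = lB := by
    obtain ⟨a, b, hab⟩ := GB200.exists_pair h.hl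
    have hl' : IsArc {x | x ∈ C ∧ u x = 0 ∧ v x = 0} a b :=
      isArc_iff_conBall.2 (by rw [← hab]; exact h.hl)
    exact subarc_unique hl' a6 b6 lAl lBl
  subst hll
  -- cut the quadrant
  set R₀ : Set E := {x | x ∈ {x | x ∈ B ∧ 0 ≤ u x} ∧ 0 ≤ v x} with hR₀
  obtain ⟨R, hR⟩ := h.outer
  set Q : Set E := {x | x ∈ {x | x ∈ C ∧ 0 ≤ u x} ∧ 0 ≤ v x} with hQ
  set bQ : Set E := {x | x ∈ ({x | x ∈ B ∧ 0 ≤ u x} ∪ {x | x ∈ C ∧ u x = 0}) ∧ 0 ≤ v x} ∪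
    {x | x ∈ {x | x ∈ C ∧ v x = 0} ∧ 0 ≤ u x} with hbQ
  have hQb : ConBall 3 Q bQ := h.quad.hC₁
  have hXQ : X ⊆ Q := fun x hx => ⟨⟨hXC hx, hXu x hx⟩, hXv x hx⟩
  have hXbQ : X ∩ bQ = α ∪ β := by
    ext x
    constructor
    · rintro ⟨hx, ⟨h1 | h1, h2⟩ | ⟨h1, h2⟩⟩
      · exact absurd h1.1 (Set.disjoint_left.1 hXB hx)
      · exact Or.inl ((hα' x hx).2 h1.2)
      · exact Or.inr ((hβ' x hx).2 h1.2)
    · intro hx
      have hxX := hX.1 hx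
      refine ⟨hxX, ?_⟩
      rcases hx with hx | hx
      · exact Or.inl ⟨Or.inr ⟨hXC hxX, (hα' x hxX).1 hx⟩, hXv x hxX⟩
      · exact Or.inr ⟨⟨hXC hxX, (hβ' x hxX).1 hx⟩, hXu x hxX⟩
  obtain ⟨b₁, b₂, Z, Z', hc, hb2, hZ0⟩ := cutOff cutP_two' hQb (α := X) (R₀ := R₀)
    (by rw [hXbQ]; exact hX) hXQ hR.isPreconnected'
    (fun x hx => Or.inl ⟨Or.inl hx.1, hx.2⟩)
    (Set.disjoint_left.2 fun x hx hxX => Set.disjoint_left.1 hXB hxX hx.1.1)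
  have hDAb : DA ⊆ bQ := fun x hx => Or.inl ⟨Or.inr ⟨(mA hx).1, (mA hx).2.1⟩, (mA hx).2.2⟩
  have hDBb : DB ⊆ bQ := fun x hx => Or.inr ⟨⟨(mB hx).1, (mB hx).2.1⟩, (mB hx).2.2⟩
  have hαDA : α ⊆ DA := subset_union_right.trans a1.1
  have hβDB : β ⊆ DB := subset_union_right.trans b1.1
  have hlDA : lA ⊆ DA := subset_union_left.trans a1.1
  have hlDB : lA ⊆ DB := subset_union_left.trans b1.1
  have hcov : bQ ⊆ (DA ∪ DB) ∪ (DA' ∪ DB' ∪ R₀) := by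
    rintro x (⟨h1 | h1, h2⟩ | ⟨h1, h2⟩)
    · exact Or.inr (Or.inr ⟨h1, h2⟩)
    · have : x ∈ DA ∪ DA' := by rw [a3]; exact ⟨h1.1, h1.2, h2⟩
      rcases this with h3 | h3
      · exact Or.inl (Or.inl h3)
      · exact Or.inr (Or.inl (Or.inl h3))
    · have : x ∈ DB ∪ DB' := by rw [b3]; exact ⟨h1.1, h1.2, h2⟩
      rcases this with h3 | h3
      · exact Or.inl (Or.inr h3)
      · exact Or.inr (Or.inl (Or.inr h3))
  have hXYi : (DA ∪ DB) ∩ (DA' ∪ DB' ∪ R₀) ⊆ X := by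
    rintro x ⟨hx | hx, (hx' | hx') | hx'⟩
    · exact hαX (a4 ▸ ⟨hx, hx'⟩)
    · have h1 : x ∈ lA := (a7 x hx).1 (mB' hx').2.1
      exact hβX (b4 ▸ ⟨hlDB h1, hx'⟩)
    · exact absurd hx'.1.1 (Set.disjoint_left.1 a5 hx)
    · have h1 : x ∈ lA := (b7 x hx).1 (mA' hx').2.1
      exact hαX (a4 ▸ ⟨hlDA h1, hx'⟩)
    · exact hβX (b4 ▸ ⟨hx, hx'⟩)
    · exact absurd hx'.1.1 (Set.disjoint_left.1 b5 hx)
  have cl1 : IsClosed (DA ∪ DB) := a1.isClosed.union b1.isClosed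
  have cl2 : IsClosed (DA' ∪ DB' ∪ R₀) := (a2.union b2).union hR.isClosed
  have pc : ∀ {K : Set E}, IsPreconnected K → K ⊆ bQ → Disjoint K X →
      K ⊆ DA ∪ DB ∨ K ⊆ DA' ∪ DB' ∪ R₀ := by
    intro K hK hKb hKX
    refine (isPreconnected_iff_subset_of_disjoint_closed.1 hK) _ _ cl1 cl2 (hKb.trans hcov) ?_
    rw [Set.eq_empty_iff_forall_notMem]
    exact fun x hx => Set.disjoint_left.1 hKX hx.1 (hXYi hx.2)
  have hdis : ∀ Y : Set E, Disjoint (Y \ X) X := fun Y => Set.disjoint_left.2 fun x hx => hx.2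
  have k2 : b₂ \ X ⊆ DA' ∪ DB' ∪ R₀ := by
    rcases pc hc.symm.preconnB (Set.sdiff_subset.trans hc.symm.B₁_subB) (hdis _) with h1 | h1
    · exfalso
      obtain ⟨x, hx⟩ := hR.nonempty'
      have hxX : x ∉ X := fun hxX => Set.disjoint_left.1 hXB hxX hx.1.1
      rcases h1 ⟨hb2 hx, hxX⟩ with h2 | h2
      · exact Set.disjoint_left.1 a5 h2 hx.1.1
      · exact Set.disjoint_left.1 b5 h2 hx.1.1
    · exact h1
  have k1 : b₁ \ X ⊆ DA ∪ DB := by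
    rcases pc hc.preconnB (Set.sdiff_subset.trans hc.B₁_subB) (hdis _) with h1 | h1
    · exact h1
    · exfalso
      obtain ⟨x, hx, hx'⟩ := a1.not_subset_bdry
      have hxX : x ∉ X := fun hxX => hx' (Or.inr ((hα' x hxX).2 (mA hx).2.1))
      have hxb := hDAb hx
      rw [← hc.hB] at hxb
      have : x ∈ DA' ∪ DB' ∪ R₀ := hxb.elim (fun h' => h1 ⟨h', hxX⟩) (fun h' => k2 ⟨h', hxX⟩)
      exact hxX (hXYi ⟨Or.inl hx, this⟩)
  have hb1 : b₁ = DA ∪ DB := by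
    apply Subset.antisymm
    · intro x hx
      by_cases hxX : x ∈ X
      · have : x ∈ X ∩ bQ := ⟨hxX, hc.B₁_subB hx⟩
        rw [hXbQ] at this
        exact this.imp (fun h' => hαDA h') (fun h' => hβDB h')
      · exact k1 ⟨hx, hxX⟩
    · intro x hx
      have hxb : x ∈ bQ := hx.elim (fun h' => hDAb h') (fun h' => hDBb h')
      by_cases hxX : x ∈ X
      · have h1 : x ∈ X ∩ bQ := ⟨hxX, hxb⟩
        rw [← hc.hBi] at h1
        exact h1.1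
      · rw [← hc.hB] at hxb
        rcases hxb with h1 | h1
        · exact h1
        · exact absurd (hXYi ⟨hx, k2 ⟨h1, hxX⟩⟩) hxX
  have hZQ : ∀ {x}, x ∈ Z → x ∈ Q := fun {x} hx => hc.C₁_sub hx
  have eA : {x | x ∈ Z ∧ u x = 0} = DA := by
    apply Subset.antisymm
    · rintro x ⟨hx, hx0⟩
      have h1 : x ∈ Z ∩ bQ := ⟨hx, Or.inl ⟨Or.inr ⟨(hZQ hx).1.1, hx0⟩, (hZQ hx).2⟩⟩
      rw [hc.C₁_inter_B, hb1] at h1
      rcases h1 with h1 | h1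
      · exact h1
      · exact hlDA ((b7 x h1).1 hx0)
    · intro x hx
      exact ⟨hc.B₁_sub (hb1 ▸ Or.inl hx), (mA hx).2.1⟩
  have eB : {x | x ∈ Z ∧ v x = 0} = DB := by
    apply Subset.antisymm
    · rintro x ⟨hx, hx0⟩
      have h1 : x ∈ Z ∩ bQ := ⟨hx, Or.inr ⟨⟨(hZQ hx).1.1, hx0⟩, (hZQ hx).1.2⟩⟩
      rw [hc.C₁_inter_B, hb1] at h1
      rcases h1 with h1 | h1
      · exact hlDB ((a7 x h1).1 hx0)
      · exact h1
    · intro x hx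
      exact ⟨hc.B₁_sub (hb1 ▸ Or.inr hx), (mB hx).2.1⟩
  refine ⟨Z, Z', lA, ⟨?_, ⟨b₂ ∪ X, subset_union_right, ?_, ?_, hc.hC₂⟩, ?_, hc.hCi, ?_, ?_, ?_,
    a6, ?_, ?_, ?_⟩⟩
  · rw [eA, eB, ← hb1]; exact hc.hC₁
  · rintro x ⟨hx1 | hx1, hx2⟩
    · exact hc.not_both hx2 (hc.symm.B₁_sub hx1)
    · exact hx1
  · intro x hxC hxu hxv hx0 hxZ'
    left
    rw [← hc.symm.C₁_inter_B]
    refine ⟨hxZ', ?_⟩
    rcases hx0 with h0 | h0
    · exact Or.inl ⟨Or.inr ⟨hxC, h0⟩, hxv⟩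
    · exact Or.inr ⟨⟨hxC, h0⟩, hxu⟩
  · rw [hc.hCu]; ext x; simp only [hQ, mem_ofPred_eq]; tauto
  · rw [Set.disjoint_left]
    intro x hx hxB
    exact Set.disjoint_left.1 hZ0 ⟨⟨hxB, (hZQ hx).1.2⟩, (hZQ hx).2⟩ hx
  · rw [eA, union_comm]; exact a1
  · rw [eB, union_comm]; exact b1
  · intro x
    constructor
    · intro hx
      have h1 : x ∈ {x | x ∈ Z ∧ u x = 0} := by rw [eA]; exact hlDA hx
      exact ⟨h1.1, h1.2, (a7 x (hlDA hx)).2 hx⟩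
    · rintro ⟨hx, h1, h2⟩
      have : x ∈ DA := by rw [← eA]; exact ⟨hx, h1⟩
      exact (a7 x this).1 h2
  · rw [eA]
    refine glue2 (a := p) (b := q) (A := α) (B := lA) (B' := β) ?_ hX hα a6 hβ ?_ ?_ ?_
    · rw [union_comm]; exact a1
    · rintro x ⟨hx1, hx2⟩
      exact (hpq x hx1).1 ((hβ' x (hαX hx1)).2 ((a7 x (hαDA hx1)).2 hx2))
    · rw [hαβ]
    · apply Subset.antisymm
      · rintro x ⟨hx1, hx2⟩
        exact (hα' x hx2).2 (mA hx1).2.1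
      · exact fun x hx => ⟨hαDA hx, hαX hx⟩
  · rw [eB]
    refine glue2 (a := p) (b := q) (A := β) (B := lA) (B' := α) ?_ (by rw [union_comm]; exact hX)
      hβ a6 hα ?_ ?_ ?_
    · rw [union_comm]; exact b1
    · rintro x ⟨hx1, hx2⟩
      exact (hpq' x hx1).1 ((hα' x (hβX hx1)).2 ((b7 x (hβDB hx1)).2 hx2))
    · rw [inter_comm, hαβ]
    · apply Subset.antisymm
      · rintro x ⟨hx1, hx2⟩
        exact (hβ' x hx2).2 (mB hx1).2.1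
      · exact fun x hx => ⟨hβDB hx, hβX hx⟩

end P073.H341
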