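import Vale.Agent.P073.H341.Fam

/-!
# P073, H341: the chamber theorem for two families of proper sheets
-/

set_option linter.unusedSectionVars false

open Set Metric Topology Filter

namespace P073.H341

open P073 P073.H339

variable {E F : Type*} [NormedAddCommGroup E] [NormedSpace ℝ E]
  [NormedAddCommGroup F] [NormedSpace ℝ F] {ι κ : Type*}

theorem skel_half {n : ℕ} {C B : Set E} {K : Finset ι} {S : ι → Set E} {L : Finset κ}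
    {T : κ → Set E} (h : TwoFam n C B K S L T) {k₀ : ι} (hk₀ : k₀ ∈ K) {B₁ B₂ C₁ C₂ : Set E}
    (hc : Cut (n + 1) C B (S k₀) B₁ B₂ C₁ C₂)
    {K₁ : Finset ι} (hK₁ : ∀ k, k ∈ K₁ ↔ k ∈ K ∧ k ≠ k₀ ∧ S k ⊆ C₁) {L₁ : Finset κ}
    (hL₁ : ∀ l, l ∈ L₁ ↔ l ∈ L ∧ ((T l ∩ C₁) \ S k₀).Nonempty) :
    skel B K S L T ∩ C₁ = skel (B₁ ∪ S k₀) K₁ S L₁ (fun l => T l ∩ C₁) := by
  apply Subset.antisymm
  · rintro x ⟨hx, hx1⟩
    rw [mem_skel] at hx ⊢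
    rcases hx with hx | ⟨k, hk, hx⟩ | ⟨l, hl, hx⟩
    · left; left
      rw [← hc.C₁_inter_B]; exact ⟨hx1, hx⟩
    · by_cases hkk : k = k₀
      · left; right; rw [← hkk]; exact hx
      · right; left
        refine ⟨k, (hK₁ k).2 ⟨hk, hkk, ?_⟩, hx⟩
        exact (hc.side_of_mem (h.hS k hk).isPreconnected' (h.hSC k hk)
          (h.hSd k hk k₀ hk₀ hkk) hx hx1).trans Set.sdiff_subset
    · by_cases hxS : x ∈ S k₀
      · left; right; exact hxS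
      · right; right
        exact ⟨l, (hL₁ l).2 ⟨hl, ⟨x, ⟨hx, hx1⟩, hxS⟩⟩, hx, hx1⟩
  · intro x hx
    rw [mem_skel] at hx
    rcases hx with (hx | hx) | ⟨k, hk, hx⟩ | ⟨l, hl, hx⟩
    · exact ⟨mem_skel.2 (Or.inl (hc.B₁_subB hx)), hc.B₁_sub hx⟩
    · exact ⟨mem_skel.2 (Or.inr (Or.inl ⟨k₀, hk₀, hx⟩)), hc.D_sub hx⟩
    · exact ⟨mem_skel.2 (Or.inr (Or.inl ⟨k, ((hK₁ k).1 hk).1, hx⟩)), ((hK₁ k).1 hk).2.2 hx⟩
    · exact ⟨mem_skel.2 (Or.inr (Or.inr ⟨l, ((hL₁ l).1 hl).1, hx.1⟩)), hx.2⟩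

theorem TwoFam.skel_sub {n : ℕ} {C B : Set E} {K : Finset ι} {S : ι → Set E} {L : Finset κ}
    {T : κ → Set E} (h : TwoFam n C B K S L T) : skel B K S L T ⊆ C := by
  intro x hx
  rw [mem_skel] at hx
  rcases hx with hx | ⟨k, hk, hx⟩ | ⟨l, hl, hx⟩
  · exact h.hC.1 hx
  · exact h.hSC k hk hx
  · exact h.hTC l hl hx

/-- every point of the skeleton off `S k₀` is joined to the boundary -/
theorem TwoFam.reach {n : ℕ} {C B : Set E} {K : Finset ι} {S : ι → Set E} {L : Finset κ}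
    {T : κ → Set E} (hP : L.Nonempty → CutP n E) (h : TwoFam n C B K S L T) {k₀ : ι}
    (hk₀ : k₀ ∈ K) : Reach (skel B K S L T) B (S k₀) := by
  rintro x ⟨hx, hxS⟩
  rw [mem_skel] at hx
  rcases hx with hx | ⟨k, hk, hx⟩ | ⟨l, hl, hx⟩
  · refine ⟨{x}, isPreconnected_singleton, rfl, ?_, x, rfl, hx⟩
    rintro _ rfl
    exact ⟨mem_skel.2 (Or.inl hx), hxS⟩
  · have hkk : k ≠ k₀ := by rintro rfl; exact hxS hx
    refine ⟨S k, (h.hS k hk).isPreconnected', hx, fun y hy => ⟨mem_skel.2 (Or.inr (Or.inl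
      ⟨k, hk, hy⟩)), Set.disjoint_left.1 (h.hSd k hk k₀ hk₀ hkk) hy⟩, ?_⟩
    exact (h.hS k hk).bdry_nonempty'
  · by_cases hne : (S k₀ ∩ T l).Nonempty
    · have e1 : S k₀ ∩ T l ∩ (T l ∩ B) = S k₀ ∩ T l ∩ B := by
        ext x; simp only [mem_inter_iff]; tauto
      obtain ⟨U₁, U₂, T₁, T₂, hc⟩ := hP ⟨l, hl⟩ (T l) (T l ∩ B) (S k₀ ∩ T l) (h.hT l hl)
        (by rw [e1]; exact h.hX k₀ hk₀ l hl hne) inter_subset_right
      have one : ∀ {U₁ U₂ T₁ T₂ : Set E}, Cut n (T l) (T l ∩ B) (S k₀ ∩ T l) U₁ U₂ T₁ T₂ →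
          x ∈ T₁ \ (S k₀ ∩ T l) → ∃ K' : Set E, IsPreconnected K' ∧ x ∈ K' ∧
            K' ⊆ skel B K S L T \ S k₀ ∧ (K' ∩ B).Nonempty := by
        intro U₁ U₂ T₁ T₂ hc hx1
        refine ⟨T₁ \ (S k₀ ∩ T l), hc.preconn, hx1, ?_, ?_⟩
        · intro y hy
          exact ⟨mem_skel.2 (Or.inr (Or.inr ⟨l, hl, hc.C₁_sub hy.1⟩)),
            fun hyS => hy.2 ⟨hyS, hc.C₁_sub hy.1⟩⟩
        · obtain ⟨y, hy, hyS⟩ := hc.neB
          exact ⟨y, ⟨hc.B₁_sub hy, hyS⟩, (hc.B₁_subB hy).2⟩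
      rcases hc.mem_cases hx (fun h' => hxS h'.1) with h1 | h1
      · exact one hc h1
      · exact one hc.symm h1
    · refine ⟨T l, (h.hT l hl).isPreconnected', hx, fun y hy => ⟨mem_skel.2 (Or.inr (Or.inr
        ⟨l, hl, hy⟩)), fun hyS => hne ⟨y, hyS, hy⟩⟩, ?_⟩
      exact (h.hT l hl).bdry_nonempty'

/-- the statement of the chamber theorem for given index sets -/
def Good (n : ℕ) (E F : Type*) [NormedAddCommGroup E] [NormedSpace ℝ E]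
    [NormedAddCommGroup F] [NormedSpace ℝ F] {ι κ : Type*} (K : Finset ι) (L : Finset κ) : Prop :=
  ∀ (C B : Set E) (S : ι → Set E) (T : κ → Set E) (C' B' : Set F) (S' : ι → Set F)
    (T' : κ → Set F), TwoFam n C B K S L T → TwoFam n C' B' K S' L T' →
    (∀ k ∈ K, ∀ l ∈ L, (S' k ∩ T' l).Nonempty → Crosses C' (S' k) (T' l)) →
    ∀ (G : Set E) (G' : Set F), G = skel B K S L T → G' = skel B' K S' L T' →
    ∀ P : E → Set F, Track G G' P → Cor G P B B' →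
    (∀ k ∈ K, Cor G P (S k) (S' k)) → (∀ l ∈ L, Cor G P (T l) (T' l)) →
    MatchCells (n + 2) C G C' G' P

theorem good_step {n : ℕ} (hP1 : CutP (n + 1) E) (hP1' : CutP (n + 1) F) {K : Finset ι}
    {L : Finset κ} (hP : L.Nonempty → CutP n E) (hP' : L.Nonempty → CutP n F)
    (hK : K.Nonempty) (IH : ∀ (K₁ : Finset ι) (L₁ : Finset κ), K₁.card < K.card → L₁ ⊆ L →
      Good n E F K₁ L₁) : Good n E F K L := by
  classical
  intro C B S T C' B' S' T' h h' hcross G G' hG hG' P hΨ hΨB hΨS hΨT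
  obtain ⟨k₀, hk₀⟩ := hK
  have mG : ∀ {x}, x ∈ G ↔ x ∈ B ∨ (∃ k ∈ K, x ∈ S k) ∨ ∃ l ∈ L, x ∈ T l := fun {x} => by
    rw [hG]; exact mem_skel
  have mG' : ∀ {x}, x ∈ G' ↔ x ∈ B' ∨ (∃ k ∈ K, x ∈ S' k) ∨ ∃ l ∈ L, x ∈ T' l := fun {x} => by
    rw [hG']; exact mem_skel
  have hGC : G ⊆ C := hG ▸ h.skel_sub
  have hGC' : G' ⊆ C' := hG' ▸ h'.skel_sub
  have hSG : ∀ k ∈ K, S k ⊆ G := fun k hk x hx => mG.2 (Or.inr (Or.inl ⟨k, hk, hx⟩))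
  have hSG' : ∀ k ∈ K, S' k ⊆ G' := fun k hk x hx => mG'.2 (Or.inr (Or.inl ⟨k, hk, hx⟩))
  have hTG : ∀ l ∈ L, T l ⊆ G := fun l hl x hx => mG.2 (Or.inr (Or.inr ⟨l, hl, hx⟩))
  have hTG' : ∀ l ∈ L, T' l ⊆ G' := fun l hl x hx => mG'.2 (Or.inr (Or.inr ⟨l, hl, hx⟩))
  have hBG : B ⊆ G := fun x hx => mG.2 (Or.inl hx)
  have hBG' : B' ⊆ G' := fun x hx => mG'.2 (Or.inl hx)
  obtain ⟨B₁, B₂, C₁, C₂, hc⟩ := hP1 C B (S k₀) h.hC (h.hS k₀ hk₀) (h.hSC k₀ hk₀)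
  obtain ⟨B₁', B₂', C₁', C₂', hc'⟩ := hP1' C' B' (S' k₀) h'.hC (h'.hS k₀ hk₀) (h'.hSC k₀ hk₀)
  -- one half
  have half : ∀ {B₁ B₂ C₁ C₂ : Set E} {B₁' B₂' C₁' C₂' : Set F},
      Cut (n + 1) C B (S k₀) B₁ B₂ C₁ C₂ → Cut (n + 1) C' B' (S' k₀) B₁' B₂' C₁' C₂' →
      Cor G P C₁ C₁' → Cor G P C₂ C₂' →
      MatchCells (n + 2) C₁ (G ∩ C₁) C₁' (G' ∩ C₁') P := by
    intro B₁ B₂ C₁ C₂ B₁' B₂' C₁' C₂' hc hc' mem1 mem2
    -- nonemptiness transfers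
    have neT : ∀ l ∈ L, ∀ {D : Set E} {D' : Set F}, Cor G P D D' →
        (((T' l ∩ D') \ S' k₀).Nonempty ↔ ((T l ∩ D) \ S k₀).Nonempty) := by
      intro l hl D D' hD
      constructor
      · rintro ⟨y, ⟨hyT, hyD⟩, hyS⟩
        obtain ⟨x, hx, hxy⟩ := hΨ.surj y (hTG' l hl hyT)
        exact ⟨x, ⟨(hΨT l hl x hx y hxy).1 hyT, (hD x hx y hxy).1 hyD⟩, fun h1 =>
          hyS ((hΨS k₀ hk₀ x hx y hxy).2 h1)⟩
      · rintro ⟨x, ⟨hxT, hxD⟩, hxS⟩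
        have hx := hTG l hl hxT
        obtain ⟨y, hxy⟩ := hΨ.ne x hx
        exact ⟨y, ⟨(hΨT l hl x hx y hxy).2 hxT, (hD x hx y hxy).2 hxD⟩, fun h1 =>
          hxS ((hΨS k₀ hk₀ x hx y hxy).1 h1)⟩
    have hcr' : ∀ l ∈ L, (S' k₀ ∩ T' l).Nonempty →
        ((T' l ∩ C₁') \ S' k₀).Nonempty ∧ ((T' l ∩ C₂') \ S' k₀).Nonempty := fun l hl hne =>
      (hcross k₀ hk₀ l hl hne).both hc' (h'.hTC l hl) hne
    have hcr : ∀ l ∈ L, (S k₀ ∩ T l).Nonempty →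
        ((T l ∩ C₁) \ S k₀).Nonempty ∧ ((T l ∩ C₂) \ S k₀).Nonempty := by
      rintro l hl ⟨x, hxS, hxT⟩
      have hx := hTG l hl hxT
      obtain ⟨y, hxy⟩ := hΨ.ne x hx
      have := hcr' l hl ⟨y, (hΨS k₀ hk₀ x hx y hxy).2 hxS, (hΨT l hl x hx y hxy).2 hxT⟩
      exact ⟨(neT l hl mem1).1 this.1, (neT l hl mem2).1 this.2⟩
    let K₁ : Finset ι := K.filter (fun k => k ≠ k₀ ∧ S k ⊆ C₁)
    let L₁ : Finset κ := L.filter (fun l => ((T l ∩ C₁) \ S k₀).Nonempty)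
    have hK₁ : ∀ k, k ∈ K₁ ↔ k ∈ K ∧ k ≠ k₀ ∧ S k ⊆ C₁ := fun k => Finset.mem_filter
    have hL₁ : ∀ l, l ∈ L₁ ↔ l ∈ L ∧ ((T l ∩ C₁) \ S k₀).Nonempty := fun l => Finset.mem_filter
    have hSs : ∀ k ∈ K, (S' k ⊆ C₁' ↔ S k ⊆ C₁) := by
      intro k hk
      constructor
      · intro hs x hx
        have hxG := hSG k hk hx
        obtain ⟨y, hxy⟩ := hΨ.ne x hxG
        exact (mem1 x hxG y hxy).1 (hs ((hΨS k hk x hxG y hxy).2 hx))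
      · intro hs y hy
        obtain ⟨x, hx, hxy⟩ := hΨ.surj y (hSG' k hk hy)
        exact (mem1 x hx y hxy).2 (hs ((hΨS k hk x hx y hxy).1 hy))
    have hK₁' : ∀ k, k ∈ K₁ ↔ k ∈ K ∧ k ≠ k₀ ∧ S' k ⊆ C₁' := fun k => by
      rw [hK₁]
      exact ⟨fun ⟨a, b, c⟩ => ⟨a, b, (hSs k a).2 c⟩, fun ⟨a, b, c⟩ => ⟨a, b, (hSs k a).1 c⟩⟩
    have hL₁' : ∀ l, l ∈ L₁ ↔ l ∈ L ∧ ((T' l ∩ C₁') \ S' k₀).Nonempty := fun l => by
      rw [hL₁]
      exact ⟨fun ⟨a, b⟩ => ⟨a, (neT l a mem1).2 b⟩, fun ⟨a, b⟩ => ⟨a, (neT l a mem1).1 b⟩⟩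
    have e1 : G ∩ C₁ = skel (B₁ ∪ S k₀) K₁ S L₁ (fun l => T l ∩ C₁) := by
      rw [hG]; exact skel_half h hk₀ hc hK₁ hL₁
    have e2 : G' ∩ C₁' = skel (B₁' ∪ S' k₀) K₁ S' L₁ (fun l => T' l ∩ C₁') := by
      rw [hG']; exact skel_half h' hk₀ hc' hK₁' hL₁'
    have hcard : K₁.card < K.card := by
      apply Finset.card_lt_card
      rw [Finset.ssubset_iff_of_subset (Finset.filter_subset _ _)]
      exact ⟨k₀, hk₀, fun hk => ((hK₁ k₀).1 hk).2.1 rfl⟩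
    have hTr : Track (G ∩ C₁) (G' ∩ C₁') P :=
      { ne := fun x hx => hΨ.ne x hx.1
        maps := fun x hx y hy => ⟨hΨ.maps x hx.1 hy, (mem1 x hx.1 y hy).2 hx.2⟩
        surj := fun y hy => by
          obtain ⟨x, hx, hxy⟩ := hΨ.surj y hy.1
          exact ⟨x, ⟨hx, (mem1 x hx y hxy).1 hy.2⟩, hxy⟩
        pre := fun X hX hXc => hΨ.pre X (hX.trans inter_subset_left) hXc }
    refine IH K₁ L₁ hcard (Finset.filter_subset _ _) C₁ (B₁ ∪ S k₀) S (fun l => T l ∩ C₁) C₁'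
      (B₁' ∪ S' k₀) S' (fun l => T' l ∩ C₁')
      (h.half hP hk₀ hc hcr (fun k hk => (hK₁ k).1 hk) (fun l hl => (hL₁ l).1 hl))
      (h'.half hP' hk₀ hc' hcr' (fun k hk => (hK₁' k).1 hk) (fun l hl => (hL₁' l).1 hl))
      ?_ (G ∩ C₁) (G' ∩ C₁') e1 e2 P hTr ?_ ?_ ?_
    · rintro k hk l hl ⟨x, hxS, hxT, hx1⟩
      obtain ⟨hkK, hkk, hk1⟩ := (hK₁' k).1 hk
      exact (hcross k hkK l ((hL₁ l).1 hl).1 ⟨x, hxS, hxT⟩).half hc' (h'.hTC l ((hL₁ l).1 hl).1)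
        (h'.hSd k hkK k₀ hk₀ hkk)
    · -- the new boundary
      rintro x ⟨hx, hx1⟩ y hxy
      have hy1 := (mem1 x hx y hxy).2 hx1
      have i1 : x ∈ B₁ ↔ x ∈ B := by
        rw [← hc.C₁_inter_B]; exact ⟨fun h => h.2, fun h => ⟨hx1, h⟩⟩
      have i2 : y ∈ B₁' ↔ y ∈ B' := by
        rw [← hc'.C₁_inter_B]; exact ⟨fun h => h.2, fun h => ⟨hy1, h⟩⟩
      rw [mem_union, mem_union, i1, i2, hΨB x hx y hxy, hΨS k₀ hk₀ x hx y hxy]
    · intro k hk x hx y hxy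
      exact hΨS k ((hK₁ k).1 hk).1 x hx.1 y hxy
    · intro l hl x hx y hxy
      show y ∈ T' l ∩ C₁' ↔ x ∈ T l ∩ C₁
      rw [mem_inter_iff, mem_inter_iff, hΨT l ((hL₁ l).1 hl).1 x hx.1 y hxy, mem1 x hx.1 y hxy]
  rcases match_sides hc hc' hGC hBG hGC' hBG' hΨ hΨB (hΨS k₀ hk₀)
    (by rw [hG]; exact h.reach hP hk₀) with ⟨m1, m2⟩ | ⟨m1, m2⟩
  · exact MatchCells.glue hc hc' hGC hGC' (hSG k₀ hk₀) (hSG' k₀ hk₀) m1 m2 (half hc hc' m1 m2)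
      (half hc.symm hc'.symm m2 m1)
  · exact MatchCells.glue hc hc'.symm hGC hGC' (hSG k₀ hk₀) (hSG' k₀ hk₀) m1 m2
      (half hc hc'.symm m1 m2) (half hc.symm hc' m2 m1)

/-- one family -/
theorem good_one {n : ℕ} (hP1 : CutP (n + 1) E) (hP1' : CutP (n + 1) F) (K : Finset ι) :
    Good n E F K (∅ : Finset κ) := by
  induction hm : K.card using Nat.strong_induction_on generalizing K with
  | _ m IH =>
    rcases K.eq_empty_or_nonempty with rfl | hK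
    · intro C B S T C' B' S' T' h h' hcross G G' hG hG' P hΨ hΨB hΨS hΨT
      have e1 : G = B := by
        ext x; rw [hG, mem_skel]; simp
      have e2 : G' = B' := by
        ext x; rw [hG', mem_skel]; simp
      clear hG hG'
      subst e1 e2
      exact MatchCells.of_ball h.hC h'.hC hΨB
    · refine good_step hP1 hP1' (by simp) (by simp) hK ?_
      intro K₁ L₁ hcard hL
      have : L₁ = ∅ := Finset.subset_empty.1 hL
      subst this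
      exact IH K₁.card (hm ▸ hcard) K₁ rfl

theorem Good.swap {n : ℕ} {L : Finset κ} (h : Good n E F L (∅ : Finset ι)) :
    Good n E F (∅ : Finset ι) L := by
  intro C B S T C' B' S' T' h1 h2 hcross G G' hG hG' P hΨ hΨB hΨS hΨT
  exact h C B T S C' B' T' S' h1.swap h2.swap (by simp) G G' (hG.trans skel_swap)
    (hG'.trans skel_swap) P hΨ hΨB hΨT (by simp)

/-- **The chamber theorem** for two families. -/
theorem good_two {n : ℕ} (hP1 : CutP (n + 1) E) (hP1' : CutP (n + 1) F) (hP : CutP n E)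
    (hP' : CutP n F) (K : Finset ι) (L : Finset κ) : Good n E F K L := by
  induction hm : K.card using Nat.strong_induction_on generalizing K L with
  | _ m IH =>
    rcases K.eq_empty_or_nonempty with rfl | hK
    · exact (good_one hP1 hP1' L).swap
    · refine good_step hP1 hP1' (fun _ => hP) (fun _ => hP') hK ?_
      intro K₁ L₁ hcard _
      exact IH K₁.card (hm ▸ hcard) K₁ L₁ rfl

end P073.H341
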