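import Vale.Agent.P073.H341.StepK
import Vale.Agent.P073.H805.E3Box

/-!
# P073, H341: the exchange process in boxes, without hypotheses on the faces

`exists_e3K`, `exists_e3K_all`: as 805's `exists_e3`, `exists_e3_all`, but any face inside a box may
be listed; at the end every clean disc of a listed face meets the safe set `Y`; a pattern exists for
the faces with `Touch`.
-/

set_option linter.unusedSectionVars false

open Set Metric Topology Filter

namespace P073.H341

open P073 P073.TR P073.H579 P073.H805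

variable {E : Type*} [NormedAddCommGroup E] [NormedSpace ℝ E] {ι J : Type*} {Ω : Set E}
  {Λ : Set (Fin 3 → ℝ)}

/-- the traces depend on the levels only -/
theorem tr_congr_lev {D : Data E ι} (F : Face D) {u v u' v' : E → ℝ}
    (hu : ∀ x ∈ D.U, (u' x ∈ D.a ↔ u x ∈ D.a)) (hv : ∀ x ∈ D.U, (v' x ∈ D.b ↔ v x ∈ D.b)) :
    F.tr u' v' = F.tr u v := by
  funext b
  cases b
  · ext z
    rw [Face.mem_tr_false, Face.mem_tr_false]
    exact and_congr_right fun hz => hu _ (F.subU (F.ch_mem hz))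
  · ext z
    rw [Face.mem_tr_true, Face.mem_tr_true]
    exact and_congr_right fun hz => hv _ (F.subU (F.ch_mem hz))

/-- **output of the exchange process in one box** -/
structure E3OutK (h : ConHomeo Ω Λ) (M : ι → Set E) (lo hi : Fin 3 → ℝ) (i j : Fin 3)
    (a b : Finset ℝ) (F : J → Face (boxData h M lo hi i j a b)) (Y : Set E)
    (g : E → Fin 3 → ℝ) : Prop where
  rel : Rel (boxData h M lo hi i j a b) (fun x => h.toFun x i) (fun x => h.toFun x j)
    (fun x => g x i) (fun x => g x j)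
  clean : ∀ k, CleanY (F k) (fun x => g x i) (fun x => g x j) Y
  pat : ∀ k, ConBall 2 (M (F k).i₀) (F k).bd →
    Touch (F k) (fun x => h.toFun x i) (fun x => h.toFun x j) Y →
    ∃ (A : Type) (_ : Finite A) (S : A → Set E) (cd : A → Bool) (lev : A → ℝ),
    FacePat (M (F k).i₀) (F k).bd (pr2 (fun x => g x i) (fun x => g x j))
      (lv2 (boxData h M lo hi i j a b)) S cd lev cd
  levi : SameLev a Y (fun x => g x i) (fun x => h.toFun x i)
  levj : SameLev b Y (fun x => g x j) (fun x => h.toFun x j)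
  crossi : ∀ m, ∀ x ∈ M m, x ∈ h.invFun '' Icc lo hi → g x i ∈ a →
    H805.Crosses (M m ∩ h.invFun '' Icc lo hi) (fun y => g y i) x
  crossj : ∀ m, ∀ x ∈ M m, x ∈ h.invFun '' Icc lo hi → g x j ∈ b →
    H805.Crosses (M m ∩ h.invFun '' Icc lo hi) (fun y => g y j) x
  state : ∃ u v : E → ℝ, StateOut h M lo hi i j a b g u v

theorem E3OutK.congr {h : ConHomeo Ω Λ} {M : ι → Set E} {lo hi : Fin 3 → ℝ} {i j : Fin 3}
    {a b : Finset ℝ} {F : J → Face (boxData h M lo hi i j a b)} {Y : Set E}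
    {g g' : E → Fin 3 → ℝ} (H : E3OutK h M lo hi i j a b F Y g)
    (hY : Y ⊆ h.invFun '' Icc lo hi) (hg : EqOn g' g (h.invFun '' Icc lo hi)) :
    E3OutK h M lo hi i j a b F Y g' where
  rel := rel_congr H.rel (SameLev.of_eqOn fun x hx => by simp only [hg hx])
    (SameLev.of_eqOn fun x hx => by simp only [hg hx])
  clean := fun k => by
    have e : (F k).tr (fun x => g' x i) (fun x => g' x j) =
        (F k).tr (fun x => g x i) (fun x => g x j) :=
      tr_congr_lev (F k) (fun x hx => by simp only [hg hx]) (fun x hx => by simp only [hg hx])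
    intro K hK
    rw [e] at hK
    exact H.clean k K hK
  pat := fun k hb hT => by
    obtain ⟨A, hA, S, cd, lev, hP⟩ := H.pat k hb hT
    refine ⟨A, hA, S, cd, lev, hP.congr fun β l hl x hx => ?_⟩
    have hx' : x ∈ h.invFun '' Icc lo hi := (F k).subU hx
    cases β
    · show (g' x i = l ↔ g x i = l) ∧ (g' x i < l ↔ g x i < l) ∧ (l < g' x i ↔ l < g x i)
      rw [hg hx']; exact ⟨Iff.rfl, Iff.rfl, Iff.rfl⟩
    · show (g' x j = l ↔ g x j = l) ∧ (g' x j < l ↔ g x j < l) ∧ (l < g' x j ↔ l < g x j)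
      rw [hg hx']; exact ⟨Iff.rfl, Iff.rfl, Iff.rfl⟩
  levi := (SameLev.of_eqOn fun x hx => by simp only [hg (hY hx)]).trans H.levi
  levj := (SameLev.of_eqOn fun x hx => by simp only [hg (hY hx)]).trans H.levj
  crossi := fun m x hx hxU hxa => by
    rw [hg hxU] at hxa
    refine (H.crossi m x hx hxU hxa).congr (fun y hy h1 => ?_) (fun y hy h1 => ?_)
    · simp only [hg hxU, hg hy.2]; exact h1
    · simp only [hg hxU, hg hy.2]; exact h1
  crossj := fun m x hx hxU hxa => by
    rw [hg hxU] at hxa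
    refine (H.crossj m x hx hxU hxa).congr (fun y hy h1 => ?_) (fun y hy h1 => ?_)
    · simp only [hg hxU, hg hy.2]; exact h1
    · simp only [hg hxU, hg hy.2]; exact h1
  state := by
    obtain ⟨u, v, Q⟩ := H.state
    exact ⟨u, v, Q.conu, Q.contu, Q.conv, Q.contv,
      (SameLev.of_eqOn fun x hx => by simp only [hg hx]).trans Q.su,
      (SameLev.of_eqOn fun x hx => by simp only [hg hx]).trans Q.sv, Q.off, Q.regu, Q.regv,
      Q.reguv⟩

/-- **one box** -/
theorem exists_e3K [FiniteDimensional ℝ E] (h3 : Module.finrank ℝ E = 3) [Finite ι] [Fintype J]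
    {h : ConHomeo Ω Λ} {M : ι → Set E} {lo hi : Fin 3 → ℝ}
    {i j : Fin 3} {a b : Finset ℝ} (H : BoxOk h M lo hi i j a b)
    (F : J → Face (boxData h M lo hi i j a b)) (hF : MeshOk F) {Y : Set E}
    (hY : Safe (boxData h M lo hi i j a b) (fun x => h.toFun x i) (fun x => h.toFun x j) Y) :
    ∃ g : ConHomeo (h.invFun '' Icc lo hi) (Icc lo hi),
      EqOn g.toFun h.toFun (h.invFun '' frontier (Icc lo hi)) ∧
      E3OutK h M lo hi i j a b F Y g.toFun := by
  obtain ⟨u, v, hs, hr, hcl, hu, hv⟩ := exists_stateK h3 H.ok F hF H.init hY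
  obtain ⟨g, hgB, hgu, hgv⟩ := H.final hs
  have su : SameLev a (h.invFun '' Icc lo hi) (fun x => g.toFun x i) u := fun k hk x hx =>
    hgu k hk x hx
  have sv : SameLev b (h.invFun '' Icc lo hi) (fun x => g.toFun x j) v := fun k hk x hx =>
    hgv k hk x hx
  obtain ⟨n, hn⟩ := H.iU
  refine ⟨g, hgB, rel_congr hr su sv, fun k => ?_, fun k hb hT => ?_, ?_, ?_,
    fun m x hx hxU hxa => ?_, fun m x hx hxU hxa => ?_, u, v, hs.conu, hs.contu, hs.conv,
    hs.contv, su, sv, hs.off, hs.regu, hs.regv, hs.reguv⟩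
  · have e : (F k).tr (fun x => g.toFun x i) (fun x => g.toFun x j) = (F k).tr u v :=
      tr_congr_lev (F k) (fun x hx => su.mem hx) (fun x hx => sv.mem hx)
    intro K hK
    rw [e] at hK
    exact hcl k K hK
  · obtain ⟨A, hA, S, cd, lev, hP⟩ := hs.facePat H.ok (F k)
      ((hcl k).good H.ok hs hr hu hv hT) hb
    refine ⟨A, hA, S, cd, lev, hP.congr fun β l hl x hx => ?_⟩
    have hx' : x ∈ h.invFun '' Icc lo hi := (F k).subU hx
    cases β
    · exact su l hl x hx'
    · exact sv l hl x hx'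
  · exact (su.mono hY.sub).trans (SameLev.of_eqOn hu)
  · exact (sv.mono hY.sub).trans (SameLev.of_eqOn hv)
  · have e1 := (su _ hxa x hxU).1.1 rfl
    obtain ⟨σ, r, hb⟩ := hs.regu x hxU (by rw [e1]; exact hxa)
    have h1 := crosses_of_box hb (m := m) (n := n) hx
      (by rw [show (boxData h M lo hi i j a b).M n = _ from hn]; exact hxU)
    have h2 : (boxData h M lo hi i j a b).M n = h.invFun '' Icc lo hi := hn
    rw [h2] at h1
    refine h1.congr (fun y hy h3 => ?_) (fun y hy h3 => ?_)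
    · rw [e1] at h3
      exact (su _ hxa y hy.2).2.2.2 h3
    · rw [e1] at h3
      exact (su _ hxa y hy.2).2.1.2 h3
  · have e1 := (sv _ hxa x hxU).1.1 rfl
    obtain ⟨σ, r, hb⟩ := hs.regv x hxU (by rw [e1]; exact hxa)
    have h1 := crosses_of_box hb (m := m) (n := n) hx
      (by rw [show (boxData h M lo hi i j a b).M n = _ from hn]; exact hxU)
    have h2 : (boxData h M lo hi i j a b).M n = h.invFun '' Icc lo hi := hn
    rw [h2] at h1
    refine h1.congr (fun y hy h3 => ?_) (fun y hy h3 => ?_)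
    · rw [e1] at h3
      exact (sv _ hxa y hy.2).2.2.2 h3
    · rw [e1] at h3
      exact (sv _ hxa y hy.2).2.1.2 h3

/-- the hypotheses for one box -/
structure OkK {h : ConHomeo Ω Λ} (X : EBox (E := E) h) : Prop where
  ok : BoxOk h X.M X.lo X.hi X.i X.j X.a X.b
  mesh : MeshOk X.F
  safe : Safe X.D (fun x => h.toFun x X.i) (fun x => h.toFun x X.j) X.Y

/-- the output for one box -/
def OutK {h : ConHomeo Ω Λ} (X : EBox (E := E) h) (g : E → Fin 3 → ℝ) : Prop :=
  E3OutK h X.M X.lo X.hi X.i X.j X.a X.b X.F X.Y g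

/-- **all boxes at once** -/
theorem exists_e3K_all [FiniteDimensional ℝ E] (h3 : Module.finrank ℝ E = 3) (hΩ : IsOpen Ω)
    (hΛ : IsOpen Λ) (h : ConHomeo Ω Λ) {γ : Type*}
    (X : γ → EBox (E := E) h) (hX : ∀ c, OkK (X c))
    (hfin : ∀ y ∈ Λ, ∃ O ∈ 𝓝 y, {c | (Icc (X c).lo (X c).hi ∩ O).Nonempty}.Finite)
    (hdis : ∀ c d, c ≠ d → Disjoint (interior (Icc (X c).lo (X c).hi)) (Icc (X d).lo (X d).hi)) :
    ∃ h' : ConHomeo Ω Λ, (∀ c, OutK (X c) h'.toFun) ∧
      (∀ c, h'.toFun '' (X c).U = Icc (X c).lo (X c).hi) ∧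
      (∀ c, ∀ x ∈ Ω, h'.toFun x ∈ Icc (X c).lo (X c).hi ↔ h.toFun x ∈ Icc (X c).lo (X c).hi) ∧
      (∀ x ∈ Ω, (∀ c, h.toFun x ∉ interior (Icc (X c).lo (X c).hi)) → h'.toFun x = h.toFun x) := by
  choose g hgB hgO using fun c => exists_e3K h3 (hX c).ok (X c).F (hX c).mesh (hX c).safe
  have himg : ∀ c, h.toFun '' (X c).U = Icc (X c).lo (X c).hi := by
    intro c
    apply Subset.antisymm
    · rintro _ ⟨x, hx, rfl⟩
      exact ((hX c).ok.mem_U hx).2
    · intro y hy
      exact ⟨h.invFun y, ⟨y, hy, rfl⟩, h.right_inv ((hX c).ok.sub hy)⟩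
  have hUΩ : ∀ c, (X c).U ⊆ Ω := fun c x hx => ((hX c).ok.mem_U hx).1
  have memU : ∀ c, ∀ x ∈ Ω, (x ∈ (X c).U ↔ h.toFun x ∈ Icc (X c).lo (X c).hi) := by
    intro c x hx
    constructor
    · exact fun h1 => ((hX c).ok.mem_U h1).2
    · exact fun h1 => ⟨h.toFun x, h1, h.left_inv hx⟩
  have hint : ∀ c, ∀ x ∈ (X c).U, (x ∈ interior (X c).U ↔
      h.toFun x ∈ interior (Icc (X c).lo (X c).hi)) := by
    intro c x hx
    have hxΩ := hUΩ c hx
    rw [mem_interior_iff_mem_nhds, mem_interior_iff_mem_nhds]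
    constructor
    · intro h1
      -- the inverse is continuous
      have h2 : ContinuousAt h.invFun (h.toFun x) :=
        h.cont_inv.continuousAt (hΛ.mem_nhds (h.mapsTo hxΩ))
      have h3 : h.invFun ⁻¹' (X c).U ∈ 𝓝 (h.toFun x) := by
        apply h2
        rw [h.left_inv hxΩ]; exact h1
      filter_upwards [h3, hΛ.mem_nhds (h.mapsTo hxΩ)] with y hy hyΛ
      have := (memU c _ (h.mapsTo_inv hyΛ)).1 hy
      rwa [h.right_inv hyΛ] at this
    · intro h1
      have h2 : ContinuousAt h.toFun x := h.cont.continuousAt (hΩ.mem_nhds hxΩ)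
      filter_upwards [h2 h1, hΩ.mem_nhds hxΩ] with y hy hyΩ
      exact (memU c y hyΩ).2 hy
  obtain ⟨h', h1, h2, h3, h4⟩ := H212.exists_replace hΩ hΛ h (U := fun c => (X c).U)
    (fun c => (hX c).ok.ok.ball.isCompact) hUΩ
    (fun c => by
      intro x
      by_cases hx : x ∈ Ω
      · obtain ⟨m, hm⟩ := (hX c).ok.iU
        have := (hX c).ok.cone m x hx
        rw [hm] at this; exact this
      · exact locConeAt_of_compl_mem_nhds
          ((hX c).ok.ok.ball.isClosed.isOpen_compl.mem_nhds fun h1 => hx (hUΩ c h1)))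
    (fun z hz => by
      obtain ⟨O, hO, hf⟩ := hfin (h.toFun z) (h.mapsTo hz)
      have h2 : ContinuousAt h.toFun z := h.cont.continuousAt (hΩ.mem_nhds hz)
      refine ⟨h.toFun ⁻¹' O ∩ Ω, inter_mem (h2 hO) (hΩ.mem_nhds hz), hf.subset ?_⟩
      rintro c ⟨x, hx, hxO, hxΩ⟩
      exact ⟨h.toFun x, (memU c x hxΩ).1 hx, hxO⟩)
    (fun c d hcd => by
      rw [Set.disjoint_left]
      intro x hx hxd
      have hxU := interior_subset hx
      exact Set.disjoint_left.1 (hdis c d hcd) ((hint c x hxU).1 hx)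
        ((memU d x (hUΩ c hxU)).1 hxd))
    (fun c => (g c).cast (X' := (X c).U) rfl (himg c).symm)
    (fun c x hx => by
      show (g c).toFun x = h.toFun x
      have hxU : x ∈ (X c).U := (hX c).ok.ok.ball.isClosed.frontier_subset hx
      refine hgB c ⟨h.toFun x, ?_, h.left_inv (hUΩ c hxU)⟩
      rw [isClosed_Icc.frontier_eq]
      refine ⟨(memU c x (hUΩ c hxU)).1 hxU, fun h1 => ?_⟩
      exact hx.2 ((hint c x hxU).2 h1))
  have hEq : ∀ c, EqOn h'.toFun (g c).toFun (X c).U := h1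
  have hU' : ∀ c, h'.toFun '' (X c).U = Icc (X c).lo (X c).hi := by
    intro c
    rw [(hEq c).image_eq]
    exact (g c).image_eq
  refine ⟨h', fun c => (hgO c).congr (hX c).safe.sub (hEq c), hU', fun c x hx => ?_,
    fun x hx hxc => ?_⟩
  · rw [← memU c x hx, ← hU' c]
    constructor
    · rintro ⟨z, hz, hzx⟩
      rwa [← h'.injOn (hUΩ c hz) hx hzx]
    · exact fun h1 => ⟨x, h1, rfl⟩
  · refine h3 ⟨hx, ?_⟩
    rw [mem_iUnion]
    rintro ⟨c, hc⟩
    exact hxc c ((hint c x (interior_subset hc)).1 hc)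

end P073.H341
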