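import Vale.Agent.P073.H341.Chambers

/-!
# P073, H341: extension of conical homeomorphisms from a sheet complex to the ball
-/

set_option linter.unusedSectionVars false

open Set Metric Topology Filter

namespace P073.H341

open P073 P073.H339

variable {E F : Type*} [NormedAddCommGroup E] [NormedSpace ℝ E]
  [NormedAddCommGroup F] [NormedSpace ℝ F] {ι κ : Type*}

/-- extension over matched cells -/
theorem MatchCells.extend {n : ℕ} {C G : Set E} {C' G' : Set F} (Ψ : ConHomeo G G')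
    (h : MatchCells n C G C' G' (fun x => {Ψ.toFun x})) (hG : IsClosed G) (hG' : IsClosed G') :
    ∃ Φ : ConHomeo C C', EqOn Φ.toFun Ψ.toFun G := by
  obtain ⟨J, _, Q, R, Q', R', a1, a2, a3, a4, a5, a6, a7, a8, a9⟩ := h
  have a3' : ∀ a, Ψ.toFun '' R a = R' a := fun a =>
    image_of_cor Ψ (a4 a ▸ inter_subset_right) (a5 a ▸ inter_subset_right) (a3 a)
  obtain ⟨Φ, h1, h2⟩ := ConHomeo.exists_extend_cells Ψ (fun _ : J => n) Q R Q' R' a1 a2 a3' a4 a5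
    a6 a7 (fun z _ hz => by rwa [hG.closure_eq] at hz) (fun z _ hz => by rwa [hG'.closure_eq] at hz)
    (fun z _ => ⟨univ, univ_mem, toFinite _⟩) (fun z _ => ⟨univ, univ_mem, toFinite _⟩)
  exact ⟨Φ.cast a8 a9, h1⟩

theorem TwoFam.isClosed_skel {n : ℕ} {C B : Set E} {K : Finset ι} {S : ι → Set E} {L : Finset κ}
    {T : κ → Set E} (h : TwoFam n C B K S L T) : IsClosed (skel B K S L T) := by
  refine h.hC.isCompact_bdry.isClosed.union ((K.finite_toSet.isClosed_biUnion ?_).union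
    (L.finite_toSet.isClosed_biUnion ?_))
  · exact fun k hk => (h.hS k hk).isClosed
  · exact fun l hl => (h.hT l hl).isClosed

/-- **Extension theorem, two families**: a conical homeomorphism between the two-skeletons
(boundary and sheets) extends to the balls. -/
theorem exists_extend_two {n : ℕ} (hP1 : CutP (n + 1) E) (hP1' : CutP (n + 1) F) (hP : CutP n E)
    (hP' : CutP n F) {C B : Set E} {K : Finset ι} {S : ι → Set E} {L : Finset κ} {T : κ → Set E}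
    {C' B' : Set F} {S' : ι → Set F} {T' : κ → Set F} (h : TwoFam n C B K S L T)
    (h' : TwoFam n C' B' K S' L T')
    (hx : ∀ k ∈ K, ∀ l ∈ L, (S' k ∩ T' l).Nonempty → Crosses C' (S' k) (T' l))
    {G : Set E} {G' : Set F} (hG : G = skel B K S L T) (hG' : G' = skel B' K S' L T')
    (Ψ : ConHomeo G G') (hB : Ψ.toFun '' B = B') (hS : ∀ k ∈ K, Ψ.toFun '' S k = S' k)
    (hT : ∀ l ∈ L, Ψ.toFun '' T l = T' l) :
    ∃ Φ : ConHomeo C C', EqOn Φ.toFun Ψ.toFun G := by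
  have sS : ∀ k ∈ K, S k ⊆ G := fun k hk x hx => by
    rw [hG]; exact mem_skel.2 (Or.inr (Or.inl ⟨k, hk, hx⟩))
  have sT : ∀ l ∈ L, T l ⊆ G := fun l hl x hx => by
    rw [hG]; exact mem_skel.2 (Or.inr (Or.inr ⟨l, hl, hx⟩))
  have sB : B ⊆ G := fun x hx => by
    rw [hG]; exact mem_skel.2 (Or.inl hx)
  have := good_two hP1 hP1' hP hP' K L C B S T C' B' S' T' h h' hx G G' hG hG' _
    (Track.of_homeo Ψ) (cor_of_image Ψ sB hB) (fun k hk => cor_of_image Ψ (sS k hk) (hS k hk))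
    (fun l hl => cor_of_image Ψ (sT l hl) (hT l hl))
  exact this.extend Ψ (hG ▸ h.isClosed_skel) (hG' ▸ h'.isClosed_skel)

/-- one finite family of proper sheets in the ball `C` -/
structure Fam (n : ℕ) (C B : Set E) (K : Finset ι) (S : ι → Set E) : Prop where
  hC : ConBall (n + 1) C B
  hS : ∀ k ∈ K, ConBall n (S k) (S k ∩ B)
  hSC : ∀ k ∈ K, S k ⊆ C
  hSd : ∀ k ∈ K, ∀ k' ∈ K, k ≠ k' → Disjoint (S k) (S k')

theorem Fam.two {n : ℕ} {C B : Set E} {K : Finset ι} {S : ι → Set E} (h : Fam (n + 1) C B K S) :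
    TwoFam n C B K S (∅ : Finset Empty) (fun _ => ∅) where
  hC := h.hC
  hS := h.hS
  hSC := h.hSC
  hSd := h.hSd
  hT := by simp
  hTC := by simp
  hTd := by simp
  hX := by simp

theorem Fam.skel_eq {B : Set E} {K : Finset ι} {S : ι → Set E} :
    B ∪ ⋃ k ∈ K, S k = skel B K S (∅ : Finset Empty) (fun _ => ∅) := by
  ext x; rw [mem_skel]; simp

/-- **Chambers, one family** -/
theorem Fam.chambers {n : ℕ} (hP1 : CutP (n + 1) E) (hP1' : CutP (n + 1) F) {C B : Set E}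
    {K : Finset ι} {S : ι → Set E} {C' B' : Set F} {S' : ι → Set F} (h : Fam (n + 1) C B K S)
    (h' : Fam (n + 1) C' B' K S') {G : Set E} {G' : Set F} (hG : G = B ∪ ⋃ k ∈ K, S k)
    (hG' : G' = B' ∪ ⋃ k ∈ K, S' k) {P : E → Set F} (hP : Track G G' P) (hB : Cor G P B B')
    (hS : ∀ k ∈ K, Cor G P (S k) (S' k)) : MatchCells (n + 2) C G C' G' P :=
  good_one hP1 hP1' K C B S (fun _ : Empty => ∅) C' B' S' (fun _ => ∅) h.two h'.two (by simp) G G'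
    (hG.trans Fam.skel_eq) (hG'.trans Fam.skel_eq) P hP hB hS (by simp)

theorem Fam.isClosed_skel {n : ℕ} {C B : Set E} {K : Finset ι} {S : ι → Set E}
    (h : Fam (n + 1) C B K S) : IsClosed (B ∪ ⋃ k ∈ K, S k) := by
  rw [Fam.skel_eq]; exact h.two.isClosed_skel

/-- **Extension theorem, one family** -/
theorem exists_extend_one {n : ℕ} (hP1 : CutP (n + 1) E) (hP1' : CutP (n + 1) F) {C B : Set E}
    {K : Finset ι} {S : ι → Set E} {C' B' : Set F} {S' : ι → Set F} (h : Fam (n + 1) C B K S)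
    (h' : Fam (n + 1) C' B' K S') {G : Set E} {G' : Set F} (hG : G = B ∪ ⋃ k ∈ K, S k)
    (hG' : G' = B' ∪ ⋃ k ∈ K, S' k) (Ψ : ConHomeo G G') (hB : Ψ.toFun '' B = B')
    (hS : ∀ k ∈ K, Ψ.toFun '' S k = S' k) : ∃ Φ : ConHomeo C C', EqOn Φ.toFun Ψ.toFun G := by
  have sB : B ⊆ G := by rw [hG]; exact subset_union_left
  have sS : ∀ k ∈ K, S k ⊆ G := fun k hk => by
    rw [hG]
    exact (subset_biUnion_of_mem (u := fun k => S k) (Finset.mem_coe.2 hk)).trans subset_union_right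
  exact (h.chambers hP1 hP1' h' hG hG' (Track.of_homeo Ψ) (cor_of_image Ψ sB hB)
    (fun k hk => cor_of_image Ψ (sS k hk) (hS k hk))).extend Ψ (hG ▸ h.isClosed_skel)
    (hG' ▸ h'.isClosed_skel)

/-- gluing a homeomorphism of the boundary with homeomorphisms of disjoint sheets -/
theorem exists_glue_sheets' {B : Set E} {K : Finset ι} {S : ι → Set E} {B' : Set F}
    {S' : ι → Set F} (hBc : IsClosed B) (hBc' : IsClosed B') (hSc : ∀ k ∈ K, IsClosed (S k))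
    (hSc' : ∀ k ∈ K, IsClosed (S' k)) (φ : ConHomeo B B') (ψ : ∀ k ∈ K, ConHomeo (S k) (S' k))
    (hd : ∀ k ∈ K, ∀ k' ∈ K, k ≠ k' → S k ∩ S k' ⊆ B)
    (hd' : ∀ k ∈ K, ∀ k' ∈ K, k ≠ k' → S' k ∩ S' k' ⊆ B')
    (hφ : ∀ k ∈ K, φ.toFun '' (S k ∩ B) = S' k ∩ B')
    (hψ : ∀ k (hk : k ∈ K), EqOn (ψ k hk).toFun φ.toFun (S k ∩ B)) :
    ∃ Ψ : ConHomeo (B ∪ ⋃ k ∈ K, S k) (B' ∪ ⋃ k ∈ K, S' k), EqOn Ψ.toFun φ.toFun B ∧
      ∀ k (hk : k ∈ K), EqOn Ψ.toFun (ψ k hk).toFun (S k) := by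
  classical
  let X : Option K → Set E := fun o => o.elim B (fun k => S k)
  let Y : Option K → Set F := fun o => o.elim B' (fun k => S' k)
  let H : ∀ o, ConHomeo (X o) (Y o) := fun o =>
    match o with
    | none => φ
    | some k => ψ k k.2
  have hX : RelLF X := RelLF.of_finite (by
    rintro (_ | k); exacts [hBc, hSc k k.2])
  have hY : RelLF Y := RelLF.of_finite (by
    rintro (_ | k); exacts [hBc', hSc' k k.2])
  have eX : (⋃ o, X o) = B ∪ ⋃ k ∈ K, S k := by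
    rw [iUnion_option]
    show B ∪ ⋃ k : K, S k = _
    congr 1
    ext x; simp
  have eY : (⋃ o, Y o) = B' ∪ ⋃ k ∈ K, S' k := by
    rw [iUnion_option]
    show B' ∪ ⋃ k : K, S' k = _
    congr 1
    ext x; simp
  have hkB : ∀ k (hk : k ∈ K), ∀ x ∈ S k, x ∈ B → (ψ k hk).toFun x = φ.toFun x :=
    fun k hk x h1 h2 => hψ k hk ⟨h1, h2⟩
  obtain ⟨Φ, hΦ⟩ := ConHomeo.exists_glue_family hX hY H (by
    rintro (_ | k) (_ | k') x hx
    · rfl
    · exact (hkB k' k'.2 x hx.2 hx.1).symm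
    · exact hkB k k.2 x hx.1 hx.2
    · by_cases hkk : k = k'
      · subst hkk; rfl
      · have hxB : x ∈ B := hd k k.2 k' k'.2 (fun h => hkk (Subtype.ext h)) hx
        exact (hkB k k.2 x hx.1 hxB).trans (hkB k' k'.2 x hx.2 hxB).symm) (by
    have inB : ∀ k ∈ K, ∀ y ∈ S' k, y ∈ B' → ∃ x, x ∈ S k ∧ x ∈ B ∧ φ.toFun x = y := by
      intro k hk y h1 h2
      have : y ∈ φ.toFun '' (S k ∩ B) := by rw [hφ k hk]; exact ⟨h1, h2⟩
      obtain ⟨x, hx, rfl⟩ := this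
      exact ⟨x, hx.1, hx.2, rfl⟩
    rintro (_ | k) (_ | k') y hy
    · exact ⟨φ.invFun y, ⟨φ.mapsTo_inv hy.1, φ.mapsTo_inv hy.1⟩, φ.right_inv hy.1⟩
    · obtain ⟨x, h1, h2, h3⟩ := inB k' k'.2 y hy.2 hy.1
      exact ⟨x, ⟨h2, h1⟩, h3⟩
    · obtain ⟨x, h1, h2, h3⟩ := inB k k.2 y hy.1 hy.2
      exact ⟨x, ⟨h1, h2⟩, (hkB k k.2 x h1 h2).trans h3⟩
    · by_cases hkk : k = k'
      · subst hkk
        exact ⟨(ψ k k.2).invFun y, ⟨(ψ k k.2).mapsTo_inv hy.1, (ψ k k.2).mapsTo_inv hy.1⟩,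
          (ψ k k.2).right_inv hy.1⟩
      · have hyB : y ∈ B' := hd' k k.2 k' k'.2 (fun h => hkk (Subtype.ext h)) hy
        obtain ⟨x, h1, h2, h3⟩ := inB k k.2 y hy.1 hyB
        obtain ⟨x', h1', h2', h3'⟩ := inB k' k'.2 y hy.2 hyB
        have : x = x' := φ.injOn h2 h2' (h3.trans h3'.symm)
        subst this
        exact ⟨x, ⟨h1, h1'⟩, (hkB k k.2 x h1 h2).trans h3⟩)
  refine ⟨Φ.cast eX eY, (hΦ none).1, fun k hk => (hΦ (some ⟨k, hk⟩)).1⟩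

/-- gluing a homeomorphism of the boundary with homeomorphisms of disjoint sheets -/
theorem exists_glue_sheets {B : Set E} {K : Finset ι} {S : ι → Set E} {B' : Set F}
    {S' : ι → Set F} (hBc : IsClosed B) (hBc' : IsClosed B') (hSc : ∀ k ∈ K, IsClosed (S k))
    (hSc' : ∀ k ∈ K, IsClosed (S' k)) (φ : ConHomeo B B') (ψ : ∀ k, ConHomeo (S k) (S' k))
    (hd : ∀ k ∈ K, ∀ k' ∈ K, k ≠ k' → S k ∩ S k' ⊆ B)
    (hd' : ∀ k ∈ K, ∀ k' ∈ K, k ≠ k' → S' k ∩ S' k' ⊆ B')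
    (hφ : ∀ k ∈ K, φ.toFun '' (S k ∩ B) = S' k ∩ B')
    (hψ : ∀ k ∈ K, EqOn (ψ k).toFun φ.toFun (S k ∩ B)) :
    ∃ Ψ : ConHomeo (B ∪ ⋃ k ∈ K, S k) (B' ∪ ⋃ k ∈ K, S' k), EqOn Ψ.toFun φ.toFun B ∧
      ∀ k ∈ K, EqOn Ψ.toFun (ψ k).toFun (S k) :=
  exists_glue_sheets' hBc hBc' hSc hSc' φ (fun k _ => ψ k) hd hd' hφ hψ

/-- **[FEL]** disjoint proper sheets with prescribed homeomorphisms -/
theorem fel' {n : ℕ} (hP1 : CutP (n + 1) E) (hP1' : CutP (n + 1) F) {C B : Set E}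
    {K : Finset ι} {S : ι → Set E} {C' B' : Set F} {S' : ι → Set F} (h : Fam (n + 1) C B K S)
    (h' : Fam (n + 1) C' B' K S') (φ : ConHomeo B B') (ψ : ∀ k ∈ K, ConHomeo (S k) (S' k))
    (hφ : ∀ k ∈ K, φ.toFun '' (S k ∩ B) = S' k ∩ B')
    (hψ : ∀ k (hk : k ∈ K), EqOn (ψ k hk).toFun φ.toFun (S k ∩ B)) :
    ∃ Φ : ConHomeo C C', EqOn Φ.toFun φ.toFun B ∧
      ∀ k (hk : k ∈ K), EqOn Φ.toFun (ψ k hk).toFun (S k) := by
  have hd : ∀ k ∈ K, ∀ k' ∈ K, k ≠ k' → S k ∩ S k' ⊆ B := fun k hk k' hk' hne x hx =>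
    absurd hx.2 (Set.disjoint_left.1 (h.hSd k hk k' hk' hne) hx.1)
  have hd' : ∀ k ∈ K, ∀ k' ∈ K, k ≠ k' → S' k ∩ S' k' ⊆ B' := fun k hk k' hk' hne x hx =>
    absurd hx.2 (Set.disjoint_left.1 (h'.hSd k hk k' hk' hne) hx.1)
  obtain ⟨Ψ, h1, h2⟩ := exists_glue_sheets' h.hC.isCompact_bdry.isClosed
    h'.hC.isCompact_bdry.isClosed (fun k hk => (h.hS k hk).isClosed)
    (fun k hk => (h'.hS k hk).isClosed) φ ψ hd hd' hφ hψ
  obtain ⟨Φ, hΦ⟩ := exists_extend_one hP1 hP1' h h' rfl rfl Ψ (by rw [h1.image_eq, φ.image_eq])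
    (fun k hk => by rw [(h2 k hk).image_eq, (ψ k hk).image_eq])
  refine ⟨Φ, fun x hx => (hΦ (Or.inl hx)).trans (h1 hx), fun k hk x hx => ?_⟩
  have hx' : x ∈ B ∪ ⋃ k ∈ K, S k := Or.inr (mem_iUnion₂.2 ⟨k, hk, hx⟩)
  exact (hΦ hx').trans (h2 k hk hx)

/-- **[FEL]** disjoint proper sheets with prescribed homeomorphisms -/
theorem fel {n : ℕ} (hP1 : CutP (n + 1) E) (hP1' : CutP (n + 1) F) {C B : Set E}
    {K : Finset ι} {S : ι → Set E} {C' B' : Set F} {S' : ι → Set F} (h : Fam (n + 1) C B K S)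
    (h' : Fam (n + 1) C' B' K S') (φ : ConHomeo B B') (ψ : ∀ k, ConHomeo (S k) (S' k))
    (hφ : ∀ k ∈ K, φ.toFun '' (S k ∩ B) = S' k ∩ B')
    (hψ : ∀ k ∈ K, EqOn (ψ k).toFun φ.toFun (S k ∩ B)) :
    ∃ Φ : ConHomeo C C', EqOn Φ.toFun φ.toFun B ∧ ∀ k ∈ K, EqOn Φ.toFun (ψ k).toFun (S k) :=
  fel' hP1 hP1' h h' φ (fun k _ => ψ k) hφ hψ

end P073.H341
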