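import Vale.Agent.P073.H341.Cut

/-!
# P073, H341: two families of proper sheets in a conical ball, the chamber theorem
-/

set_option linter.unusedSectionVars false

open Set Metric Topology Filter

namespace P073.H341

open P073 P073.H339

variable {E F : Type*} [NormedAddCommGroup E] [NormedSpace ℝ E]
  [NormedAddCommGroup F] [NormedSpace ℝ F] {ι κ : Type*}

/-- **the two pieces of a sheet crossing the cut** -/
theorem cut_sheet {n : ℕ} (hP : CutP n E) {C B S B₁ B₂ C₁ C₂ T : Set E}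
    (h : Cut (n + 1) C B S B₁ B₂ C₁ C₂) (hT : ConBall (n + 1) T (T ∩ B)) (hTC : T ⊆ C)
    (hα : ConBall n (S ∩ T) (S ∩ T ∩ B)) (hne1 : ((T ∩ C₁) \ S).Nonempty)
    (hne2 : ((T ∩ C₂) \ S).Nonempty) :
    ConBall (n + 1) (T ∩ C₁) (T ∩ C₁ ∩ (B₁ ∪ S)) ∧
      ConBall (n + 1) (T ∩ C₂) (T ∩ C₂ ∩ (B₂ ∪ S)) := by
  have e1 : S ∩ T ∩ (T ∩ B) = S ∩ T ∩ B := by
    ext x; simp only [mem_inter_iff]; tauto
  obtain ⟨U₁, U₂, T₁, T₂, hc⟩ := hP T (T ∩ B) (S ∩ T) hT (by rw [e1]; exact hα) inter_subset_right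
  have main : ∀ {U₁ U₂ T₁ T₂ : Set E}, Cut n T (T ∩ B) (S ∩ T) U₁ U₂ T₁ T₂ →
      T₁ \ (S ∩ T) ⊆ C₁ \ S → T₂ \ (S ∩ T) ⊆ C₂ \ S →
      ConBall (n + 1) (T ∩ C₁) (T ∩ C₁ ∩ (B₁ ∪ S)) ∧
      ConBall (n + 1) (T ∩ C₂) (T ∩ C₂ ∩ (B₂ ∪ S)) := by
    intro U₁ U₂ T₁ T₂ hc s1 s2
    have one : ∀ {B₁ B₂ C₁ C₂ : Set E} {U₁ U₂ T₁ T₂ : Set E},
        Cut (n + 1) C B S B₁ B₂ C₁ C₂ → Cut n T (T ∩ B) (S ∩ T) U₁ U₂ T₁ T₂ →
        T₁ \ (S ∩ T) ⊆ C₁ \ S → T₂ \ (S ∩ T) ⊆ C₂ \ S →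
        ConBall (n + 1) (T ∩ C₁) (T ∩ C₁ ∩ (B₁ ∪ S)) := by
      intro B₁ B₂ C₁ C₂ U₁ U₂ T₁ T₂ h hc s1 s2
      have hT1 : T ∩ C₁ = T₁ := by
        apply Subset.antisymm
        · rintro x ⟨hx, hx1⟩
          by_cases hxS : x ∈ S
          · exact hc.D_sub ⟨hxS, hx⟩
          · rcases hc.mem_cases hx (fun h' => hxS h'.1) with h1 | h1
            · exact h1.1
            · exact absurd (h.not_both hx1 (s2 h1).1) hxS
        · intro x hx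
          refine ⟨hc.C₁_sub hx, ?_⟩
          by_cases hxS : x ∈ S ∩ T
          · exact h.D_sub hxS.1
          · exact (s1 ⟨hx, hxS⟩).1
      have hT1B : T ∩ C₁ ∩ (B₁ ∪ S) = U₁ ∪ (S ∩ T) := by
        rw [hT1]
        apply Subset.antisymm
        · rintro x ⟨hx, hx1 | hx1⟩
          · left
            rw [← hc.C₁_inter_B]
            exact ⟨hx, hc.C₁_sub hx, h.B₁_subB hx1⟩
          · exact Or.inr ⟨hx1, hc.C₁_sub hx⟩
        · rintro x (hx | hx)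
          · have hxT : x ∈ T₁ := hc.B₁_sub hx
            refine ⟨hxT, Or.inl ?_⟩
            rw [← h.C₁_inter_B]
            exact ⟨(hT1 ▸ hxT : x ∈ T ∩ C₁).2, (hc.B₁_subB hx).2⟩
          · exact ⟨hc.D_sub hx, Or.inr hx.1⟩
      rw [hT1B, hT1]
      exact hc.hC₁
    exact ⟨one h hc s1 s2, one h.symm hc.symm s2 s1⟩
  have st : ∀ {U₁ U₂ T₁ T₂ : Set E}, Cut n T (T ∩ B) (S ∩ T) U₁ U₂ T₁ T₂ →
      T₁ \ (S ∩ T) ⊆ C₁ \ S ∨ T₁ \ (S ∩ T) ⊆ C₂ \ S := by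
    intro U₁ U₂ T₁ T₂ hc
    refine h.side hc.preconn (fun x hx => hTC (hc.C₁_sub hx.1)) ?_
    rw [Set.disjoint_left]
    exact fun x hx hxS => hx.2 ⟨hxS, hc.C₁_sub hx.1⟩
  rcases st hc with s1 | s1 <;> rcases st hc.symm with s2 | s2
  · obtain ⟨x, ⟨hxT, hx2⟩, hxS⟩ := hne2
    rcases hc.mem_cases hxT (fun h' => hxS h'.1) with h1 | h1
    · exact absurd (h.not_both (s1 h1).1 hx2) hxS
    · exact absurd (h.not_both (s2 h1).1 hx2) hxS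
  · exact main hc s1 s2
  · exact main hc.symm s2 s1
  · obtain ⟨x, ⟨hxT, hx1⟩, hxS⟩ := hne1
    rcases hc.mem_cases hxT (fun h' => hxS h'.1) with h1 | h1
    · exact absurd (h.not_both hx1 (s1 h1).1) hxS
    · exact absurd (h.not_both hx1 (s2 h1).1) hxS

/-- two finite families of proper sheets in the ball `C` -/
structure TwoFam (n : ℕ) (C B : Set E) (K : Finset ι) (S : ι → Set E) (L : Finset κ)
    (T : κ → Set E) : Prop where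
  hC : ConBall (n + 2) C B
  hS : ∀ k ∈ K, ConBall (n + 1) (S k) (S k ∩ B)
  hSC : ∀ k ∈ K, S k ⊆ C
  hSd : ∀ k ∈ K, ∀ k' ∈ K, k ≠ k' → Disjoint (S k) (S k')
  hT : ∀ l ∈ L, ConBall (n + 1) (T l) (T l ∩ B)
  hTC : ∀ l ∈ L, T l ⊆ C
  hTd : ∀ l ∈ L, ∀ l' ∈ L, l ≠ l' → Disjoint (T l) (T l')
  hX : ∀ k ∈ K, ∀ l ∈ L, (S k ∩ T l).Nonempty → ConBall n (S k ∩ T l) (S k ∩ T l ∩ B)

theorem TwoFam.swap {n : ℕ} {C B : Set E} {K : Finset ι} {S : ι → Set E} {L : Finset κ}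
    {T : κ → Set E} (h : TwoFam n C B K S L T) : TwoFam n C B L T K S where
  hC := h.hC
  hS := h.hT
  hSC := h.hTC
  hSd := h.hTd
  hT := h.hS
  hTC := h.hSC
  hTd := h.hSd
  hX := fun l hl k hk hne => by
    rw [inter_comm (T l)]
    exact h.hX k hk l hl (by rw [inter_comm]; exact hne)

/-- the two-skeleton -/
def skel (B : Set E) (K : Finset ι) (S : ι → Set E) (L : Finset κ) (T : κ → Set E) : Set E :=
  B ∪ ((⋃ k ∈ K, S k) ∪ ⋃ l ∈ L, T l)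

theorem mem_skel {B : Set E} {K : Finset ι} {S : ι → Set E} {L : Finset κ} {T : κ → Set E}
    {x : E} : x ∈ skel B K S L T ↔ x ∈ B ∨ (∃ k ∈ K, x ∈ S k) ∨ ∃ l ∈ L, x ∈ T l := by
  simp only [skel, mem_union, mem_iUnion, exists_prop]

theorem skel_swap {B : Set E} {K : Finset ι} {S : ι → Set E} {L : Finset κ} {T : κ → Set E} :
    skel B K S L T = skel B L T K S := by
  ext x; rw [mem_skel, mem_skel]; exact or_congr Iff.rfl or_comm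

/-- the sheet `T` crosses the sheet `S` -/
def Crosses (C S T : Set E) : Prop :=
  ∃ f : E → ℝ, ContinuousOn f C ∧ (∀ x ∈ C, (f x = 0 ↔ x ∈ S)) ∧
    S ∩ T ⊆ closure (T ∩ {x | 0 < f x}) ∩ closure (T ∩ {x | f x < 0})

theorem sign_const {K : Set E} (hK : IsPreconnected K) {f : E → ℝ} (hf : ContinuousOn f K)
    (h0 : ∀ x ∈ K, f x ≠ 0) {x y : E} (hx : x ∈ K) (hy : y ∈ K) (hx' : 0 < f x)
    (hy' : f y < 0) : False := by
  have := hK.intermediate_value hy hx hf ⟨hy'.le, hx'.le⟩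
  obtain ⟨z, hz, hz0⟩ := this
  exact h0 z hz hz0

/-- crossing sheets have points on both sides -/
theorem Crosses.both {n : ℕ} {C B S B₁ B₂ C₁ C₂ T : Set E} (h : Cut n C B S B₁ B₂ C₁ C₂)
    (hx : Crosses C S T) (hTC : T ⊆ C) (hne : (S ∩ T).Nonempty) :
    ((T ∩ C₁) \ S).Nonempty ∧ ((T ∩ C₂) \ S).Nonempty := by
  obtain ⟨f, hf, h0, hcl⟩ := hx
  obtain ⟨z, hz⟩ := hne
  obtain ⟨x, hxT, hxf⟩ : (T ∩ {x | 0 < f x}).Nonempty := by
    rw [← closure_nonempty_iff]; exact ⟨z, (hcl hz).1⟩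
  obtain ⟨y, hyT, hyf⟩ : (T ∩ {x | f x < 0}).Nonempty := by
    rw [← closure_nonempty_iff]; exact ⟨z, (hcl hz).2⟩
  have hxf : 0 < f x := hxf
  have hyf : f y < 0 := hyf
  have hxS : x ∉ S := fun h' => hxf.ne' ((h0 x (hTC hxT)).2 h')
  have hyS : y ∉ S := fun h' => hyf.ne ((h0 y (hTC hyT)).2 h')
  have no : ∀ {B₁ B₂ C₁ C₂ : Set E}, Cut n C B S B₁ B₂ C₁ C₂ → x ∈ C₁ \ S → y ∈ C₁ \ S → False :=
    fun {B₁ B₂ C₁ C₂} h h1 h2 => sign_const h.preconn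
      (hf.mono (Set.sdiff_subset.trans h.C₁_sub))
      (fun w hw hw0 => hw.2 ((h0 w (h.C₁_sub hw.1)).1 hw0)) h1 h2 hxf hyf
  rcases h.mem_cases (hTC hxT) hxS with h1 | h1 <;> rcases h.mem_cases (hTC hyT) hyS with h2 | h2
  · exact (no h h1 h2).elim
  · exact ⟨⟨x, ⟨hxT, h1.1⟩, hxS⟩, ⟨y, ⟨hyT, h2.1⟩, hyS⟩⟩
  · exact ⟨⟨y, ⟨hyT, h2.1⟩, hyS⟩, ⟨x, ⟨hxT, h1.1⟩, hxS⟩⟩
  · exact (no h.symm h1 h2).elim

/-- crossing is inherited by the halves of a cut along a sheet disjoint from `S` -/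
theorem Crosses.half {n : ℕ} {C B D B₁ B₂ C₁ C₂ S T : Set E} (h : Cut n C B D B₁ B₂ C₁ C₂)
    (hx : Crosses C S T) (hTC : T ⊆ C) (hSD : Disjoint S D) :
    Crosses C₁ S (T ∩ C₁) := by
  obtain ⟨f, hf, h0, hcl⟩ := hx
  refine ⟨f, hf.mono h.C₁_sub, fun x hx => h0 x (h.C₁_sub hx), ?_⟩
  have key : ∀ x ∈ S ∩ (T ∩ C₁), ∀ P : Set E, x ∈ closure (T ∩ P) → x ∈ closure (T ∩ C₁ ∩ P) := by
    intro x hx P hxP
    have hx2 : x ∉ C₂ := fun h2 => Set.disjoint_left.1 hSD hx.1 (h.not_both hx.2.2 h2)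
    rw [mem_closure_iff_nhds] at hxP ⊢
    intro U hU
    obtain ⟨y, ⟨hyU, hy2⟩, hyT, hyP⟩ := hxP (U ∩ C₂ᶜ)
      (inter_mem hU (h.hC₂.isClosed.isOpen_compl.mem_nhds hx2))
    refine ⟨y, hyU, ⟨hyT, ?_⟩, hyP⟩
    have hyC := hTC hyT
    rw [← h.hCu] at hyC
    exact hyC.resolve_right hy2
  intro x hx
  have hx' : x ∈ S ∩ T := ⟨hx.1, hx.2.1⟩
  exact ⟨key x hx _ (hcl hx').1, key x hx _ (hcl hx').2⟩

/-- **one half of a two-family configuration** -/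
theorem TwoFam.half {n : ℕ} {C B : Set E} {K : Finset ι} {S : ι → Set E} {L : Finset κ}
    {T : κ → Set E} (hP : L.Nonempty → CutP n E) (h : TwoFam n C B K S L T) {k₀ : ι} (hk₀ : k₀ ∈ K) {B₁ B₂ C₁ C₂ : Set E}
    (hc : Cut (n + 1) C B (S k₀) B₁ B₂ C₁ C₂)
    (hcr : ∀ l ∈ L, (S k₀ ∩ T l).Nonempty →
      ((T l ∩ C₁) \ S k₀).Nonempty ∧ ((T l ∩ C₂) \ S k₀).Nonempty)
    {K₁ : Finset ι} (hK₁ : ∀ k ∈ K₁, k ∈ K ∧ k ≠ k₀ ∧ S k ⊆ C₁) {L₁ : Finset κ}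
    (hL₁ : ∀ l ∈ L₁, l ∈ L ∧ ((T l ∩ C₁) \ S k₀).Nonempty) :
    TwoFam n C₁ (B₁ ∪ S k₀) K₁ S L₁ (fun l => T l ∩ C₁) := by
  have dS : ∀ k ∈ K₁, Disjoint (S k) (S k₀) := fun k hk =>
    h.hSd k (hK₁ k hk).1 k₀ hk₀ (hK₁ k hk).2.1
  have eS : ∀ k ∈ K₁, ∀ X ⊆ S k, X ∩ (B₁ ∪ S k₀) = X ∩ B := by
    intro k hk X hX
    apply Subset.antisymm
    · rintro x ⟨hx, hx1 | hx1⟩
      · exact ⟨hx, hc.B₁_subB hx1⟩
      · exact absurd hx1 (Set.disjoint_left.1 (dS k hk) (hX hx))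
    · rintro x ⟨hx, hx1⟩
      refine ⟨hx, Or.inl ?_⟩
      rw [← hc.C₁_inter_B]
      exact ⟨(hK₁ k hk).2.2 (hX hx), hx1⟩
  refine ⟨hc.hC₁, ?_, fun k hk => (hK₁ k hk).2.2, ?_, ?_, fun l _ => inter_subset_right, ?_, ?_⟩
  · intro k hk
    rw [eS k hk _ Subset.rfl]
    exact h.hS k (hK₁ k hk).1
  · intro k hk k' hk' hne
    exact h.hSd k (hK₁ k hk).1 k' (hK₁ k' hk').1 hne
  · intro l hl
    obtain ⟨hlL, hlne⟩ := hL₁ l hl
    by_cases hx : (S k₀ ∩ T l).Nonempty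
    · exact (cut_sheet (hP ⟨l, hlL⟩) hc (h.hT l hlL) (h.hTC l hlL) (h.hX k₀ hk₀ l hlL hx)
        (hcr l hlL hx).1 (hcr l hlL hx).2).1
    · have hdis : Disjoint (T l) (S k₀) := by
        rw [Set.disjoint_left]; exact fun x h1 h2 => hx ⟨x, h2, h1⟩
      obtain ⟨x, ⟨hxT, hx1⟩, hxS⟩ := hlne
      have hTl : T l ⊆ C₁ \ S k₀ := hc.side_of_mem (h.hT l hlL).isPreconnected' (h.hTC l hlL) hdis
        hxT hx1
      have e1 : T l ∩ C₁ = T l := inter_eq_left.2 fun y hy => (hTl hy).1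
      have e2 : T l ∩ (B₁ ∪ S k₀) = T l ∩ B := by
        apply Subset.antisymm
        · rintro y ⟨hy, hy1 | hy1⟩
          · exact ⟨hy, hc.B₁_subB hy1⟩
          · exact absurd hy1 (hTl hy).2
        · rintro y ⟨hy, hy1⟩
          refine ⟨hy, Or.inl ?_⟩
          rw [← hc.C₁_inter_B]
          exact ⟨(hTl hy).1, hy1⟩
      show ConBall (n + 1) (T l ∩ C₁) (T l ∩ C₁ ∩ (B₁ ∪ S k₀))
      rw [e1, e2]
      exact h.hT l hlL
  · intro l hl l' hl' hne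
    exact (h.hTd l (hL₁ l hl).1 l' (hL₁ l' hl').1 hne).mono inter_subset_left inter_subset_left
  · intro k hk l hl hne
    have e1 : S k ∩ (T l ∩ C₁) = S k ∩ T l := by
      ext x
      exact ⟨fun hx => ⟨hx.1, hx.2.1⟩, fun hx => ⟨hx.1, hx.2, (hK₁ k hk).2.2 hx.1⟩⟩
    show ConBall n (S k ∩ (T l ∩ C₁)) (S k ∩ (T l ∩ C₁) ∩ (B₁ ∪ S k₀))
    rw [e1] at hne ⊢
    rw [eS k hk _ inter_subset_left]
    exact h.hX k (hK₁ k hk).1 l (hL₁ l hl).1 hne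

/-- matched cells -/
def MatchCells (n : ℕ) (C G : Set E) (C' G' : Set F) (P : E → Set F) : Prop :=
  ∃ (J : Type) (_ : Finite J) (Q R : J → Set E) (Q' R' : J → Set F),
    (∀ a, ConBall n (Q a) (R a)) ∧ (∀ a, ConBall n (Q' a) (R' a)) ∧
    (∀ a, Cor G P (R a) (R' a)) ∧
    (∀ a, Q a ∩ G = R a) ∧ (∀ a, Q' a ∩ G' = R' a) ∧
    (∀ a b, a ≠ b → Q a ∩ Q b ⊆ G) ∧ (∀ a b, a ≠ b → Q' a ∩ Q' b ⊆ G') ∧
    G ∪ ⋃ a, Q a = C ∧ G' ∪ ⋃ a, Q' a = C'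

theorem MatchCells.of_ball {n : ℕ} {C B : Set E} {C' B' : Set F} {P : E → Set F}
    (h : ConBall n C B) (h' : ConBall n C' B') (hf : Cor B P B B') : MatchCells n C B C' B' P := by
  refine ⟨Unit, inferInstance, fun _ => C, fun _ => B, fun _ => C', fun _ => B', fun _ => h,
    fun _ => h', fun _ => hf, fun _ => inter_eq_right.2 h.1, fun _ => inter_eq_right.2 h'.1,
    fun a b hab => absurd (Subsingleton.elim a b) hab,
    fun a b hab => absurd (Subsingleton.elim a b) hab, ?_, ?_⟩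
  · rw [iUnion_const]; exact union_eq_right.2 h.1
  · rw [iUnion_const]; exact union_eq_right.2 h'.1

/-- gluing the cells of the two halves -/
theorem MatchCells.glue {n m : ℕ} {C B D B₁ B₂ C₁ C₂ G : Set E}
    {C' B' D' B₁' B₂' C₁' C₂' G' : Set F} {f : E → Set F}
    (h : Cut m C B D B₁ B₂ C₁ C₂) (h' : Cut m C' B' D' B₁' B₂' C₁' C₂')
    (hGC : G ⊆ C) (hGC' : G' ⊆ C') (hDG : D ⊆ G) (hDG' : D' ⊆ G')
    (c1 : Cor G f C₁ C₁') (c2 : Cor G f C₂ C₂')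
    (h1 : MatchCells n C₁ (G ∩ C₁) C₁' (G' ∩ C₁') f)
    (h2 : MatchCells n C₂ (G ∩ C₂) C₂' (G' ∩ C₂') f) : MatchCells n C G C' G' f := by
  obtain ⟨J, _, Q, R, Q', R', a1, a2, a3, a4, a5, a6, a7, a8, a9⟩ := h1
  obtain ⟨J₂, _, P, T, P', T', b1, b2, b3, b4, b5, b6, b7, b8, b9⟩ := h2
  have q1 : ∀ a, Q a ⊆ C₁ := fun a => by rw [← a8]; exact (subset_iUnion Q a).trans subset_union_right
  have q2 : ∀ a, Q' a ⊆ C₁' := fun a => by
    rw [← a9]; exact (subset_iUnion Q' a).trans subset_union_right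
  have q3 : ∀ a, P a ⊆ C₂ := fun a => by rw [← b8]; exact (subset_iUnion P a).trans subset_union_right
  have q4 : ∀ a, P' a ⊆ C₂' := fun a => by
    rw [← b9]; exact (subset_iUnion P' a).trans subset_union_right
  have lift : ∀ {C₁ : Set E} {C₁' : Set F} {X : Set E} {Y : Set F}, Cor G f C₁ C₁' → X ⊆ C₁ →
      Y ⊆ C₁' → Cor (G ∩ C₁) f X Y → Cor G f X Y := by
    intro C₁ C₁' X Y hc hX hY hcor x hx y hy
    by_cases hx1 : x ∈ C₁
    · exact hcor x ⟨hx, hx1⟩ y hy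
    · exact ⟨fun h' => absurd ((hc x hx y hy).1 (hY h')) hx1, fun h' => absurd (hX h') hx1⟩
  refine ⟨J ⊕ J₂, inferInstance, Sum.elim Q P, Sum.elim R T, Sum.elim Q' P', Sum.elim R' T',
    ?_, ?_, ?_, ?_, ?_, ?_, ?_, ?_, ?_⟩
  · rintro (a | a); exacts [a1 a, b1 a]
  · rintro (a | a); exacts [a2 a, b2 a]
  · rintro (a | a)
    · exact lift c1 ((a1 a).1.trans (q1 a)) ((a2 a).1.trans (q2 a)) (a3 a)
    · exact lift c2 ((b1 a).1.trans (q3 a)) ((b2 a).1.trans (q4 a)) (b3 a)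
  · rintro (a | a)
    · show Q a ∩ G = R a
      rw [← a4 a]
      ext x; exact ⟨fun hx => ⟨hx.1, hx.2, q1 a hx.1⟩, fun hx => ⟨hx.1, hx.2.1⟩⟩
    · show P a ∩ G = T a
      rw [← b4 a]
      ext x; exact ⟨fun hx => ⟨hx.1, hx.2, q3 a hx.1⟩, fun hx => ⟨hx.1, hx.2.1⟩⟩
  · rintro (a | a)
    · show Q' a ∩ G' = R' a
      rw [← a5 a]
      ext x; exact ⟨fun hx => ⟨hx.1, hx.2, q2 a hx.1⟩, fun hx => ⟨hx.1, hx.2.1⟩⟩
    · show P' a ∩ G' = T' a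
      rw [← b5 a]
      ext x; exact ⟨fun hx => ⟨hx.1, hx.2, q4 a hx.1⟩, fun hx => ⟨hx.1, hx.2.1⟩⟩
  · rintro (a | a) (b | b) hab
    · exact (a6 a b (fun h => hab (by rw [h]))).trans inter_subset_left
    · exact fun x hx => hDG (h.not_both (q1 a hx.1) (q3 b hx.2))
    · exact fun x hx => hDG (h.not_both (q1 b hx.2) (q3 a hx.1))
    · exact (b6 a b (fun h => hab (by rw [h]))).trans inter_subset_left
  · rintro (a | a) (b | b) hab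
    · exact (a7 a b (fun h => hab (by rw [h]))).trans inter_subset_left
    · exact fun x hx => hDG' (h'.not_both (q2 a hx.1) (q4 b hx.2))
    · exact fun x hx => hDG' (h'.not_both (q2 b hx.2) (q4 a hx.1))
    · exact (b7 a b (fun h => hab (by rw [h]))).trans inter_subset_left
  · rw [Set.iUnion_sum]
    show G ∪ ((⋃ a, Q a) ∪ ⋃ a, P a) = C
    apply Subset.antisymm
    · refine union_subset hGC (union_subset (iUnion_subset fun a => ?_) (iUnion_subset fun a => ?_))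
      · exact (q1 a).trans h.C₁_sub
      · exact (q3 a).trans h.symm.C₁_sub
    · rw [← h.hCu, ← a8, ← b8]
      rintro x ((hx | hx) | (hx | hx))
      · exact Or.inl hx.1
      · exact Or.inr (Or.inl hx)
      · exact Or.inl hx.1
      · exact Or.inr (Or.inr hx)
  · rw [Set.iUnion_sum]
    show G' ∪ ((⋃ a, Q' a) ∪ ⋃ a, P' a) = C'
    apply Subset.antisymm
    · refine union_subset hGC' (union_subset (iUnion_subset fun a => ?_) (iUnion_subset fun a => ?_))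
      · exact (q2 a).trans h'.C₁_sub
      · exact (q4 a).trans h'.symm.C₁_sub
    · rw [← h'.hCu, ← a9, ← b9]
      rintro x ((hx | hx) | (hx | hx))
      · exact Or.inl hx.1
      · exact Or.inr (Or.inl hx)
      · exact Or.inl hx.1
      · exact Or.inr (Or.inr hx)

end P073.H341
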