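import Mathlib

/-!
# P073, H341: the region cut off by a flat disc is locally a corner
-/

set_option linter.unusedSectionVars false

open Set Metric Topology Filter

namespace P073.H341

variable {E : Type*} [NormedAddCommGroup E] [NormedSpace ℝ E]

/-- **local connectivity of the open corners**: `u`, `v` increase with unit speed in the direction
`a` when they vanish at `z`; `φ` is linear, `φ a = 0`. -/
theorem exists_corner_conn {u v : E → ℝ} {z a n : E} {r : ℝ} (φ : E →L[ℝ] ℝ) (hr : 0 < r)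
    (hu : ContinuousAt u z) (hv : ContinuousAt v z) (hu0 : 0 ≤ u z) (hv0 : 0 ≤ v z)
    (hua : u z = 0 → ∀ w s, ‖w‖ < r → |s| < r → u (z + w + s • a) = u (z + w) + s)
    (hva : v z = 0 → ∀ w s, ‖w‖ < r → |s| < r → v (z + w + s • a) = v (z + w) + s)
    (ha : φ a = 0) {W : Set E} (hW : W ∈ 𝓝 z) {P : ℝ → Prop}
    (hP : ∀ s t θ : ℝ, P s → P t → 0 ≤ θ → θ ≤ 1 → P ((1 - θ) * s + θ * t))
    (hn : ∀ τ > 0, P (τ * φ n)) :
    ∃ W' ∈ 𝓝 z, W' ⊆ W ∧ ∃ K : Set E, IsPreconnected K ∧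
      {x | x ∈ W' ∧ 0 < u x ∧ 0 < v x ∧ P (φ (x - z))} ⊆ K ∧
      K ⊆ {x | x ∈ W ∧ 0 < u x ∧ 0 < v x ∧ P (φ (x - z))} := by
  -- radii
  obtain ⟨R, hR, hRW⟩ := Metric.mem_nhds_iff.1 hW
  have evu : ∀ᶠ x in 𝓝 z, 0 < u z → 0 < u x := by
    by_cases h : 0 < u z
    · exact (hu.eventually (lt_mem_nhds h)).mono fun x hx _ => hx
    · exact Eventually.of_forall fun x hx => absurd hx h
  have evv : ∀ᶠ x in 𝓝 z, 0 < v z → 0 < v x := by
    by_cases h : 0 < v z
    · exact (hv.eventually (lt_mem_nhds h)).mono fun x hx _ => hx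
    · exact Eventually.of_forall fun x hx => absurd hx h
  obtain ⟨R₁, hR₁, hb⟩ := Metric.eventually_nhds_iff_ball.1 (evu.and evv)
  set ρ₀ : ℝ := min R R₁ with hρ₀
  have hρ₀p : 0 < ρ₀ := lt_min hR hR₁
  obtain ⟨t, ht0, htr, hta⟩ : ∃ t > 0, t < r ∧ t * ‖a‖ < ρ₀ / 2 := by
    refine ⟨min (r / 2) (ρ₀ / (4 * (‖a‖ + 1))), ?_, ?_, ?_⟩
    · have := norm_nonneg a
      exact lt_min (by linarith) (by positivity)
    · exact (min_le_left _ _).trans_lt (by linarith)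
    · have hna := norm_nonneg a
      calc min (r / 2) (ρ₀ / (4 * (‖a‖ + 1))) * ‖a‖ ≤ ρ₀ / (4 * (‖a‖ + 1)) * ‖a‖ :=
            mul_le_mul_of_nonneg_right (min_le_right _ _) hna
        _ < ρ₀ / 2 := by
            rw [div_mul_eq_mul_div, div_lt_div_iff₀ (by positivity) (by norm_num)]
            nlinarith
  have eu : ∀ᶠ x in 𝓝 z, u z = 0 → |u x| < t := by
    by_cases h : u z = 0
    · have h1 : ContinuousAt (fun x => |u x|) z := hu.abs
      have h2 : |u z| < t := by rw [h, abs_zero]; exact ht0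
      exact (h1.eventually (gt_mem_nhds h2)).mono fun x hx _ => hx
    · exact Eventually.of_forall fun x hx => absurd hx h
  have ev : ∀ᶠ x in 𝓝 z, v z = 0 → |v x| < t := by
    by_cases h : v z = 0
    · have h1 : ContinuousAt (fun x => |v x|) z := hv.abs
      have h2 : |v z| < t := by rw [h, abs_zero]; exact ht0
      exact (h1.eventually (gt_mem_nhds h2)).mono fun x hx _ => hx
    · exact Eventually.of_forall fun x hx => absurd hx h
  obtain ⟨R₂, hR₂, hb₂⟩ := Metric.eventually_nhds_iff_ball.1 (eu.and ev)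
  set ρ : ℝ := min (min R₂ r) (ρ₀ / 2) with hρ
  have hρp : 0 < ρ := lt_min (lt_min hR₂ hr) (by linarith)
  have hρr : ρ ≤ r := (min_le_left _ _).trans (min_le_right _ _)
  have hρR₂ : ρ ≤ R₂ := (min_le_left _ _).trans (min_le_left _ _)
  have hρρ₀ : ρ ≤ ρ₀ / 2 := min_le_right _ _
  obtain ⟨τ, hτ0, hτ⟩ : ∃ τ > 0, τ * ‖n‖ < ρ := by
    refine ⟨ρ / (2 * (‖n‖ + 1)), by have := norm_nonneg n; positivity, ?_⟩
    have hnn := norm_nonneg n
    rw [div_mul_eq_mul_div, div_lt_iff₀ (by positivity)]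
    nlinarith
  -- a point `z + w + s a` of the path
  have pt : ∀ w : E, ‖w‖ < ρ → ∀ s ∈ Icc (0:ℝ) t, z + w + s • a ∈ ball z ρ₀ := by
    intro w hw s hs
    rw [mem_ball, dist_eq_norm]
    have h1 : z + w + s • a - z = w + s • a := by abel
    rw [h1]
    have h2 : ‖s • a‖ ≤ t * ‖a‖ := by
      rw [norm_smul, Real.norm_eq_abs, abs_of_nonneg hs.1]
      exact mul_le_mul_of_nonneg_right hs.2 (norm_nonneg _)
    linarith [norm_add_le w (s • a)]
  have pu : ∀ w : E, ‖w‖ < ρ → ∀ s ∈ Icc (0:ℝ) t, (0 < u (z + w) ∨ s = t) →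
      0 < u (z + w + s • a) := by
    intro w hw s hs h
    rcases hu0.eq_or_lt with h0 | h0
    · have hs' : |s| < r := by rw [abs_of_nonneg hs.1]; exact hs.2.trans_lt htr
      rw [hua h0.symm w s (hw.trans_le hρr) hs']
      rcases h with h | h
      · linarith [hs.1]
      · have h1 : |u (z + w)| < t := (hb₂ (z + w) (by
          rw [mem_ball, dist_eq_norm, add_sub_cancel_left]; exact hw.trans_le hρR₂)).1 h0.symm
        rw [h]; linarith [neg_abs_le (u (z + w))]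
    · exact (hb _ (ball_subset_ball (min_le_right _ _) (pt w hw s hs))).1 h0
  have pv : ∀ w : E, ‖w‖ < ρ → ∀ s ∈ Icc (0:ℝ) t, (0 < v (z + w) ∨ s = t) →
      0 < v (z + w + s • a) := by
    intro w hw s hs h
    rcases hv0.eq_or_lt with h0 | h0
    · have hs' : |s| < r := by rw [abs_of_nonneg hs.1]; exact hs.2.trans_lt htr
      rw [hva h0.symm w s (hw.trans_le hρr) hs']
      rcases h with h | h
      · linarith [hs.1]
      · have h1 : |v (z + w)| < t := (hb₂ (z + w) (by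
          rw [mem_ball, dist_eq_norm, add_sub_cancel_left]; exact hw.trans_le hρR₂)).2 h0.symm
        rw [h]; linarith [neg_abs_le (v (z + w))]
    · exact (hb _ (ball_subset_ball (min_le_right _ _) (pt w hw s hs))).2 h0
  set G : Set E := {x | x ∈ ball z ρ ∧ 0 < u x ∧ 0 < v x ∧ P (φ (x - z))} with hG
  set y₀ : E := z + τ • n + t • a with hy₀
  set K : Set E := ⋃ y ∈ G, (segment ℝ y (y + t • a) ∪ segment ℝ (y + t • a) y₀) with hK
  refine ⟨ball z ρ, ball_mem_nhds _ hρp, ?_, K, ?_, ?_, ?_⟩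
  · refine (ball_subset_ball ?_).trans hRW
    exact hρρ₀.trans ((half_le_self hρ₀p.le).trans (min_le_left _ _))
  · have : K = ⋃₀ ((fun y => segment ℝ y (y + t • a) ∪ segment ℝ (y + t • a) y₀) '' G) := by
      rw [hK, sUnion_image]
    rw [this]
    refine isPreconnected_sUnion y₀ _ ?_ ?_
    · rintro _ ⟨y, -, rfl⟩
      exact Or.inr (right_mem_segment ℝ _ _)
    · rintro _ ⟨y, -, rfl⟩
      exact (convex_segment _ _).isPreconnected.union (y + t • a) (right_mem_segment ℝ _ _)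
        (left_mem_segment ℝ _ _) (convex_segment _ _).isPreconnected
  · intro y hy
    exact mem_iUnion₂.2 ⟨y, hy, Or.inl (left_mem_segment ℝ _ _)⟩
  · intro x hx
    obtain ⟨y, hy, hx⟩ := mem_iUnion₂.1 hx
    obtain ⟨hyb, hyu, hyv, hyP⟩ := hy
    have hw : ‖y - z‖ < ρ := by rwa [mem_ball, dist_eq_norm] at hyb
    have hyz : z + (y - z) = y := by abel
    rw [segment_eq_image, segment_eq_image] at hx
    rcases hx with ⟨θ, hθ, rfl⟩ | ⟨θ, hθ, rfl⟩
    · have e : (1 - θ) • y + θ • (y + t • a) = z + (y - z) + (θ * t) • a := by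
        rw [smul_add, smul_smul, sub_smul, one_smul]; abel
      have hs : θ * t ∈ Icc 0 t := ⟨mul_nonneg hθ.1 ht0.le, by nlinarith [hθ.2]⟩
      simp only [e]
      refine ⟨hRW (ball_subset_ball (min_le_left _ _) (pt _ hw _ hs)),
        pu _ hw _ hs (Or.inl (by rw [hyz]; exact hyu)),
        pv _ hw _ hs (Or.inl (by rw [hyz]; exact hyv)), ?_⟩
      have : φ (z + (y - z) + (θ * t) • a - z) = φ (y - z) := by
        have e2 : z + (y - z) + (θ * t) • a - z = (y - z) + (θ * t) • a := by abel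
        rw [e2, map_add, map_smul, ha, smul_zero, add_zero]
      rw [this]; exact hyP
    · have e : (1 - θ) • (y + t • a) + θ • y₀ =
          z + ((1 - θ) • (y - z) + θ • (τ • n)) + t • a := by
        rw [hy₀]
        module
      have hw' : ‖(1 - θ) • (y - z) + θ • (τ • n)‖ < ρ := by
        have h1 : ‖(1 - θ) • (y - z)‖ = (1 - θ) * ‖y - z‖ := by
          rw [norm_smul, Real.norm_eq_abs, abs_of_nonneg (by linarith [hθ.2])]
        have h2 : ‖θ • (τ • n)‖ = θ * (τ * ‖n‖) := by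
          rw [norm_smul, norm_smul, Real.norm_eq_abs, Real.norm_eq_abs, abs_of_nonneg hθ.1,
            abs_of_pos hτ0]
        refine (norm_add_le _ _).trans_lt ?_
        rw [h1, h2]
        rcases hθ.1.eq_or_lt with h0 | h0
        · rw [← h0]; simpa using hw
        · have k1 : (1 - θ) * ‖y - z‖ ≤ (1 - θ) * ρ :=
            mul_le_mul_of_nonneg_left hw.le (by linarith [hθ.2])
          have k2 : θ * (τ * ‖n‖) < θ * ρ := mul_lt_mul_of_pos_left hτ h0
          linarith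
      have hs : t ∈ Icc 0 t := ⟨ht0.le, le_refl _⟩
      simp only [e]
      refine ⟨hRW (ball_subset_ball (min_le_left _ _) (pt _ hw' _ hs)),
        pu _ hw' _ hs (Or.inr rfl), pv _ hw' _ hs (Or.inr rfl), ?_⟩
      have : φ (z + ((1 - θ) • (y - z) + θ • (τ • n)) + t • a - z) =
          (1 - θ) * φ (y - z) + θ * (τ * φ n) := by
        have e2 : z + ((1 - θ) • (y - z) + θ • (τ • n)) + t • a - z =
            (1 - θ) • (y - z) + θ • (τ • n) + t • a := by abel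
        rw [e2]
        simp only [map_add, map_smul, smul_eq_mul, ha, mul_zero, add_zero]
      rw [this]
      exact hP _ _ _ hyP (hn τ hτ0) hθ.1 hθ.2


/-- a flat disc `X` separating the closed sets `Z`, `Z'` in the quadrant `u, v ≥ 0` -/
structure GeoData (C : Set E) (u v : E → ℝ) (φ : E →L[ℝ] ℝ) (c : ℝ) (X Z Z' : Set E) : Prop where
  CX : ∀ x ∈ X, C ∈ 𝓝 x
  hu : ∀ x ∈ X, ContinuousAt u x
  hv : ∀ x ∈ X, ContinuousAt v x
  flat : ∀ x ∈ X, φ x = c
  pos : ∀ x ∈ X, 0 ≤ u x ∧ 0 ≤ v x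
  nor : ∃ n, φ n = 1
  flow : ∀ z ∈ X, ∃ a : E, ∃ r > 0, φ a = 0 ∧
    (u z = 0 → ∀ w s, ‖w‖ < r → |s| < r → u (z + w + s • a) = u (z + w) + s) ∧
    (v z = 0 → ∀ w s, ‖w‖ < r → |s| < r → v (z + w + s • a) = v (z + w) + s)
  clX : IsClosed X
  opn : ∀ x ∈ X, 0 < u x → 0 < v x → ∀ᶠ y in 𝓝 x, φ y = c → y ∈ X
  dX : ∀ x ∈ X, x ∈ closure {y | y ∈ X ∧ 0 < u y ∧ 0 < v y}
  clZ : IsClosed Z
  clZ' : IsClosed Z'
  un : Z ∪ Z' = {x | x ∈ C ∧ 0 ≤ u x ∧ 0 ≤ v x}
  int : Z ∩ Z' = X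
  dZ : ∀ x ∈ X, x ∈ closure {y | y ∈ Z ∧ y ∉ X ∧ 0 < u y ∧ 0 < v y}
  dZ' : ∀ x ∈ X, x ∈ closure {y | y ∈ Z' ∧ y ∉ X ∧ 0 < u y ∧ 0 < v y}

namespace GeoData

variable {C : Set E} {u v : E → ℝ} {φ : E →L[ℝ] ℝ} {c : ℝ} {X Z Z' : Set E}

theorem swap (h : GeoData C u v φ c X Z Z') : GeoData C u v φ c X Z' Z :=
  { h with
    clZ := h.clZ'
    clZ' := h.clZ
    un := by rw [union_comm]; exact h.un
    int := by rw [inter_comm]; exact h.int
    dZ := h.dZ'
    dZ' := h.dZ }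

/-- near a point of `X`: the flat part -/
theorem near_flat (h : GeoData C u v φ c X Z Z') {z : E} (hz : z ∈ X) :
    ∀ᶠ x in 𝓝 z, 0 < u x → 0 < v x → φ x = c → x ∈ X := by
  obtain ⟨a, r, hr, ha, hua, hva⟩ := h.flow z hz
  have e0 : ∀ x, φ (x - z) = φ x - c := fun x => by rw [map_sub, h.flat z hz]
  obtain ⟨W', hW', -, K, hK, h1, h2⟩ := exists_corner_conn (n := 0) (P := fun s => s = 0) φ hr
    (h.hu z hz) (h.hv z hz) (h.pos z hz).1 (h.pos z hz).2 hua hva ha univ_mem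
    (by rintro s t θ rfl rfl - -; ring) (by simp)
  -- `K` lies in `X`
  have hKX : K ⊆ X := by
    have hne : (K ∩ X).Nonempty := by
      obtain ⟨x, hxW, hx⟩ := mem_closure_iff_nhds.1 (h.dX z hz) W' hW'
      exact ⟨x, h1 ⟨hxW, hx.2.1, hx.2.2, by rw [e0, h.flat x hx.1, sub_self]⟩, hx.1⟩
    -- the set of points having a neighbourhood whose flat part is in `X`
    set O : Set E := {x | ∀ᶠ y in 𝓝 x, φ y = c → y ∈ X} with hO
    have hOo : IsOpen O := isOpen_iff_eventually.2 fun x hx => by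
      exact eventually_eventually_nhds.2 hx
    have hcov : K ⊆ O ∪ Xᶜ := by
      intro x hx
      by_cases hxX : x ∈ X
      · left
        have := h2 hx
        exact h.opn x hxX this.2.1 this.2.2.1
      · exact Or.inr hxX
    have hmem : ∀ x ∈ K, x ∈ O → x ∈ X := by
      intro x hx hxO
      have h3 := (h2 hx).2.2.2
      have h4 : ∀ᶠ y in 𝓝 x, φ y = c → y ∈ X := hxO
      exact h4.self_of_nhds (by rw [e0] at h3; linarith)
    have hdj : K ∩ (O ∩ Xᶜ) = ∅ := by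
      rw [Set.eq_empty_iff_forall_notMem]
      rintro x ⟨hx, hxO, hxX⟩
      exact hxX (hmem x hx hxO)
    rcases (isPreconnected_iff_subset_of_disjoint.1 hK) O Xᶜ hOo h.clX.isOpen_compl hcov hdj with
      h3 | h3
    · exact fun x hx => hmem x hx (h3 hx)
    · obtain ⟨x, hx, hxX⟩ := hne
      exact absurd hxX (h3 hx)
  filter_upwards [hW'] with x hx hu hv hφ
  exact hKX (h1 ⟨hx, hu, hv, by rw [e0, hφ, sub_self]⟩)

/-- near a point of `X`: one side -/
theorem side (h : GeoData C u v φ c X Z Z') {z : E} (hz : z ∈ X) {P : ℝ → Prop} {n : E}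
    (hP : ∀ s t θ : ℝ, P s → P t → 0 ≤ θ → θ ≤ 1 → P ((1 - θ) * s + θ * t))
    (hn : ∀ τ > 0, P (τ * φ n)) (hP0 : ¬ P 0) :
    (∀ᶠ x in 𝓝 z, 0 < u x → 0 < v x → P (φ x - c) → x ∈ Z) ∨
      (∀ᶠ x in 𝓝 z, 0 < u x → 0 < v x → P (φ x - c) → x ∈ Z') := by
  obtain ⟨a, r, hr, ha, hua, hva⟩ := h.flow z hz
  have e0 : ∀ x, φ (x - z) = φ x - c := fun x => by rw [map_sub, h.flat z hz]
  obtain ⟨W', hW', -, K, hK, h1, h2⟩ := exists_corner_conn (n := n) (P := P) φ hr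
    (h.hu z hz) (h.hv z hz) (h.pos z hz).1 (h.pos z hz).2 hua hva ha (h.CX z hz) hP hn
  have hKQ : K ⊆ Z ∪ Z' := by
    intro x hx
    rw [h.un]
    have := h2 hx
    exact ⟨this.1, this.2.1.le, this.2.2.1.le⟩
  have hd : K ∩ (Z ∩ Z') = ∅ := by
    rw [Set.eq_empty_iff_forall_notMem, h.int]
    rintro x ⟨hx, hxX⟩
    have := (h2 hx).2.2.2
    rw [e0, h.flat x hxX, sub_self] at this
    exact hP0 this
  rcases (isPreconnected_iff_subset_of_disjoint_closed.1 hK) Z Z' h.clZ h.clZ' hKQ hd with h3 | h3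
  · left
    filter_upwards [hW'] with x hx hu hv hp
    exact h3 (h1 ⟨hx, hu, hv, by rw [e0]; exact hp⟩)
  · right
    filter_upwards [hW'] with x hx hu hv hp
    exact h3 (h1 ⟨hx, hu, hv, by rw [e0]; exact hp⟩)

/-- moving into the open corner along the flow direction -/
theorem ext (h : GeoData C u v φ c X Z Z') {z : E} (hz : z ∈ X) {P : ℝ → Prop} {Y : Set E}
    (hY : IsClosed Y) (H : ∀ᶠ y in 𝓝 z, 0 < u y → 0 < v y → P (φ y) → y ∈ Y) :
    ∀ᶠ x in 𝓝 z, 0 ≤ u x → 0 ≤ v x → P (φ x) → x ∈ Y := by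
  obtain ⟨a, r, hr, ha, hua, hva⟩ := h.flow z hz
  have evu : ∀ᶠ x in 𝓝 z, 0 < u z → 0 < u x := by
    by_cases h' : 0 < u z
    · exact ((h.hu z hz).eventually (lt_mem_nhds h')).mono fun x hx _ => hx
    · exact Eventually.of_forall fun x hx => absurd hx h'
  have evv : ∀ᶠ x in 𝓝 z, 0 < v z → 0 < v x := by
    by_cases h' : 0 < v z
    · exact ((h.hv z hz).eventually (lt_mem_nhds h')).mono fun x hx _ => hx
    · exact Eventually.of_forall fun x hx => absurd hx h'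
  obtain ⟨R, hR, hb⟩ := Metric.eventually_nhds_iff_ball.1 (H.and (evu.and evv))
  filter_upwards [ball_mem_nhds z (lt_min hR hr)] with x hx hxu hxv hxP
  have hxR : x ∈ ball z R := ball_subset_ball (min_le_left _ _) hx
  have hxr : ‖x - z‖ < r := by
    rw [← dist_eq_norm]; exact (mem_ball.1 hx).trans_le (min_le_right _ _)
  have ht : Tendsto (fun s : ℝ => x + s • a) (𝓝[>] 0) (𝓝 x) := by
    have : Tendsto (fun s : ℝ => x + s • a) (𝓝 0) (𝓝 (x + (0:ℝ) • a)) := by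
      apply Continuous.tendsto; fun_prop
    rw [zero_smul, add_zero] at this
    exact this.mono_left nhdsWithin_le_nhds
  refine hY.mem_of_tendsto ht ?_
  have h1 : ∀ᶠ s : ℝ in 𝓝[>] 0, x + s • a ∈ ball z R := ht (isOpen_ball.mem_nhds hxR)
  have h2 : ∀ᶠ s : ℝ in 𝓝[>] 0, s ∈ Ioo 0 r := Ioo_mem_nhdsGT hr
  filter_upwards [h1, h2] with s hs1 hs2
  have hs : |s| < r := by rw [abs_of_pos hs2.1]; exact hs2.2
  have e : z + (x - z) = x := by abel
  have k := hb _ hs1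
  refine k.1 ?_ ?_ ?_
  · rcases (h.pos z hz).1.eq_or_lt with h0 | h0
    · have := hua h0.symm (x - z) s hxr hs
      rw [e] at this
      rw [this]; linarith [hs2.1]
    · exact k.2.1 h0
  · rcases (h.pos z hz).2.eq_or_lt with h0 | h0
    · have := hva h0.symm (x - z) s hxr hs
      rw [e] at this
      rw [this]; linarith [hs2.1]
    · exact k.2.2 h0
  · rw [map_add, map_smul, ha, smul_zero, add_zero]; exact hxP

/-- the local description, `Z` above -/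
def Up (u v : E → ℝ) (φ : E →L[ℝ] ℝ) (c : ℝ) (Z : Set E) (z : E) : Prop :=
  ∀ᶠ x in 𝓝 z, (x ∈ Z ↔ 0 ≤ u x ∧ 0 ≤ v x ∧ c ≤ φ x)

/-- the local description, `Z` below -/
def Dn (u v : E → ℝ) (φ : E →L[ℝ] ℝ) (c : ℝ) (Z : Set E) (z : E) : Prop :=
  ∀ᶠ x in 𝓝 z, (x ∈ Z ↔ 0 ≤ u x ∧ 0 ≤ v x ∧ φ x ≤ c)

theorem flat_iff (h : GeoData C u v φ c X Z Z') {z : E} (hz : z ∈ X) :
    ∀ᶠ x in 𝓝 z, (x ∈ X ↔ 0 ≤ u x ∧ 0 ≤ v x ∧ φ x = c) := by
  filter_upwards [h.ext hz (P := fun s => s = c) h.clX (h.near_flat hz)] with x hx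
  exact ⟨fun hxX => ⟨(h.pos x hxX).1, (h.pos x hxX).2, h.flat x hxX⟩,
    fun hx' => hx hx'.1 hx'.2.1 hx'.2.2⟩

/-- points of the open sides -/
theorem exists_pt (h : GeoData C u v φ c X Z Z') {z : E} (hz : z ∈ X) (n : E) {p : E → Prop}
    (hp : ∀ᶠ x in 𝓝 z, p x) (hn : φ n ≠ 0) :
    ∃ x, p x ∧ 0 < u x ∧ 0 < v x ∧ 0 < (φ x - c) / φ n := by
  obtain ⟨a, r, hr, ha, hua, hva⟩ := h.flow z hz
  have e0 : ∀ x, φ (x - z) = φ x - c := fun x => by rw [map_sub, h.flat z hz]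
  -- a point of `X` in the open corner, then move along `n`
  obtain ⟨O, hO, hOo, hzO⟩ := _root_.eventually_nhds_iff.1 hp
  obtain ⟨x, hxO, hxX, hxu, hxv⟩ := mem_closure_iff_nhds.1 (h.dX z hz) O (hOo.mem_nhds hzO)
  have ht : Tendsto (fun s : ℝ => x + s • n) (𝓝[>] 0) (𝓝 x) := by
    have : Tendsto (fun s : ℝ => x + s • n) (𝓝 0) (𝓝 (x + (0:ℝ) • n)) := by
      apply Continuous.tendsto; fun_prop
    rw [zero_smul, add_zero] at this
    exact this.mono_left nhdsWithin_le_nhds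
  have e1 : ∀ᶠ s : ℝ in 𝓝[>] 0, x + s • n ∈ O := ht (hOo.mem_nhds hxO)
  have e2 : ∀ᶠ s : ℝ in 𝓝[>] 0, 0 < u (x + s • n) :=
    ht ((h.hu x hxX).eventually (lt_mem_nhds hxu))
  have e3 : ∀ᶠ s : ℝ in 𝓝[>] 0, 0 < v (x + s • n) :=
    ht ((h.hv x hxX).eventually (lt_mem_nhds hxv))
  have e4 : ∀ᶠ s : ℝ in 𝓝[>] 0, 0 < s := self_mem_nhdsWithin
  obtain ⟨s, h1, h2, h3, h4⟩ := (e1.and (e2.and (e3.and e4))).exists
  refine ⟨x + s • n, hO _ h1, h2, h3, ?_⟩
  rw [map_add, map_smul, h.flat x hxX, add_sub_cancel_left, smul_eq_mul, mul_div_assoc,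
    div_self hn, mul_one]
  exact h4

/-- **the two sides at a point of `X`** -/
theorem up_or_dn (h : GeoData C u v φ c X Z Z') {z : E} (hz : z ∈ X) :
    Up u v φ c Z z ∨ Dn u v φ c Z z := by
  obtain ⟨n, hn⟩ := h.nor
  have hP : ∀ s t θ : ℝ, 0 < s → 0 < t → 0 ≤ θ → θ ≤ 1 → 0 < (1 - θ) * s + θ * t := by
    intro s t θ hs ht h0 h1
    rcases h0.eq_or_lt with h' | h'
    · rw [← h']; linarith
    · have := mul_pos h' ht
      have := mul_nonneg (sub_nonneg.2 h1) hs.le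
      linarith
  have hN : ∀ s t θ : ℝ, s < 0 → t < 0 → 0 ≤ θ → θ ≤ 1 → (1 - θ) * s + θ * t < 0 := by
    intro s t θ hs ht h0 h1
    have := hP (-s) (-t) θ (by linarith) (by linarith) h0 h1
    linarith
  have sp := h.side hz (P := fun s => 0 < s) (n := n) hP (fun τ hτ => by rw [hn, mul_one]; exact hτ)
    (lt_irrefl _)
  have sn := h.side hz (P := fun s => s < 0) (n := -n) hN
    (fun τ hτ => by rw [map_neg, hn]; linarith) (lt_irrefl _)
  -- not both sides in `Z'`, not both sides in `Z`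
  have both : ∀ {Z Z' : Set E}, GeoData C u v φ c X Z Z' →
      (∀ᶠ x in 𝓝 z, 0 < u x → 0 < v x → 0 < φ x - c → x ∈ Z') →
      (∀ᶠ x in 𝓝 z, 0 < u x → 0 < v x → φ x - c < 0 → x ∈ Z') → False := by
    intro Z Z' h h1 h2
    obtain ⟨O, hO, hOo, hzO⟩ := _root_.eventually_nhds_iff.1 ((h1.and h2).and (h.near_flat hz))
    obtain ⟨x, hxO, hxZ, hxX, hxu, hxv⟩ := mem_closure_iff_nhds.1 (h.dZ z hz) O
      (hOo.mem_nhds hzO)
    have k := hO x hxO
    have hx' : x ∈ Z' := by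
      rcases lt_trichotomy (φ x - c) 0 with h3 | h3 | h3
      · exact k.1.2 hxu hxv h3
      · exact absurd (k.2 hxu hxv (by linarith)) hxX
      · exact k.1.1 hxu hxv h3
    exact hxX (h.int ▸ ⟨hxZ, hx'⟩)
  -- conclusion
  have concl : ∀ {Z Z' : Set E}, GeoData C u v φ c X Z Z' →
      (∀ᶠ x in 𝓝 z, 0 < u x → 0 < v x → 0 < φ x - c → x ∈ Z) →
      (∀ᶠ x in 𝓝 z, 0 < u x → 0 < v x → φ x - c < 0 → x ∈ Z') → Up u v φ c Z z := by
    intro Z Z' h h1 h2
    have k1 := h.ext hz (P := fun s => 0 < s - c) h.clZ h1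
    have k2 := h.ext hz (P := fun s => s - c < 0) h.clZ' h2
    filter_upwards [k1, k2, h.flat_iff hz] with x k1 k2 k3
    constructor
    · intro hxZ
      have hQ : x ∈ {x | x ∈ C ∧ 0 ≤ u x ∧ 0 ≤ v x} := by rw [← h.un]; exact Or.inl hxZ
      refine ⟨hQ.2.1, hQ.2.2, ?_⟩
      by_contra hlt
      push Not at hlt
      have : x ∈ X := h.int ▸ ⟨hxZ, k2 hQ.2.1 hQ.2.2 (by linarith)⟩
      exact hlt.ne (h.flat x this)
    · rintro ⟨hxu, hxv, hxc⟩
      rcases hxc.eq_or_lt with h3 | h3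
      · have : x ∈ X := k3.2 ⟨hxu, hxv, h3.symm⟩
        rw [← h.int] at this
        exact this.1
      · exact k1 hxu hxv (by linarith)
  have concl' : ∀ {Z Z' : Set E}, GeoData C u v φ c X Z Z' →
      (∀ᶠ x in 𝓝 z, 0 < u x → 0 < v x → 0 < φ x - c → x ∈ Z') →
      (∀ᶠ x in 𝓝 z, 0 < u x → 0 < v x → φ x - c < 0 → x ∈ Z) → Dn u v φ c Z z := by
    intro Z Z' h h1 h2
    have k1 := h.ext hz (P := fun s => 0 < s - c) h.clZ' h1
    have k2 := h.ext hz (P := fun s => s - c < 0) h.clZ h2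
    filter_upwards [k1, k2, h.flat_iff hz] with x k1 k2 k3
    constructor
    · intro hxZ
      have hQ : x ∈ {x | x ∈ C ∧ 0 ≤ u x ∧ 0 ≤ v x} := by rw [← h.un]; exact Or.inl hxZ
      refine ⟨hQ.2.1, hQ.2.2, ?_⟩
      by_contra hlt
      push Not at hlt
      have : x ∈ X := h.int ▸ ⟨hxZ, k1 hQ.2.1 hQ.2.2 (by linarith)⟩
      exact hlt.ne' (h.flat x this)
    · rintro ⟨hxu, hxv, hxc⟩
      rcases hxc.eq_or_lt with h3 | h3
      · have : x ∈ X := k3.2 ⟨hxu, hxv, h3⟩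
        rw [← h.int] at this
        exact this.1
      · exact k2 hxu hxv (by linarith)
  rcases sp with s1 | s1 <;> rcases sn with s2 | s2
  · exact (both h.swap s1 s2).elim
  · exact Or.inl (concl h s1 s2)
  · exact Or.inr (concl' h s1 s2)
  · exact (both h s1 s2).elim

/-- the side does not depend on the point -/
theorem all_up_or_dn (h : GeoData C u v φ c X Z Z') (hX : IsPreconnected X) :
    (∀ z ∈ X, Up u v φ c Z z) ∨ (∀ z ∈ X, Dn u v φ c Z z) := by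
  have o1 : IsOpen {z | Up u v φ c Z z} := isOpen_iff_eventually.2 fun x hx => by
    exact eventually_eventually_nhds.2 hx
  have o2 : IsOpen {z | Dn u v φ c Z z} := isOpen_iff_eventually.2 fun x hx => by
    exact eventually_eventually_nhds.2 hx
  have hd : X ∩ ({z | Up u v φ c Z z} ∩ {z | Dn u v φ c Z z}) = ∅ := by
    rw [Set.eq_empty_iff_forall_notMem]
    rintro z ⟨hz, h1, h2⟩
    have h1 : ∀ᶠ x in 𝓝 z, (x ∈ Z ↔ 0 ≤ u x ∧ 0 ≤ v x ∧ c ≤ φ x) := h1
    have h2 : ∀ᶠ x in 𝓝 z, (x ∈ Z ↔ 0 ≤ u x ∧ 0 ≤ v x ∧ φ x ≤ c) := h2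
    obtain ⟨n, hn⟩ := h.nor
    obtain ⟨x, ⟨p1, p2⟩, hxu, hxv, hxc⟩ := h.exists_pt hz n (h1.and h2) (by rw [hn]; norm_num)
    rw [hn, div_one] at hxc
    have := p2.1 (p1.2 ⟨hxu.le, hxv.le, by linarith⟩)
    linarith [this.2.2]
  rcases (isPreconnected_iff_subset_of_disjoint.1 hX) _ _ o1 o2
    (fun z hz => h.up_or_dn hz) hd with h1 | h1
  · exact Or.inl fun z hz => h1 hz
  · exact Or.inr fun z hz => h1 hz

end GeoData

end P073.H341
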