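import Vale.Agent.P073.H341.Geo
import Vale.Agent.P073.ConicalBody
import Vale.Agent.P073.ConicalStrata

/-!
# P073, H341: the compact neighbourhood `N` and the height function `fh`
-/

set_option linter.unusedSectionVars false

open Set Metric Topology Filter

namespace P073.H341

open P073

variable {E : Type*} [NormedAddCommGroup E] [NormedSpace ℝ E]

open Classical in
/-- the truncated height function -/
noncomputable def fhat (O : Set E) (φ : E →L[ℝ] ℝ) (c κ : ℝ) : E → ℝ := fun x =>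
  if x ∈ O then min (φ x - c) κ else κ

section fhat

variable {O N : Set E} {φ : E →L[ℝ] ℝ} {c κ : ℝ}

theorem fhat_of_mem {x : E} (hx : x ∈ O) : fhat O φ c κ x = min (φ x - c) κ := if_pos hx

theorem fhat_of_notMem {x : E} (hx : x ∉ O) : fhat O φ c κ x = κ := if_neg hx

theorem fhat_le {x : E} : fhat O φ c κ x ≤ κ := by
  by_cases hx : x ∈ O
  · rw [fhat_of_mem hx]; exact min_le_right _ _
  · rw [fhat_of_notMem hx]

theorem mem_of_fhat_lt {x : E} (h : fhat O φ c κ x < κ) : x ∈ O ∧ fhat O φ c κ x = φ x - c := by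
  by_cases hx : x ∈ O
  · rw [fhat_of_mem hx] at h ⊢
    refine ⟨hx, min_eq_left ?_⟩
    by_contra hc
    push Not at hc
    rw [min_eq_right hc.le] at h
    exact lt_irrefl _ h
  · rw [fhat_of_notMem hx] at h
    exact absurd h (lt_irrefl _)

theorem fhat_eventually_mem (hO : IsOpen O) {x : E} (hx : x ∈ O) :
    fhat O φ c κ =ᶠ[𝓝 x] fun y => min (φ y - c) κ := by
  filter_upwards [hO.mem_nhds hx] with y hy
  exact fhat_of_mem hy

theorem fhat_eventually_lt (hO : IsOpen O) {x : E} (h : fhat O φ c κ x < κ) :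
    fhat O φ c κ =ᶠ[𝓝 x] fun y => φ y - c := by
  obtain ⟨hx, he⟩ := mem_of_fhat_lt h
  have h1 : φ x - c < κ := by rwa [← he]
  have h2 : ContinuousAt (fun y => φ y - c) x := by fun_prop
  filter_upwards [hO.mem_nhds hx, h2.eventually (gt_mem_nhds h1)] with y hy hy2
  rw [fhat_of_mem hy, min_eq_left (le_of_lt hy2)]

theorem fhat_eventually_const (hO : IsOpen O) {x : E} (hx : x ∉ O)
    (hfr : x ∈ frontier O → κ < φ x - c) : fhat O φ c κ =ᶠ[𝓝 x] fun _ => κ := by
  by_cases hf : x ∈ frontier O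
  · have h2 : ContinuousAt (fun y => φ y - c) x := by fun_prop
    filter_upwards [h2.eventually (lt_mem_nhds (hfr hf))] with y hy2
    by_cases hy : y ∈ O
    · rw [fhat_of_mem hy, min_eq_right (le_of_lt hy2)]
    · exact fhat_of_notMem hy
  · have hcl : x ∉ closure O := fun h => hf ⟨h, by rwa [hO.interior_eq]⟩
    filter_upwards [isClosed_closure.isOpen_compl.mem_nhds hcl] with y hy
    exact fhat_of_notMem fun h => hy (subset_closure h)

theorem fhat_continuousAt (hO : IsOpen O) {x : E} (hfr : x ∈ frontier O → κ < φ x - c) :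
    ContinuousAt (fhat O φ c κ) x := by
  by_cases hx : x ∈ O
  · refine ContinuousAt.congr ?_ (fhat_eventually_mem hO hx).symm
    fun_prop
  · exact continuousAt_const.congr (fhat_eventually_const hO hx hfr).symm

theorem conicalAt_min {x : E} : ConicalAt (fun y => min (φ y - c) κ) x := by
  have h1 : ConicalOn (fun y : E => φ y) univ := conicalOn_clm φ
  have h2 : ConicalOn (fun _ : E => c) univ := conicalOn_const c isOpen_univ.conicalSet
  have h3 : ConicalOn (fun _ : E => κ) univ := conicalOn_const κ isOpen_univ.conicalSet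
  exact ((h1.sub h2).rmin h3 (by fun_prop) (by fun_prop)).conicalAt isOpen_univ (mem_univ x)

theorem _root_.P073.ConicalAt.congr_nhds' {F : Type*} [NormedAddCommGroup F] [NormedSpace ℝ F]
    {g h : E → F} {x : E} (H : ConicalAt g x) (he : h =ᶠ[𝓝 x] g) : ConicalAt h x := by
  obtain ⟨r, hr, H⟩ := H
  obtain ⟨ρ, hρ, hb⟩ := Metric.eventually_nhds_iff_ball.1 he
  refine ⟨min r (ρ / 2), lt_min hr (by linarith), fun v hv t ht => ?_⟩
  have hv1 : ‖v‖ ≤ r := hv.trans (min_le_left _ _)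
  have hv2 : ‖v‖ < ρ := (hv.trans (min_le_right _ _)).trans_lt (by linarith)
  have h1 : h (x + v) = g (x + v) := hb _ (by
    rw [mem_ball, dist_eq_norm, add_sub_cancel_left]; exact hv2)
  have h2 : h (x + t • v) = g (x + t • v) := hb _ (by
    rw [mem_ball, dist_eq_norm, add_sub_cancel_left, norm_smul, Real.norm_eq_abs,
      abs_of_nonneg ht.1]
    exact (mul_le_of_le_one_left (norm_nonneg _) ht.2).trans_lt hv2)
  have h3 : h x = g x := hb _ (mem_ball_self hρ)
  rw [h1, h2, h3]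
  exact H v hv1 t ht

theorem fhat_conicalAt (hO : IsOpen O) {x : E} (hfr : x ∈ frontier O → κ < φ x - c) :
    ConicalAt (fhat O φ c κ) x := by
  by_cases hx : x ∈ O
  · exact conicalAt_min.congr_nhds' (fhat_eventually_mem hO hx)
  · have h3 : ConicalOn (fun _ : E => κ) univ := conicalOn_const κ isOpen_univ.conicalSet
    exact (h3.conicalAt isOpen_univ (mem_univ x)).congr_nhds' (fhat_eventually_const hO hx hfr)

theorem fhat_nonneg_iff (hκ : 0 < κ) {x : E} : 0 ≤ fhat O φ c κ x ↔ (x ∈ O → c ≤ φ x) := by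
  by_cases hx : x ∈ O
  · rw [fhat_of_mem hx, le_min_iff]
    constructor
    · intro h _; linarith [h.1]
    · intro h; exact ⟨by linarith [h hx], hκ.le⟩
  · rw [fhat_of_notMem hx]
    exact ⟨fun _ h => absurd h hx, fun _ => hκ.le⟩

end fhat

variable {C : Set E} {u v : E → ℝ} {φ : E →L[ℝ] ℝ} {c : ℝ} {X Z Z' : Set E}

/-- **(GEO)** -/
theorem GeoData.exists_geo [ProperSpace E] (h : GeoData C u v φ c X Z Z')
    (hup : ∀ z ∈ X, Up u v φ c Z z)
    (hZc : IsCompact Z) (hZC : ∀ z ∈ Z, C ∈ 𝓝 z) {O G : Set E} (hO : IsOpen O) (hXO : X ⊆ O)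
    (hG : IsOpen G) (hZG : Z ⊆ G) :
    ∃ (N O' : Set E) (κ : ℝ), IsCompact N ∧ N ⊆ G ∧ Z ⊆ interior N ∧ IsOpen O' ∧ X ⊆ O' ∧
      closure O' ⊆ O ∧ IsCompact (closure O') ∧ 0 < κ ∧
      (∀ x ∈ N, x ∈ frontier O' → κ < φ x - c) ∧
      (∀ x ∈ N, (x ∈ Z ↔ 0 ≤ u x ∧ 0 ≤ v x ∧ 0 ≤ fhat O' φ c κ x)) ∧
      (∀ x ∈ O', (x ∈ X ↔ 0 ≤ u x ∧ 0 ≤ v x ∧ φ x = c)) := by
  have hXZ : X ⊆ Z := fun x hx => (h.int.symm.subset hx).1
  have hXc : IsCompact X := hZc.of_isClosed_subset h.clX hXZ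
  -- the neighbourhood of `X` where the local description holds
  set O₁ : Set E := {z | ∀ᶠ x in 𝓝 z, (x ∈ Z ↔ 0 ≤ u x ∧ 0 ≤ v x ∧ c ≤ φ x) ∧
    (x ∈ X ↔ 0 ≤ u x ∧ 0 ≤ v x ∧ φ x = c)} with hO₁
  have hO₁o : IsOpen O₁ := isOpen_iff_eventually.2 fun x hx => by
    exact eventually_eventually_nhds.2 hx
  have hXO₁ : X ⊆ O₁ := fun z hz => (hup z hz).and (h.flat_iff hz)
  have m₁ : ∀ x ∈ O₁, (x ∈ Z ↔ 0 ≤ u x ∧ 0 ≤ v x ∧ c ≤ φ x) ∧
      (x ∈ X ↔ 0 ≤ u x ∧ 0 ≤ v x ∧ φ x = c) := fun x hx => by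
    have : ∀ᶠ y in 𝓝 x, (y ∈ Z ↔ 0 ≤ u y ∧ 0 ≤ v y ∧ c ≤ φ y) ∧
      (y ∈ X ↔ 0 ≤ u y ∧ 0 ≤ v y ∧ φ y = c) := hx
    exact this.self_of_nhds
  obtain ⟨V, hV, hXV, hVO⟩ := exists_compact_between hXc (hO₁o.inter hO)
    (subset_inter hXO₁ hXO)
  set O' : Set E := interior V with hO'
  have hO'o : IsOpen O' := isOpen_interior
  have hclO' : closure O' ⊆ V := by
    rw [← hV.isClosed.closure_eq]; exact closure_mono interior_subset
  have hfrc : IsCompact (Z ∩ frontier O') := hZc.inter_right isClosed_frontier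
  have hfr : ∀ x ∈ Z ∩ frontier O', 0 < φ x - c := by
    rintro x ⟨hxZ, hxf⟩
    have hx1 : x ∈ O₁ := (hVO (hclO' hxf.1)).1
    have k1 := (m₁ x hx1).1.1 hxZ
    refine lt_of_le_of_ne (by linarith [k1.2.2]) fun h0 => ?_
    have hxX : x ∈ X := (m₁ x hx1).2.2 ⟨k1.1, k1.2.1, by linarith⟩
    have := hXV hxX
    rw [hO'o.frontier_eq] at hxf
    exact hxf.2 this
  obtain ⟨κ, hκ, hκ'⟩ : ∃ κ > 0, ∀ x ∈ Z ∩ frontier O', κ < φ x - c := by
    rcases (Z ∩ frontier O').eq_empty_or_nonempty with he | hne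
    · exact ⟨1, one_pos, fun x hx => by rw [he] at hx; exact absurd hx (notMem_empty x)⟩
    · obtain ⟨x, hx, hmin⟩ := hfrc.exists_isMinOn hne (f := fun x => φ x - c)
        (by fun_prop)
      refine ⟨(φ x - c) / 2, half_pos (hfr x hx), fun y hy => ?_⟩
      have h1 : φ x - c ≤ φ y - c := hmin hy
      have := hfr x hx
      linarith
  -- local neighbourhoods of the points of `Z`
  set good : E → Prop := fun x => (x ∈ frontier O' → κ < φ x - c) ∧
    (x ∈ Z ↔ 0 ≤ u x ∧ 0 ≤ v x ∧ 0 ≤ fhat O' φ c κ x) with hgood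
  have hev : ∀ z ∈ Z, ∀ᶠ x in 𝓝 z, good x := by
    intro z hz
    by_cases h1 : z ∈ O'
    · have hz1 : z ∈ O₁ := (hVO (interior_subset h1)).1
      filter_upwards [hO'o.mem_nhds h1, hO₁o.mem_nhds hz1] with x hx hx1
      refine ⟨fun hxf => ?_, ?_⟩
      · rw [hO'o.frontier_eq] at hxf
        exact absurd hx hxf.2
      · rw [(m₁ x hx1).1, fhat_nonneg_iff hκ]
        constructor
        · rintro ⟨a1, a2, a3⟩; exact ⟨a1, a2, fun _ => a3⟩
        · rintro ⟨a1, a2, a3⟩; exact ⟨a1, a2, a3 hx⟩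
    · by_cases h2 : z ∈ frontier O'
      · have hz1 : z ∈ O₁ := (hVO (hclO' h2.1)).1
        have hc2 : ContinuousAt (fun y => φ y - c) z := by fun_prop
        filter_upwards [hc2.eventually (lt_mem_nhds (hκ' z ⟨hz, h2⟩)), hO₁o.mem_nhds hz1]
          with x hx hx1
        have hx : κ < φ x - c := hx
        refine ⟨fun _ => hx, ?_⟩
        rw [(m₁ x hx1).1, fhat_nonneg_iff hκ]
        constructor
        · rintro ⟨a1, a2, a3⟩; exact ⟨a1, a2, fun _ => a3⟩
        · rintro ⟨a1, a2, -⟩; exact ⟨a1, a2, by linarith⟩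
      · have hcl : z ∉ closure O' := fun h' => h2 ⟨h', by rwa [hO'o.interior_eq]⟩
        have hzZ' : z ∉ Z' := fun hz' => hcl (subset_closure (hXV (h.int ▸ ⟨hz, hz'⟩)))
        filter_upwards [isClosed_closure.isOpen_compl.mem_nhds hcl,
          h.clZ'.isOpen_compl.mem_nhds hzZ', hZC z hz] with x hx hx2 hxC
        refine ⟨fun hxf => absurd hxf.1 hx, ?_⟩
        rw [fhat_nonneg_iff hκ]
        constructor
        · intro hxZ
          have : x ∈ Z ∪ Z' := Or.inl hxZ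
          rw [h.un] at this
          exact ⟨this.2.1, this.2.2, fun hxO => absurd (subset_closure hxO) hx⟩
        · rintro ⟨a1, a2, -⟩
          have : x ∈ Z ∪ Z' := by rw [h.un]; exact ⟨hxC, a1, a2⟩
          exact this.resolve_right hx2
  set N₀ : Set E := {z | ∀ᶠ x in 𝓝 z, good x} with hN₀
  have hN₀o : IsOpen N₀ := isOpen_iff_eventually.2 fun x hx => by
    exact eventually_eventually_nhds.2 hx
  obtain ⟨N, hN, hZN, hNN⟩ := exists_compact_between hZc (hN₀o.inter hG)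
    (subset_inter (fun z hz => hev z hz) hZG)
  have mN : ∀ x ∈ N, good x := fun x hx => by
    have : ∀ᶠ y in 𝓝 x, good y := (hNN hx).1
    exact this.self_of_nhds
  refine ⟨N, O', κ, hN, fun x hx => (hNN hx).2, hZN, hO'o, hXV,
    hclO'.trans (hVO.trans inter_subset_right), hV.of_isClosed_subset isClosed_closure hclO', hκ,
    fun x hx => (mN x hx).1, fun x hx => (mN x hx).2, fun x hx => ?_⟩
  exact (m₁ x (hVO (interior_subset hx)).1).2

end P073.H341
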