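import Vale.Agent.P073.H341.Circ
import Vale.Agent.P073.H805.ExchC
import Vale.Agent.P073.H805.ParMain
import Vale.Agent.P073.H579.Rel

/-!
# P073, H341: output of (GEO): the flat disc, the compact neighbourhood `N`, the height function

`GeoB`: for a clean bigon, `GeoC`: for a clean circle of the first family. `MeshOk` is the
hypothesis on the mesh.
-/

open Set Metric Topology Filter

namespace P073.H341

open P073 P073.TR P073.H339 P073.H579 P073.H805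

variable {E : Type*} [NormedAddCommGroup E] [NormedSpace ℝ E] {ι J : Type*}

/-- **the hypothesis on the mesh**: a set of the mesh contains the face or is absent near every
point of its relative interior -/
def MeshOk {D : Data E ι} (F : J → Face D) : Prop :=
  ∀ j i, D.M (F j).i₀ ⊆ D.M i ∨
    ∀ z ∈ interior (F j).C, ∀ᶠ y in 𝓝 ((F j).ch z), y ∉ D.M i

/-- **output of (GEO), bigon** in the face `j`, at the levels `k`, `l` -/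
structure GeoB {D : Data E ι} (F : J → Face D) (u v : E → ℝ) (j : J) (s t k l : ℝ)
    (N O : Set E) (fh : E → ℝ) (L : E →L[ℝ] ℝ) (c κ : ℝ) (X α β : Set E) (p q : E) : Prop where
  hs : s = 1 ∨ s = -1
  ht : t = 1 ∨ t = -1
  hk : k ∈ D.a
  hl : l ∈ D.b
  ex : ExIn D.W N D.M (fun x => s * (u x - k)) (fun x => t * (v x - l)) fh (L : E →ₗ[ℝ] ℝ) (-c) κ
  pair : Pair D.U D.B (fun x => s * (u x - k)) (fun x => t * (v x - l))
  NU : N ⊆ D.U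
  NB : Disjoint N D.B
  lu : ∀ x ∈ N, ∀ a ∈ D.a, (0 < s * (a - k) → s * (u x - k) < s * (a - k)) ∧
    (s * (a - k) < 0 → s * (a - k) < s * (u x - k))
  lv : ∀ x ∈ N, ∀ b ∈ D.b, (0 < t * (b - l) → t * (v x - l) < t * (b - l)) ∧
    (t * (b - l) < 0 → t * (b - l) < t * (v x - l))
  oO : IsOpen O
  fO : ∀ x ∈ O, fh x = min (L x - c) κ
  fN : ∀ x, x ∉ O → fh x = κ
  nor : ∃ n, L n = 1
  face : ∀ x ∈ O, ∀ᶠ y in 𝓝 x, (y ∈ D.M (F j).i₀ ↔ L y = c)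
  XO : X ⊆ O
  XN : X ⊆ interior N
  XC : X ⊆ (F j).ch '' interior (F j).C
  hX : ∀ x ∈ O, (x ∈ X ↔ 0 ≤ s * (u x - k) ∧ 0 ≤ t * (v x - l) ∧ L x = c)
  disc : ConBall 2 X (α ∪ β)
  arcα : IsArc α p q
  arcβ : IsArc β p q
  hαβ : α ∩ β = {p, q}
  hα : ∀ x ∈ X, (x ∈ α ↔ u x = k)
  hβ : ∀ x ∈ X, (x ∈ β ↔ v x = l)
  mesh : ∀ i, (∀ x ∈ D.M i ∩ N, 0 ≤ fh x) ∨ D.M (F j).i₀ ⊆ D.M i
  faces : ∀ j', ∀ x ∈ D.M (F j').i₀ ∩ N, 0 ≤ fh x

/-- **output of (GEO), circle** of the first family in the face `j`, at the level `k` -/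
structure GeoC {D : Data E ι} (F : J → Face D) (u v : E → ℝ) (j : J) (s k : ℝ)
    (N O : Set E) (fh : E → ℝ) (L : E →L[ℝ] ℝ) (c κ : ℝ) (X : Set E) (σ : Set P) : Prop where
  hs : s = 1 ∨ s = -1
  hk : k ∈ D.a
  ci : CiIn D.W N D.M (fun x => s * (u x - k)) fh (L : E →ₗ[ℝ] ℝ) (-c) κ
  one : One D.U D.B (fun x => s * (u x - k))
  NU : N ⊆ D.U
  NB : Disjoint N D.B
  lu : ∀ x ∈ N, ∀ a ∈ D.a, (0 < s * (a - k) → s * (u x - k) < s * (a - k)) ∧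
    (s * (a - k) < 0 → s * (a - k) < s * (u x - k))
  lv : ∀ x ∈ N, v x ∉ D.b
  oO : IsOpen O
  fO : ∀ x ∈ O, fh x = min (L x - c) κ
  fN : ∀ x, x ∉ O → fh x = κ
  nor : ∃ n, L n = 1
  face : ∀ x ∈ O, ∀ᶠ y in 𝓝 x, (y ∈ D.M (F j).i₀ ↔ L y = c)
  XO : X ⊆ O
  XN : X ⊆ interior N
  XC : X ⊆ (F j).ch '' interior (F j).C
  hX : ∀ x ∈ O, (x ∈ X ↔ 0 ≤ s * (u x - k) ∧ L x = c)
  disc : ConBall 2 X ((F j).ch '' σ)
  circ : IsCircle σ
  circ' : IsCircle ((F j).ch '' σ)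
  hσ : σ ⊆ interior (F j).C
  hu : ∀ x ∈ X, (x ∈ (F j).ch '' σ ↔ u x = k)
  mesh : ∀ i, (∀ x ∈ D.M i ∩ N, 0 ≤ fh x) ∨ D.M (F j).i₀ ⊆ D.M i
  faces : ∀ j', ∀ x ∈ D.M (F j').i₀ ∩ N, 0 ≤ fh x

end P073.H341
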