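import Vale.Agent.P073.H341.GeoDefs
import Vale.Agent.P073.H341.Geo2
import Vale.Agent.P073.H341.Avoid
import Vale.Agent.P073.H579.Arcs
import Vale.Agent.P073.PA285.Asm

/-!
# P073, H341: preparations for (GEO): signs, normal of a face, levels on the disc
-/

set_option linter.unusedSectionVars false

open Set Metric Topology Filter

namespace P073.H341

open P073 P073.TR P073.H339 P073.H579 P073.H805

variable {E : Type*} [NormedAddCommGroup E] [NormedSpace ℝ E] {ι : Type*}

section sign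

variable {u v : E → ℝ} {M : ι → Set E} {x : E} {r s t k l : ℝ}

theorem sign_mul_self (hs : s = 1 ∨ s = -1) : s * s = 1 := by
  rcases hs with rfl | rfl <;> norm_num

theorem sign_abs (hs : s = 1 ∨ s = -1) : |s| = 1 := by
  rcases hs with rfl | rfl <;> norm_num

theorem sign_ne (hs : s = 1 ∨ s = -1) : s ≠ 0 := by
  rcases hs with rfl | rfl <;> norm_num

theorem sign_mul_eq_zero (hs : s = 1 ∨ s = -1) {a b : ℝ} : s * (a - b) = 0 ↔ a = b := by
  rw [mul_eq_zero, sub_eq_zero]
  exact ⟨fun h => h.resolve_left (sign_ne hs), Or.inr⟩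

theorem flowBox_sign {σ : ℝ →ₗ[ℝ] E} (h : FlowBox u M x σ r) (hs : s = 1 ∨ s = -1) (k : ℝ) :
    FlowBox (fun y => s * (u y - k)) M x (s • σ) r := by
  have hn : ∀ τ : ℝ, ‖τ‖ < r → ‖s * τ‖ < r := fun τ hτ => by
    rw [norm_mul, Real.norm_eq_abs s, sign_abs hs, one_mul]; exact hτ
  have e : ∀ τ : ℝ, (s • σ) τ = σ (s * τ) := fun τ => by
    rw [LinearMap.smul_apply, ← map_smul, smul_eq_mul]
  refine ⟨h.pos, fun w τ hw hτ => ?_, fun i w τ hw hτ => ?_⟩
  · rw [e, h.add w (s * τ) hw (hn τ hτ)]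
    have := sign_mul_self hs
    linear_combination τ * this
  · rw [e]; exact h.iff i w (s * τ) hw (hn τ hτ)

theorem flowBox_sign2 {σ : ℝ × ℝ →ₗ[ℝ] E} (h : FlowBox (fun y => (u y, v y)) M x σ r)
    (hs : s = 1 ∨ s = -1) (ht : t = 1 ∨ t = -1) (k l : ℝ) :
    FlowBox (fun y => (s * (u y - k), t * (v y - l))) M x
      (σ ∘ₗ LinearMap.prodMap (s • LinearMap.id) (t • LinearMap.id)) r := by
  have e : ∀ τ : ℝ × ℝ, (σ ∘ₗ LinearMap.prodMap (s • LinearMap.id) (t • LinearMap.id)) τ =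
      σ (s * τ.1, t * τ.2) := fun τ => rfl
  have hn : ∀ τ : ℝ × ℝ, ‖τ‖ < r → ‖(s * τ.1, t * τ.2)‖ < r := fun τ hτ => by
    rw [Prod.norm_def] at hτ ⊢
    simp only [norm_mul, Real.norm_eq_abs s, Real.norm_eq_abs t, sign_abs hs, sign_abs ht, one_mul]
    exact hτ
  refine ⟨h.pos, fun w τ hw hτ => ?_, fun i w τ hw hτ => ?_⟩
  · have h1 := h.add w (s * τ.1, t * τ.2) hw (hn τ hτ)
    have h2 := congrArg Prod.fst h1
    have h3 := congrArg Prod.snd h1
    simp only [Prod.fst_add, Prod.snd_add] at h2 h3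
    have a1 := sign_mul_self hs
    have a2 := sign_mul_self ht
    rw [e]
    apply Prod.ext
    · show s * (u (x + w + σ (s * τ.1, t * τ.2)) - k) = s * (u (x + w) - k) + τ.1
      rw [h2]; linear_combination τ.1 * a1
    · show t * (v (x + w + σ (s * τ.1, t * τ.2)) - l) = t * (v (x + w) - l) + τ.2
      rw [h3]; linear_combination τ.2 * a2
  · rw [e]; exact h.iff i w _ hw (hn τ hτ)

theorem conicalOn_sign {W : Set E} (h : ConicalOn u W) (s k : ℝ) :
    ConicalOn (fun y => s * (u y - k)) W :=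
  (h.sub (conicalOn_const k h.conicalSet)).const_smul s

theorem continuousOn_sign {W : Set E} (h : ContinuousOn u W) (s k : ℝ) :
    ContinuousOn (fun y => s * (u y - k)) W :=
  continuousOn_const.mul (h.sub continuousOn_const)

end sign

/-- the open ball of a conical ball of full dimension is open -/
theorem _root_.P073.ConBall.isOpen_diff' [FiniteDimensional ℝ E] {n : ℕ}
    (hn : Module.finrank ℝ E = n) {C B : Set E} (h : ConBall n C B) : IsOpen (C \ B) := by
  have e : E ≃L[ℝ] (Fin n → ℝ) := ContinuousLinearEquiv.ofFinrankEq (by simp [hn])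
  have h1 := h.image_affine (e.toLinearMap.toAffineMap) e.injective e.continuous
  have h2 : IsOpen (e '' C \ e '' B) := h1.isOpen_diff
  have h3 : C \ B = e ⁻¹' (e '' C \ e '' B) := by
    rw [← image_sdiff e.injective, preimage_image_eq _ e.injective]
  rw [h3]
  exact h2.preimage e.continuous

/-- the normal of a plane in a three dimensional space -/
theorem exists_normal [FiniteDimensional ℝ E] (h3 : Module.finrank ℝ E = 3) (L : P →ₗ[ℝ] E)
    (hL : Function.Injective L) : ∃ φ : E →L[ℝ] ℝ, (∀ w, φ (L w) = 0) ∧ (∃ n, φ n = 1) ∧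
      ∀ y, φ y = 0 → ∃ w, L w = y := by
  have hr : Module.finrank ℝ (LinearMap.range L) = 2 := by
    rw [LinearMap.finrank_range_of_inj hL, Module.finrank_prod, Module.finrank_self]
  have hlt : LinearMap.range L < ⊤ := by
    rw [lt_top_iff_ne_top]
    intro h
    rw [h, finrank_top, h3] at hr
    norm_num at hr
  obtain ⟨f, hf0, hf⟩ := Submodule.exists_le_ker_of_lt_top _ hlt
  obtain ⟨n, hn⟩ : ∃ n, f n ≠ 0 := by
    by_contra hc
    push Not at hc
    exact hf0 (LinearMap.ext hc)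
  set φ : E →L[ℝ] ℝ := (f n)⁻¹ • (LinearMap.toContinuousLinearMap f) with hφ
  have hφa : ∀ y, φ y = (f n)⁻¹ * f y := fun y => rfl
  refine ⟨φ, fun w => ?_, ⟨n, by rw [hφa]; exact inv_mul_cancel₀ hn⟩, fun y hy => ?_⟩
  · have : f (L w) = 0 := hf (LinearMap.mem_range_self L w)
    rw [hφa, this, mul_zero]
  · have hk : Module.finrank ℝ (LinearMap.ker f) = 2 := by
      have h1 := LinearMap.finrank_range_add_finrank_ker f
      have h2 : LinearMap.range f = ⊤ := by
        rw [LinearMap.range_eq_top]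
        intro a
        exact ⟨(a / f n) • n, by rw [map_smul, smul_eq_mul, div_mul_cancel₀ _ hn]⟩
      rw [h2, finrank_top, Module.finrank_self, h3] at h1
      omega
    have heq : LinearMap.range L = LinearMap.ker f :=
      Submodule.eq_of_le_of_finrank_eq hf (by rw [hr, hk])
    have : y ∈ LinearMap.range L := by
      rw [heq, LinearMap.mem_ker]
      rw [hφa] at hy
      exact (mul_eq_zero.1 hy).resolve_left (inv_ne_zero hn)
    exact this

/-- a continuous function with finitely many values on a preconnected set is constant -/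
theorem const_level {X : Type*} [TopologicalSpace X] {S : Set X} (hS : IsPreconnected S)
    {f : X → ℝ} (hf : ContinuousOn f S) {A : Finset ℝ} (hA : ∀ x ∈ S, f x ∈ A) {x y : X}
    (hx : x ∈ S) (hy : y ∈ S) : f x = f y := by
  by_contra hne
  have key : ∀ {x y : X}, x ∈ S → y ∈ S → f x < f y → False := by
    intro x y hx hy hlt
    have h1 : Icc (f x) (f y) ⊆ (A : Set ℝ) := by
      intro z hz
      obtain ⟨w, hw, rfl⟩ := hS.intermediate_value hx hy hf hz
      exact hA w hw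
    exact (Set.Icc_infinite hlt) (A.finite_toSet.subset h1)
  rcases lt_or_gt_of_ne hne with h | h
  · exact key hx hy h
  · exact key hy hx h

namespace FaceGeo

variable [FiniteDimensional ℝ E] {D : Data E ι} (F : Face D) {φ : E →L[ℝ] ℝ}

/-- points of the plane near a point of the face come from the chart -/
theorem near_open (hker : ∀ y, φ y = 0 → ∃ w, F.L w = y) {z : P}
    {G : Set P} (hG : G ∈ 𝓝 z) : ∀ᶠ y in 𝓝 (F.ch z), φ y = φ F.o → ∃ w ∈ G, F.ch w = y := by
  obtain ⟨g, hg⟩ := F.L.exists_leftInverse_of_injective (LinearMap.ker_eq_bot.2 F.inj)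
  have hgw : ∀ w, g (F.L w) = w := fun w => by
    have := LinearMap.congr_fun hg w
    simpa using this
  have hgc : Continuous fun y => g (y - F.o) :=
    g.continuous_of_finiteDimensional.comp (continuous_id.sub continuous_const)
  have hz : g (F.ch z - F.o) = z := by
    have : F.ch z - F.o = F.L z := add_sub_cancel_left _ _
    rw [this, hgw]
  have h1 : ∀ᶠ y in 𝓝 (F.ch z), g (y - F.o) ∈ G := by
    apply hgc.continuousAt.eventually
    show G ∈ 𝓝 (g (F.ch z - F.o))
    rw [hz]; exact hG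
  filter_upwards [h1] with y hy hφ
  obtain ⟨w, hw⟩ := hker (y - F.o) (by rw [map_sub, hφ, sub_self])
  rw [← hw, hgw] at hy
  exact ⟨w, hy, by show F.o + F.L w = y; rw [hw]; abel⟩

theorem phi_ch (h0 : ∀ w, φ (F.L w) = 0) (w : P) : φ (F.ch w) = φ F.o := by
  show φ (F.o + F.L w) = φ F.o
  rw [map_add, h0, add_zero]

/-- near a point of the relative interior the face is the plane -/
theorem near (h0 : ∀ w, φ (F.L w) = 0) (hker : ∀ y, φ y = 0 → ∃ w, F.L w = y) {z : P}
    (hz : z ∈ interior F.C) : ∀ᶠ y in 𝓝 (F.ch z), (y ∈ D.M F.i₀ ↔ φ y = φ F.o) := by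
  filter_upwards [near_open F hker (isOpen_interior.mem_nhds hz)] with y hy
  constructor
  · intro h
    rw [F.eq] at h
    obtain ⟨w, -, rfl⟩ := h
    exact phi_ch F h0 w
  · intro h
    obtain ⟨w, hw, rfl⟩ := hy h
    exact F.ch_mem (interior_subset hw)

/-- flow boxes at points of the relative interior are tangent to the face -/
theorem tangent (h0 : ∀ w, φ (F.L w) = 0) (hker : ∀ y, φ y = 0 → ∃ w, F.L w = y) {z : P}
    (hz : z ∈ interior F.C) {G : Type*} [NormedAddCommGroup G] [NormedSpace ℝ G]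
    [FiniteDimensional ℝ G] {w : E → G} {σ : G →ₗ[ℝ] E} {r : ℝ} (h : FlowBox w D.M (F.ch z) σ r)
    (s : G) : φ (σ s) = 0 := by
  refine FlowBox.tangent (L := (φ : E →ₗ[ℝ] ℝ)) (c₀ := -φ F.o) h ⟨F.i₀, ?_⟩ ?_ s
  · filter_upwards [near F h0 hker hz] with y hy
    rw [hy]
    show φ y = φ F.o ↔ φ y + -φ F.o = 0
    constructor <;> intro h <;> linarith
  · show φ (F.ch z) + -φ F.o = 0
    rw [phi_ch F h0]; ring

end FaceGeo

/-- the sign of a function on a disc whose interior misses the level -/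
theorem exists_sign {K : Set P} (hK : P073.AmbDisc K) {f : P → ℝ} (hf : ContinuousOn f K) {k : ℝ}
    (hk : ∀ z ∈ interior K, f z ≠ k) : ∃ s : ℝ, (s = 1 ∨ s = -1) ∧
      (∀ z ∈ interior K, 0 < s * (f z - k)) ∧ ∀ z ∈ K, 0 ≤ s * (f z - k) := by
  have hfi : ContinuousOn (fun z => f z - k) (interior K) :=
    (hf.mono interior_subset).sub continuousOn_const
  have hpre := hK.isConnected_interior.isPreconnected
  obtain ⟨z₀, hz₀⟩ := hK.isConnected_interior.nonempty
  have hne : ∀ z ∈ interior K, f z - k ≠ 0 := fun z hz => sub_ne_zero.2 (hk z hz)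
  obtain ⟨s, hs, hpos⟩ : ∃ s : ℝ, (s = 1 ∨ s = -1) ∧ ∀ z ∈ interior K, 0 < s * (f z - k) := by
    have aux : ∀ {x y : P}, x ∈ interior K → y ∈ interior K → 0 < f x - k → f y - k < 0 → False := by
      intro x y hx hy h1 h2
      obtain ⟨z, hz, hz0⟩ := hpre.intermediate_value hy hx hfi ⟨h2.le, h1.le⟩
      exact hne z hz hz0
    rcases lt_or_gt_of_ne (hne z₀ hz₀) with h | h
    · refine ⟨-1, Or.inr rfl, fun z hz => ?_⟩
      rcases lt_or_gt_of_ne (hne z hz) with h' | h'
      · linarith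
      · exact (aux hz hz₀ h' h).elim
    · refine ⟨1, Or.inl rfl, fun z hz => ?_⟩
      rcases lt_or_gt_of_ne (hne z hz) with h' | h'
      · exact (aux hz₀ hz h h').elim
      · linarith
  refine ⟨s, hs, hpos, fun z hz => ?_⟩
  rw [← hK.closure_interior] at hz hf
  have hc : ContinuousOn (fun z => s * (f z - k)) (closure (interior K)) :=
    continuousOn_const.mul (hf.sub continuousOn_const)
  have := hc.image_closure
  have h1 : s * (f z - k) ∈ closure ((fun z => s * (f z - k)) '' interior K) :=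
    this (mem_image_of_mem _ hz)
  have h2 : closure ((fun z => s * (f z - k)) '' interior K) ⊆ Ici 0 := by
    apply closure_minimal _ isClosed_Ici
    rintro _ ⟨w, hw, rfl⟩
    exact (hpos w hw).le
  exact h2 h1

namespace StateGeo

variable {D : Data E ι} {u v : E → ℝ} {s t k l : ℝ}

/-- two crossing sheets of a state -/
theorem pair (hD : D.Ok) (h : State D u v) (hs : s = 1 ∨ s = -1) (ht : t = 1 ∨ t = -1)
    (hk : k ∈ D.a) (hl : l ∈ D.b) {x : E} (hx : x ∈ D.U) (hxu : u x = k) (hxv : v x = l) :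
    Pair D.U D.B (fun x => s * (u x - k)) (fun x => t * (v x - l)) := by
  have e1 : {x | x ∈ D.U ∧ s * (u x - k) = 0} = {x | x ∈ D.U ∧ u x = k} := by
    ext y; simp only [mem_ofPred_eq, sign_mul_eq_zero hs]
  have e2 : {x | x ∈ D.U ∧ t * (v x - l) = 0} = {x | x ∈ D.U ∧ v x = l} := by
    ext y; simp only [mem_ofPred_eq, sign_mul_eq_zero ht]
  have e3 : {x | x ∈ D.U ∧ s * (u x - k) = 0 ∧ t * (v x - l) = 0} =
      {x | x ∈ D.U ∧ u x = k} ∩ {x | x ∈ D.U ∧ v x = l} := by
    ext y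
    simp only [mem_ofPred_eq, mem_inter_iff, sign_mul_eq_zero hs, sign_mul_eq_zero ht]
    tauto
  obtain ⟨σ, r, hf⟩ := h.reguv x hx (hxu ▸ hk) (hxv ▸ hl)
  have hf' := flowBox_sign2 hf hs ht k l
  obtain ⟨iU, hiU⟩ := hD.iU
  have hr := hf'.pos
  have hr2 : |r / 2| = r / 2 := abs_of_pos (by linarith)
  -- the moved points
  have mv : ∀ a b : ℝ, |a| ≤ r / 2 → |b| ≤ r / 2 → ∃ y ∈ D.U, s * (u y - k) = a ∧
      t * (v y - l) = b := by
    intro a b ha hb
    have hn : ‖((a, b) : ℝ × ℝ)‖ < r := by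
      rw [Prod.norm_def]
      exact max_lt (by rw [Real.norm_eq_abs]; linarith) (by rw [Real.norm_eq_abs]; linarith)
    have h0 : ‖(0:E)‖ < r := by rw [norm_zero]; exact hr
    have h1 := hf'.add 0 (a, b) h0 hn
    have h2 := hf'.iff iU 0 (a, b) h0 hn
    rw [hiU, add_zero] at h2
    rw [add_zero] at h1
    refine ⟨_, h2.2 hx, ?_, ?_⟩
    · have := congrArg Prod.fst h1
      simp only [Prod.fst_add] at this
      rw [this, hxu]; ring
    · have := congrArg Prod.snd h1
      simp only [Prod.snd_add] at this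
      rw [this, hxv]; ring
  have z0 : |(0:ℝ)| ≤ r / 2 := by rw [abs_zero]; linarith
  have zp : |r / 2| ≤ r / 2 := hr2.le
  have zn : |-(r / 2)| ≤ r / 2 := by rw [abs_neg]; exact hr2.le
  have hUc : ∀ {w : E → ℝ}, ContinuousOn w D.W → ∀ a b : ℝ,
      ContinuousOn (fun x => a * (w x - b)) D.U := fun hw a b =>
    continuousOn_sign (hw.mono hD.UW) a b
  refine ⟨hD.ball, hUc h.contu s k, hUc h.contv t l, ?_, ?_, ?_, ?_, ?_, ?_, ?_⟩
  · rw [e1]; exact h.two.hS k hk
  · rw [e2]; exact h.two.hT l hl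
  · rw [e3]; exact h.two.hX k hk l hl ⟨x, ⟨hx, hxu⟩, hx, hxv⟩
  · obtain ⟨y, hy, h1, h2⟩ := mv (r / 2) 0 zp z0
    exact ⟨y, hy, h2, by rw [h1]; linarith⟩
  · obtain ⟨y, hy, h1, h2⟩ := mv (-(r / 2)) 0 zn z0
    exact ⟨y, hy, h2, by rw [h1]; linarith⟩
  · obtain ⟨y, hy, h1, h2⟩ := mv 0 (r / 2) z0 zp
    exact ⟨y, hy, h1, by rw [h2]; linarith⟩
  · obtain ⟨y, hy, h1, h2⟩ := mv 0 (-(r / 2)) z0 zn
    exact ⟨y, hy, h1, by rw [h2]; linarith⟩

/-- one sheet of a state -/
theorem one (hD : D.Ok) (h : State D u v) (hs : s = 1 ∨ s = -1)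
    (hk : k ∈ D.a) {x : E} (hx : x ∈ D.U) (hxu : u x = k) :
    One D.U D.B (fun x => s * (u x - k)) := by
  have e1 : {x | x ∈ D.U ∧ s * (u x - k) = 0} = {x | x ∈ D.U ∧ u x = k} := by
    ext y; simp only [mem_ofPred_eq, sign_mul_eq_zero hs]
  obtain ⟨σ, r, hf⟩ := h.regu x hx (hxu ▸ hk)
  have hf' := flowBox_sign hf hs k
  obtain ⟨iU, hiU⟩ := hD.iU
  have hr := hf'.pos
  have hr2 : |r / 2| = r / 2 := abs_of_pos (by linarith)
  have mv : ∀ a : ℝ, |a| ≤ r / 2 → ∃ y ∈ D.U, s * (u y - k) = a := by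
    intro a ha
    have hn : ‖a‖ < r := by rw [Real.norm_eq_abs]; linarith
    have h0 : ‖(0:E)‖ < r := by rw [norm_zero]; exact hr
    have h1 := hf'.add 0 a h0 hn
    have h2 := hf'.iff iU 0 a h0 hn
    rw [hiU, add_zero] at h2
    rw [add_zero] at h1
    exact ⟨_, h2.2 hx, by rw [h1, hxu]; ring⟩
  refine ⟨hD.ball, continuousOn_sign (h.contu.mono hD.UW) s k, ?_, ?_, ?_⟩
  · rw [e1]; exact h.two.hS k hk
  · obtain ⟨y, hy, h1⟩ := mv (r / 2) hr2.le
    exact ⟨y, hy, by rw [h1]; linarith⟩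
  · obtain ⟨y, hy, h1⟩ := mv (-(r / 2)) (by rw [abs_neg]; exact hr2.le)
    exact ⟨y, hy, by rw [h1]; linarith⟩

end StateGeo

end P073.H341
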