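import Vale.Agent.P073.H341.Lift
import Vale.Agent.P073.PT.MosConn

/-!
# P073, H341: the data of (GEO) for a clean disc of a state
-/

set_option linter.unusedSectionVars false

open Set Metric Topology Filter

namespace P073.H341

open P073 P073.TR P073.H339 P073.H579 P073.H805

variable {E : Type*} [NormedAddCommGroup E] [NormedSpace ℝ E] [FiniteDimensional ℝ E]
  {ι : Type*} {D : Data E ι}

/-- **the data for the local description of the region near the flat disc** -/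
theorem geoData (F : Face D) {φ : E →L[ℝ] ℝ} (h0 : ∀ w, φ (F.L w) = 0)
    (hker : ∀ y, φ y = 0 → ∃ w, F.L w = y) (hn : ∃ n, φ n = 1) {K : Set P}
    (hK : P073.AmbDisc K) (hKC : K ⊆ interior F.C) {u v : E → ℝ} (hUo : IsOpen (D.U \ D.B))
    (hu : ∀ x ∈ F.ch '' K, ContinuousAt u x) (hv : ∀ x ∈ F.ch '' K, ContinuousAt v x)
    (pos : ∀ z ∈ K, 0 ≤ u (F.ch z) ∧ 0 ≤ v (F.ch z))
    (ipos : ∀ z ∈ interior K, 0 < u (F.ch z) ∧ 0 < v (F.ch z))
    (fr : ∀ z ∈ frontier K, u (F.ch z) = 0 ∨ v (F.ch z) = 0)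
    (ru : ∀ z ∈ K, u (F.ch z) = 0 → Reg u D.M (F.ch z))
    (rv : ∀ z ∈ K, v (F.ch z) = 0 → Reg v D.M (F.ch z))
    (ruv : ∀ z ∈ K, u (F.ch z) = 0 → v (F.ch z) = 0 → Reg (fun y => (u y, v y)) D.M (F.ch z))
    {Z Z' : Set E} (clZ : IsClosed Z) (clZ' : IsClosed Z')
    (un : Z ∪ Z' = {x | x ∈ D.U ∧ 0 ≤ u x ∧ 0 ≤ v x}) (int : Z ∩ Z' = F.ch '' K)
    (dZ : ∀ x ∈ F.ch '' K, x ∈ closure {y | y ∈ Z ∧ y ∉ F.ch '' K ∧ 0 < u y ∧ 0 < v y})
    (dZ' : ∀ x ∈ F.ch '' K, x ∈ closure {y | y ∈ Z' ∧ y ∉ F.ch '' K ∧ 0 < u y ∧ 0 < v y}) :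
    GeoData D.U u v φ (φ F.o) (F.ch '' K) Z Z' where
  CX := by
    rintro _ ⟨z, hz, rfl⟩
    exact mem_of_superset (hUo.mem_nhds (F.int_sub (hKC hz))) Set.sdiff_subset
  hu := hu
  hv := hv
  flat := by
    rintro _ ⟨z, -, rfl⟩
    exact FaceGeo.phi_ch F h0 z
  pos := by
    rintro _ ⟨z, hz, rfl⟩
    exact pos z hz
  nor := hn
  flow := by
    rintro _ ⟨z, hz, rfl⟩
    by_cases h1 : u (F.ch z) = 0
    · by_cases h2 : v (F.ch z) = 0
      · obtain ⟨σ, r, h⟩ := ruv z hz h1 h2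
        have hns : ∀ s : ℝ, |s| < r → ‖((s, s) : ℝ × ℝ)‖ < r := fun s hs => by
          rw [Prod.norm_def, max_self]; exact hs
        have e : ∀ s : ℝ, s • σ ((1:ℝ), (1:ℝ)) = σ (s, s) := fun s => by
          rw [← map_smul]; simp
        refine ⟨σ (1, 1), r, h.pos, FaceGeo.tangent F h0 hker (hKC hz) h _, fun _ w s hw hs => ?_,
          fun _ w s hw hs => ?_⟩
        · rw [e]
          exact congrArg Prod.fst (h.add w (s, s) hw (hns s hs))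
        · rw [e]
          exact congrArg Prod.snd (h.add w (s, s) hw (hns s hs))
      · obtain ⟨σ, r, h⟩ := ru z hz h1
        have e : ∀ s : ℝ, s • σ 1 = σ s := fun s => by rw [← map_smul]; simp
        refine ⟨σ 1, r, h.pos, FaceGeo.tangent F h0 hker (hKC hz) h _, fun _ w s hw hs => ?_,
          fun h3 => absurd h3 h2⟩
        rw [e]
        exact h.add w s hw hs
    · by_cases h2 : v (F.ch z) = 0
      · obtain ⟨σ, r, h⟩ := rv z hz h2
        have e : ∀ s : ℝ, s • σ 1 = σ s := fun s => by rw [← map_smul]; simp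
        refine ⟨σ 1, r, h.pos, FaceGeo.tangent F h0 hker (hKC hz) h _, fun h3 => absurd h3 h1,
          fun _ w s hw hs => ?_⟩
        rw [e]
        exact h.add w s hw hs
      · exact ⟨0, 1, one_pos, map_zero _, fun h3 => absurd h3 h1, fun h3 => absurd h3 h2⟩
  clX := (hK.isCompact.image F.continuous_ch).isClosed
  opn := by
    rintro _ ⟨z, hz, rfl⟩ h1 h2
    have hzi : z ∈ interior K := by
      by_contra hzi
      have : z ∈ frontier K := ⟨subset_closure hz, hzi⟩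
      rcases fr z this with h3 | h3
      · rw [h3] at h1; exact lt_irrefl _ h1
      · rw [h3] at h2; exact lt_irrefl _ h2
    filter_upwards [FaceGeo.near_open F hker (isOpen_interior.mem_nhds hzi)] with y hy hφ
    obtain ⟨w, hw, rfl⟩ := hy hφ
    exact mem_image_of_mem _ (interior_subset hw)
  dX := by
    rintro _ ⟨z, hz, rfl⟩
    have h1 : z ∈ closure (interior K) := by rw [hK.closure_interior]; exact hz
    have h2 : F.ch z ∈ closure (F.ch '' interior K) :=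
      image_closure_subset_closure_image F.continuous_ch (mem_image_of_mem _ h1)
    refine closure_mono ?_ h2
    rintro _ ⟨w, hw, rfl⟩
    exact ⟨mem_image_of_mem _ (interior_subset hw), (ipos w hw).1, (ipos w hw).2⟩
  clZ := clZ
  clZ' := clZ'
  un := un
  int := int
  dZ := dZ
  dZ' := dZ'

/-- density of the open part: the inner side -/
theorem BG.dense {C B : Set E} {u v : E → ℝ} {X α β : Set E} {p q : E} {Z Z' l₀ : Set E}
    (h : BG C B u v X α β p q Z Z' l₀) : ∀ x ∈ X,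
      x ∈ closure {y | y ∈ Z ∧ y ∉ X ∧ 0 < u y ∧ 0 < v y} := by
  intro x hx
  have hxZ : x ∈ Z := (h.int.symm.subset hx).1
  refine closure_mono ?_ (PT.subset_closure_int h.hZ hxZ)
  rintro y ⟨hy, hy'⟩
  have hQ : y ∈ Z ∪ Z' := Or.inl hy
  rw [h.un] at hQ
  refine ⟨hy, fun h1 => hy' (Or.inr h1), lt_of_le_of_ne hQ.2.1 fun h1 => hy' (Or.inl (Or.inl
    ⟨hy, h1.symm⟩)), lt_of_le_of_ne hQ.2.2 fun h1 => hy' (Or.inl (Or.inr ⟨hy, h1.symm⟩))⟩

theorem BG.dense' {C B : Set E} {u v : E → ℝ} {X α β : Set E} {p q : E} {Z Z' l₀ : Set E}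
    (h : BG C B u v X α β p q Z Z' l₀) : ∀ x ∈ X,
      x ∈ closure {y | y ∈ Z' ∧ y ∉ X ∧ 0 < u y ∧ 0 < v y} := by
  intro x hx
  have hxZ : x ∈ Z' := (h.int.symm.subset hx).2
  obtain ⟨R, hXR, -, hR, hZ'⟩ := h.hZ'
  refine closure_mono ?_ (PT.subset_closure_int hZ' hxZ)
  rintro y ⟨hy, hy'⟩
  have hQ : y ∈ Z ∪ Z' := Or.inr hy
  rw [h.un] at hQ
  refine ⟨hy, fun h1 => hy' (hXR h1), lt_of_le_of_ne hQ.2.1 fun h1 => hy' (hR y hQ.1 hQ.2.1 hQ.2.2
    (Or.inl h1.symm) hy), lt_of_le_of_ne hQ.2.2 fun h1 => hy' (hR y hQ.1 hQ.2.1 hQ.2.2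
    (Or.inr h1.symm) hy)⟩

theorem CG.dense {C B : Set E} {u : E → ℝ} {X c : Set E} {Z Z' : Set E}
    (h : CG C B u X c Z Z') : ∀ x ∈ X,
      x ∈ closure {y | y ∈ Z ∧ y ∉ X ∧ 0 < u y ∧ (0:ℝ) < 1} := by
  intro x hx
  have hxZ : x ∈ Z := (h.int.symm.subset hx).1
  refine closure_mono ?_ (PT.subset_closure_int h.hZ hxZ)
  rintro y ⟨hy, hy'⟩
  have hQ : y ∈ Z ∪ Z' := Or.inl hy
  rw [h.un] at hQ
  exact ⟨hy, fun h1 => hy' (Or.inr h1), lt_of_le_of_ne hQ.2 fun h1 => hy' (Or.inl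
    ⟨hy, h1.symm⟩), one_pos⟩

theorem CG.dense' {C B : Set E} {u : E → ℝ} {X c : Set E} {Z Z' : Set E}
    (h : CG C B u X c Z Z') : ∀ x ∈ X,
      x ∈ closure {y | y ∈ Z' ∧ y ∉ X ∧ 0 < u y ∧ (0:ℝ) < 1} := by
  intro x hx
  have hxZ : x ∈ Z' := (h.int.symm.subset hx).2
  obtain ⟨R, hXR, -, hR, hZ'⟩ := h.hZ'
  refine closure_mono ?_ (PT.subset_closure_int hZ' hxZ)
  rintro y ⟨hy, hy'⟩
  have hQ : y ∈ Z ∪ Z' := Or.inr hy
  rw [h.un] at hQ
  exact ⟨hy, fun h1 => hy' (hXR h1), lt_of_le_of_ne hQ.2 fun h1 => hy' (hR y hQ.1 h1.symm hy),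
    one_pos⟩

/-- the opposite normal -/
theorem GeoData.neg {C : Set E} {u v : E → ℝ} {φ : E →L[ℝ] ℝ} {c : ℝ} {X Z Z' : Set E}
    (h : GeoData C u v φ c X Z Z') : GeoData C u v (-φ) (-c) X Z Z' :=
  { h with
    flat := fun x hx => by
      show -(φ x) = -c
      rw [h.flat x hx]
    nor := by
      obtain ⟨n, hn⟩ := h.nor
      exact ⟨-n, by show -(φ (-n)) = 1; rw [map_neg, hn, neg_neg]⟩
    flow := fun z hz => by
      obtain ⟨a, r, hr, ha, h1, h2⟩ := h.flow z hz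
      exact ⟨a, r, hr, by show -(φ a) = 0; rw [ha, neg_zero], h1, h2⟩
    opn := fun x hx h1 h2 => by
      filter_upwards [h.opn x hx h1 h2] with y hy hφ
      exact hy (neg_injective hφ) }

theorem up_of_dn {u v : E → ℝ} {φ : E →L[ℝ] ℝ} {c : ℝ} {Z : Set E} {z : E}
    (h : GeoData.Dn u v φ c Z z) : GeoData.Up u v (-φ) (-c) Z z := by
  have h1 : ∀ᶠ x in 𝓝 z, (x ∈ Z ↔ 0 ≤ u x ∧ 0 ≤ v x ∧ φ x ≤ c) := h
  filter_upwards [h1] with x hx
  rw [hx]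
  show (0 ≤ u x ∧ 0 ≤ v x ∧ φ x ≤ c) ↔ (0 ≤ u x ∧ 0 ≤ v x ∧ -c ≤ -(φ x))
  rw [neg_le_neg_iff]

end P073.H341
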