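import Vale.Agent.P073.H341.Lift2

/-!
# P073, H341: the compact neighbourhood and the height function for a clean disc
-/

set_option linter.unusedSectionVars false

open Set Metric Topology Filter

namespace P073.H341

open P073 P073.TR P073.H339 P073.H579 P073.H805

variable {E : Type*} [NormedAddCommGroup E] [NormedSpace ℝ E] [FiniteDimensional ℝ E]
  {ι J : Type*} {D : Data E ι}

/-- a face which contains another face is in the same plane -/
theorem coplanar (F F' : Face D) {φ : E →L[ℝ] ℝ} (h0 : ∀ w, φ (F.L w) = 0)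
    (h : D.M F.i₀ ⊆ D.M F'.i₀) : ∀ y ∈ D.M F'.i₀, φ y = φ F.o := by
  obtain ⟨z₀, hz₀⟩ := F.int
  have hc0 : F.ch z₀ ∈ D.M F'.i₀ := h (F.ch_mem (interior_subset hz₀))
  rw [F'.eq] at hc0
  obtain ⟨z', -, hz'⟩ := hc0
  have hz' : F'.ch z' = F.ch z₀ := hz'
  have hsub : LinearMap.range F.L ≤ LinearMap.range F'.L := by
    rintro _ ⟨w, rfl⟩
    have hev : ∀ᶠ τ : ℝ in 𝓝[>] 0, z₀ + τ • w ∈ interior F.C := by
      have hc : ContinuousAt (fun τ : ℝ => z₀ + τ • w) 0 := by fun_prop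
      have : ∀ᶠ τ : ℝ in 𝓝 0, z₀ + τ • w ∈ interior F.C := by
        apply hc.eventually
        apply isOpen_interior.mem_nhds
        simpa using hz₀
      exact this.filter_mono nhdsWithin_le_nhds
    obtain ⟨τ, hτ, hτ0⟩ := (hev.and self_mem_nhdsWithin).exists
    have hτ0 : (0:ℝ) < τ := hτ0
    have h1 : F.ch (z₀ + τ • w) ∈ D.M F'.i₀ := h (F.ch_mem (interior_subset hτ))
    rw [F'.eq] at h1
    obtain ⟨z'', -, hz''⟩ := h1
    have hz'' : F'.ch z'' = F.ch (z₀ + τ • w) := hz''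
    have e1 : F'.L (z'' - z') = τ • F.L w := by
      have a1 : F'.ch z'' - F'.ch z' = F'.L (z'' - z') := by
        show (F'.o + F'.L z'') - (F'.o + F'.L z') = _
        rw [map_sub]; abel
      have a2 : F.ch (z₀ + τ • w) - F.ch z₀ = τ • F.L w := by
        show (F.o + F.L (z₀ + τ • w)) - (F.o + F.L z₀) = _
        rw [map_add, map_smul]; abel
      rw [← a1, ← a2, hz'', hz']
    refine ⟨τ⁻¹ • (z'' - z'), ?_⟩
    rw [map_smul, e1, smul_smul, inv_mul_cancel₀ hτ0.ne', one_smul]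
  have hr : ∀ G : Face D, Module.finrank ℝ (LinearMap.range G.L) = 2 := fun G => by
    rw [LinearMap.finrank_range_of_inj G.inj, Module.finrank_prod, Module.finrank_self]
  have heq : LinearMap.range F.L = LinearMap.range F'.L :=
    Submodule.eq_of_le_of_finrank_eq hsub (by rw [hr, hr])
  intro y hy
  rw [F'.eq] at hy
  obtain ⟨w', -, rfl⟩ := hy
  have h1 : F'.L (w' - z') ∈ LinearMap.range F.L := by
    rw [heq]; exact LinearMap.mem_range_self _ _
  obtain ⟨w, hw⟩ := h1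
  have e : (fun w => F'.o + F'.L w) w' = F.ch z₀ + F.L w := by
    rw [hw, ← hz']
    show F'.o + F'.L w' = (F'.o + F'.L z') + F'.L (w' - z')
    rw [map_sub]; abel
  rw [e, map_add, h0, add_zero, FaceGeo.phi_ch F h0]

/-- **the core of (GEO)** -/
theorem geo_core [Finite ι] (F : J → Face D) (hF : MeshOk F) (j : J)
    {u₁ v₁ : E → ℝ} {φ : E →L[ℝ] ℝ} (h0 : ∀ w, φ ((F j).L w) = 0)
    (hker : ∀ y, φ y = 0 → ∃ w, (F j).L w = y) {K : Set P} (hK : P073.AmbDisc K)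
    (hKC : K ⊆ interior (F j).C) {Z Z' : Set E}
    (g : GeoData D.U u₁ v₁ φ (φ (F j).o) ((F j).ch '' K) Z Z')
    (hZc : IsCompact Z) (hUo : IsOpen (D.U \ D.B)) (hZU : Z ⊆ D.U \ D.B)
    (good : E → Prop) (hgood : ∀ z ∈ Z, ∀ᶠ y in 𝓝 z, good y) :
    ∃ (N O : Set E) (fh : E → ℝ) (L : E →L[ℝ] ℝ) (c κ : ℝ), IsCompact N ∧ N ⊆ D.U \ D.B ∧
      (∀ x ∈ N, good x) ∧ IsOpen O ∧ (∀ x ∈ O, fh x = min (L x - c) κ) ∧
      (∀ x, x ∉ O → fh x = κ) ∧ (∃ n, L n = 1) ∧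
      (∀ x ∈ O, ∀ᶠ y in 𝓝 x, (y ∈ D.M (F j).i₀ ↔ L y = c)) ∧ (F j).ch '' K ⊆ O ∧
      Z ⊆ interior N ∧
      (∀ x ∈ O, (x ∈ (F j).ch '' K ↔ 0 ≤ u₁ x ∧ 0 ≤ v₁ x ∧ L x = c)) ∧
      (∀ i, (∀ x ∈ D.M i ∩ N, 0 ≤ fh x) ∨ D.M (F j).i₀ ⊆ D.M i) ∧
      (∀ j', ∀ x ∈ D.M (F j').i₀ ∩ N, 0 ≤ fh x) ∧ 0 < κ ∧ ConicalOn fh (interior N) ∧
      ContinuousOn fh N ∧
      (∀ x ∈ interior N, fh x < κ → fh =ᶠ[𝓝 x] fun y => (L : E →ₗ[ℝ] ℝ) y + -c) ∧
      (∀ x ∈ N, 0 ≤ u₁ x → 0 ≤ v₁ x → 0 ≤ fh x → x ∈ interior N) := by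
  have hprop : ProperSpace E := FiniteDimensional.proper_real E
  -- the orientation
  obtain ⟨L, c, g', hup, hface, hflat⟩ : ∃ (L : E →L[ℝ] ℝ) (c : ℝ),
      GeoData D.U u₁ v₁ L c ((F j).ch '' K) Z Z' ∧
      (∀ z ∈ (F j).ch '' K, GeoData.Up u₁ v₁ L c Z z) ∧
      (∀ z ∈ interior (F j).C, ∀ᶠ y in 𝓝 ((F j).ch z), (y ∈ D.M (F j).i₀ ↔ L y = c)) ∧
      (∀ G : Face D, D.M (F j).i₀ ⊆ D.M G.i₀ → ∀ y ∈ D.M G.i₀, L y = c) := by
    have hpre : IsPreconnected ((F j).ch '' K) := by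
      refine IsPreconnected.image ?_ _ (F j).continuous_ch.continuousOn
      rw [← hK.closure_interior]
      exact hK.isConnected_interior.isPreconnected.closure
    rcases g.all_up_or_dn hpre with hud | hud
    · exact ⟨φ, _, g, hud, fun z hz => FaceGeo.near (F j) h0 hker hz,
        fun G hG => coplanar (F j) G h0 hG⟩
    · refine ⟨-φ, -(φ (F j).o), g.neg, fun z hz => up_of_dn (hud z hz), fun z hz => ?_,
        fun G hG y hy => ?_⟩
      · filter_upwards [FaceGeo.near (F j) h0 hker hz] with y hy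
        rw [hy]
        show φ y = φ (F j).o ↔ -(φ y) = -(φ (F j).o)
        rw [neg_inj]
      · show -(φ y) = -(φ (F j).o)
        rw [coplanar (F j) G h0 hG y hy]
  -- the open sets
  set good2 : E → Prop := fun y => (y ∈ D.M (F j).i₀ ↔ L y = c) ∧
    ∀ i, D.M (F j).i₀ ⊆ D.M i ∨ y ∉ D.M i with hgood2
  set O₀ : Set E := {x | ∀ᶠ y in 𝓝 x, good2 y} with hO₀
  have hO₀o : IsOpen O₀ := isOpen_iff_eventually.2 fun x hx => by
    exact eventually_eventually_nhds.2 hx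
  have hXO₀ : (F j).ch '' K ⊆ O₀ := by
    rintro _ ⟨z, hz, rfl⟩
    have h1 := hface z (hKC hz)
    have h2 : ∀ᶠ y in 𝓝 ((F j).ch z), ∀ i, D.M (F j).i₀ ⊆ D.M i ∨ y ∉ D.M i := by
      rw [eventually_all]
      intro i
      rcases hF j i with h3 | h3
      · exact Eventually.of_forall fun y => Or.inl h3
      · exact (h3 z (hKC hz)).mono fun y hy => Or.inr hy
    exact h1.and h2
  set G : Set E := {x | ∀ᶠ y in 𝓝 x, good y} ∩ (D.U \ D.B) with hG
  have hGo : IsOpen G := by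
    refine IsOpen.inter (isOpen_iff_eventually.2 fun x hx => ?_) hUo
    exact eventually_eventually_nhds.2 hx
  obtain ⟨N, O', κ, hN, hNG, hZN, hO', hXO', hclO', -, hκ, hfr, hZf, hXf⟩ :=
    g'.exists_geo hup hZc (fun z hz => mem_of_superset (hUo.mem_nhds (hZU hz)) Set.sdiff_subset)
      hO₀o hXO₀ hGo (fun z hz => ⟨hgood z hz, hZU hz⟩)
  have hO'O : O' ⊆ O₀ := subset_closure.trans hclO'
  have g2 : ∀ x ∈ O', good2 x := fun x hx => by
    have : ∀ᶠ y in 𝓝 x, good2 y := hO'O hx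
    exact this.self_of_nhds
  have neg : ∀ x, fhat O' L c κ x < 0 → x ∈ O' ∧ L x < c := fun x hx => by
    obtain ⟨h1, h2⟩ := mem_of_fhat_lt (hx.trans hκ)
    exact ⟨h1, by linarith⟩
  refine ⟨N, O', fhat O' L c κ, L, c, κ, hN, fun x hx => (hNG hx).2, fun x hx => ?_, hO',
    fun x hx => fhat_of_mem hx, fun x hx => fhat_of_notMem hx, g'.nor, fun x hx => ?_, hXO', hZN,
    hXf, fun i => ?_, fun j' x hx => ?_, hκ, fun x hx => ?_, fun x hx => ?_, fun x hx hlt => ?_,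
    fun x hx h1 h2 h3 => ?_⟩
  · have : ∀ᶠ y in 𝓝 x, good y := (hNG hx).1
    exact this.self_of_nhds
  · have : ∀ᶠ y in 𝓝 x, good2 y := hO'O hx
    exact this.mono fun y hy => hy.1
  · by_cases hi : D.M (F j).i₀ ⊆ D.M i
    · exact Or.inr hi
    · left
      rintro x ⟨hxi, -⟩
      by_contra hneg
      push Not at hneg
      exact ((g2 x (neg x hneg).1).2 i).elim hi fun h' => h' hxi
  · by_contra hneg
    push Not at hneg
    obtain ⟨hxO, hxL⟩ := neg x hneg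
    rcases (g2 x hxO).2 (F j').i₀ with h1 | h1
    · exact hxL.ne (hflat (F j') h1 x hx.1)
    · exact h1 hx.1
  · exact (conicalAt_iff.1 (fhat_conicalAt hO' (hfr x (interior_subset hx)))).mono_set
      (isOpen_interior.conicalSet x hx) (subset_univ _)
  · exact (fhat_continuousAt hO' (hfr x hx)).continuousWithinAt
  · filter_upwards [fhat_eventually_lt hO' hlt] with y hy
    rw [hy]; exact sub_eq_add_neg _ _
  · exact hZN ((hZf x hx).2 ⟨h1, h2, h3⟩)

end P073.H341
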