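import Vale.Agent.P073.H341.Extend

/-!
# P073, H341: the region between two disjoint proper sheets
-/

set_option linter.unusedSectionVars false

open Set Metric Topology Filter

namespace P073.H341

open P073 P073.H339

variable {E F : Type*} [NormedAddCommGroup E] [NormedSpace ℝ E]
  [NormedAddCommGroup F] [NormedSpace ℝ F] {ι κ : Type*}

/-- invariance of domain in `ℝⁿ` -/
def IoDP (n : ℕ) : Prop := ∀ (U : Set (Fin n → ℝ)) (f : (Fin n → ℝ) → (Fin n → ℝ)), IsOpen U →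
  ContinuousOn f U → InjOn f U → IsOpen (f '' U)

/-- a ball inside a ball of the same dimension whose boundary is in the boundary is everything -/
theorem ball_eq {n : ℕ} (hI : IoDP (n + 1)) {C B N R : Set E} (hC : ConBall (n + 1) C B)
    (hN : ConBall (n + 1) N R) (hNC : N ⊆ C) (hR : R ⊆ B) : N = C := by
  have hNcomp := hN.isCompact
  obtain ⟨hBC, φ, hφ⟩ := hC
  obtain ⟨hRN, ν, hν⟩ := hN
  have hinj : InjOn (fun x => φ.toFun (ν.invFun x)) (ball (0 : Fin (n + 1) → ℝ) 1) := by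
    intro x hx y hy h
    have hx' := ball_subset_closedBall hx
    have hy' := ball_subset_closedBall hy
    exact ν.symm.injOn hx' hy' (φ.injOn (hNC (ν.mapsTo_inv hx')) (hNC (ν.mapsTo_inv hy')) h)
  have hcont : ContinuousOn (fun x => φ.toFun (ν.invFun x)) (ball (0 : Fin (n + 1) → ℝ) 1) :=
    φ.cont.comp (ν.cont_inv.mono ball_subset_closedBall)
      (fun x hx => hNC (ν.mapsTo_inv (ball_subset_closedBall hx)))
  have hO := hI _ _ isOpen_ball hcont hinj
  set O := (fun x => φ.toFun (ν.invFun x)) '' ball (0 : Fin (n + 1) → ℝ) 1 with hOdef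
  have hOsub : O ⊆ ball (0 : Fin (n + 1) → ℝ) 1 := by
    rw [← interior_closedBall _ one_ne_zero]
    refine interior_maximal ?_ hO
    rintro _ ⟨x, hx, rfl⟩
    exact φ.mapsTo (hNC (ν.mapsTo_inv (ball_subset_closedBall hx)))
  have himg : φ.toFun '' N ∩ ball (0 : Fin (n + 1) → ℝ) 1 ⊆ O := by
    rintro _ ⟨⟨x, hx, rfl⟩, hb⟩
    refine ⟨ν.toFun x, ?_, by show φ.toFun (ν.invFun (ν.toFun x)) = _; rw [ν.left_inv hx]⟩
    have h1 := ν.mapsTo hx
    rw [mem_closedBall_zero_iff] at h1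
    rw [mem_ball_zero_iff]
    rcases lt_or_eq_of_le h1 with h2 | h2
    · exact h2
    · exfalso
      have h3 : ν.toFun x ∈ sphere (0 : Fin (n + 1) → ℝ) 1 := by
        rw [mem_sphere_zero_iff_norm]; exact h2
      rw [← hν] at h3
      obtain ⟨y, hy, he⟩ := h3
      have h4 : y = x := ν.injOn (hRN hy) hx he
      subst h4
      have h5 : φ.toFun y ∈ sphere (0 : Fin (n + 1) → ℝ) 1 := hφ ▸ mem_image_of_mem _ (hR hy)
      rw [mem_sphere_zero_iff_norm] at h5
      rw [mem_ball_zero_iff, h5] at hb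
      exact lt_irrefl _ hb
  have hcl : IsClosed (φ.toFun '' N) := (hNcomp.image_of_continuousOn (φ.cont.mono hNC)).isClosed
  have hOne : O.Nonempty := ⟨_, 0, mem_ball_self one_pos, rfl⟩
  have hOφ : O ⊆ φ.toFun '' N := by
    rintro _ ⟨x, hx, rfl⟩
    exact ⟨ν.invFun x, ν.mapsTo_inv (ball_subset_closedBall hx), rfl⟩
  have hball : ball (0 : Fin (n + 1) → ℝ) 1 ⊆ O := by
    have hpre : IsPreconnected (ball (0 : Fin (n + 1) → ℝ) 1) := (convex_ball _ _).isPreconnected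
    by_contra hne
    obtain ⟨z, hz, hzO⟩ := not_subset.1 hne
    obtain ⟨w, hw⟩ := hOne
    have := hpre O (φ.toFun '' N)ᶜ hO hcl.isOpen_compl (fun x hx => by
      by_cases hxN : x ∈ φ.toFun '' N
      · exact Or.inl (himg ⟨hxN, hx⟩)
      · exact Or.inr hxN) ⟨w, hOsub hw, hw⟩ ⟨z, hz, fun h => hzO (himg ⟨h, hz⟩)⟩
    obtain ⟨v, _, hv1, hv2⟩ := this
    exact hv2 (hOφ hv1)
  apply Subset.antisymm hNC
  intro x hx
  have h1 : φ.toFun x ∈ closure (ball (0 : Fin (n + 1) → ℝ) 1) := by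
    rw [closure_ball _ one_ne_zero]; exact φ.mapsTo hx
  have h2 : φ.toFun x ∈ φ.toFun '' N := by
    have := closure_mono (hball.trans hOφ) h1
    rwa [hcl.closure_eq] at this
  obtain ⟨y, hy, he⟩ := h2
  exact φ.injOn (hNC hy) hx he ▸ hy

theorem conicalSet_union {X Y : Set E} (hX : ConicalSet X) (hY : ConicalSet Y) (hXc : IsClosed X)
    (hYc : IsClosed Y) : ConicalSet (X ∪ Y) := by
  have one : ∀ {X : Set E}, ConicalSet X → IsClosed X → ∀ x, ConicalSetAt X x := by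
    intro X hX hXc x
    by_cases hx : x ∈ X
    · exact hX x hx
    · exact conicalSetAt_of_notMem_closure (by rwa [hXc.closure_eq])
  intro x _
  obtain ⟨r, hr, h1⟩ := one hX hXc x
  obtain ⟨s, hs, h2⟩ := one hY hYc x
  refine ⟨min r s, lt_min hr hs, fun v hv hxv t ht => ?_⟩
  rcases hxv with h | h
  · exact Or.inl (h1 v (hv.trans (min_le_left _ _)) h t ht)
  · exact Or.inr (h2 v (hv.trans (min_le_right _ _)) h t ht)

/-- `N` is the ball between the disjoint proper sheets `S`, `T` -/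
structure IsMid (n : ℕ) (C B S T N : Set E) : Prop where
  ball : ConBall (n + 2) N (S ∪ T ∪ (N ∩ B))
  sub : N ⊆ C

/-- structure of the region between two sheets -/
theorem IsMid.exists_cut {n : ℕ} (hP : CutP (n + 1) E) (hI : IoDP (n + 2)) {C B S T : Set E}
    (hC : ConBall (n + 2) C B) (hS : ConBall (n + 1) S (S ∩ B)) (hT : ConBall (n + 1) T (T ∩ B))
    (hSC : S ⊆ C) (hTC : T ⊆ C) (hd : Disjoint S T) :
    ∃ Z C₁ C₄ : Set E, (∀ N, IsMid n C B S T N → N = Z) ∧ IsClosed C₁ ∧ IsClosed C₄ ∧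
      ConicalSet C₁ ∧ ConicalSet C₄ ∧ Z ∪ (C₁ ∪ C₄) = C ∧ Z ∩ (C₁ ∪ C₄) = S ∪ T := by
  obtain ⟨B₁, B₂, C₁, C₂, hc⟩ := hP C B S hC hS hSC
  -- choose the side of `T`
  have key : ∀ {B₁ B₂ C₁ C₂ : Set E}, Cut (n + 1) C B S B₁ B₂ C₁ C₂ → T ⊆ C₂ \ S →
      ∃ Z C₁ C₄ : Set E, (∀ N, IsMid n C B S T N → N = Z) ∧ IsClosed C₁ ∧ IsClosed C₄ ∧
      ConicalSet C₁ ∧ ConicalSet C₄ ∧ Z ∪ (C₁ ∪ C₄) = C ∧ Z ∩ (C₁ ∪ C₄) = S ∪ T := by
    intro B₁ B₂ C₁ C₂ hc hT2
    have eT : T ∩ (B₂ ∪ S) = T ∩ B := by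
      apply Subset.antisymm
      · rintro x ⟨hx, hx1 | hx1⟩
        · exact ⟨hx, hc.symm.B₁_subB hx1⟩
        · exact absurd hx1 (hT2 hx).2
      · rintro x ⟨hx, hx1⟩
        refine ⟨hx, Or.inl ?_⟩
        rw [← hc.symm.C₁_inter_B]
        exact ⟨(hT2 hx).1, hx1⟩
    obtain ⟨B₃, B₄, C₃, C₄, hc2⟩ := hP C₂ (B₂ ∪ S) T hc.hC₂ (by rw [eT]; exact hT)
      (fun x hx => (hT2 hx).1)
    have key2 : ∀ {B₃ B₄ C₃ C₄ : Set E}, Cut (n + 1) C₂ (B₂ ∪ S) T B₃ B₄ C₃ C₄ → S ⊆ C₃ \ T →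
        ∃ Z C₁ C₄ : Set E, (∀ N, IsMid n C B S T N → N = Z) ∧ IsClosed C₁ ∧ IsClosed C₄ ∧
        ConicalSet C₁ ∧ ConicalSet C₄ ∧ Z ∪ (C₁ ∪ C₄) = C ∧ Z ∩ (C₁ ∪ C₄) = S ∪ T := by
      intro B₃ B₄ C₃ C₄ hc2 hS3
      refine ⟨C₃, C₁, C₄, ?_, hc.hC₁.isClosed, hc2.hC₂.isClosed, hc.hC₁.conicalSet,
        hc2.hC₂.conicalSet, ?_, ?_⟩
      · intro N hN
        have hSN : S ⊆ N := fun x hx => hN.ball.1 (Or.inl (Or.inl hx))
        have hTN : T ⊆ N := fun x hx => hN.ball.1 (Or.inl (Or.inr hx))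
        have hpre : IsPreconnected (N \ (S ∪ T)) := GB200.preconn_between hN.ball
          (fun x hx => ⟨hx.1, fun h => hx.2 (Or.inl h)⟩) Set.sdiff_subset
        have hcl : N ⊆ closure (N \ (S ∪ T)) := (PT.subset_closure_int hN.ball).trans
          (closure_mono fun x hx => ⟨hx.1, fun h => hx.2 (Or.inl h)⟩)
        have hTne := hT.nonempty'
        have hSne := hS.nonempty'
        have i1 : N \ (S ∪ T) ⊆ C₂ \ S := by
          rcases hc.side hpre (Set.sdiff_subset.trans hN.sub)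
            (Set.disjoint_left.2 fun x hx h => hx.2 (Or.inl h)) with h | h
          · exfalso
            have h1 : N ⊆ C₁ := hcl.trans (hc.hC₁.isClosed.closure_subset_iff.2
              (h.trans Set.sdiff_subset))
            obtain ⟨x, hx⟩ := hTne
            exact (hT2 hx).2 (hc.not_both (h1 (hTN hx)) (hT2 hx).1)
          · exact h
        have i2 : N \ (S ∪ T) ⊆ C₃ \ T := by
          rcases hc2.side hpre (i1.trans Set.sdiff_subset)
            (Set.disjoint_left.2 fun x hx h => hx.2 (Or.inr h)) with h | h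
          · exact h
          · exfalso
            have h1 : N ⊆ C₄ := hcl.trans (hc2.hC₂.isClosed.closure_subset_iff.2
              (h.trans Set.sdiff_subset))
            obtain ⟨x, hx⟩ := hSne
            exact (hS3 hx).2 (hc2.not_both (hS3 hx).1 (h1 (hSN hx)))
        have i3 : N ⊆ C₃ := hcl.trans (hc2.hC₁.isClosed.closure_subset_iff.2
          (i2.trans Set.sdiff_subset))
        refine ball_eq hI hc2.hC₁ hN.ball i3 ?_
        have e3 : C₃ ∩ (B₂ ∪ S) = B₃ := hc2.C₁_inter_B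
        rintro x ((hx | hx) | hx)
        · left; rw [← e3]; exact ⟨(hS3 hx).1, Or.inr hx⟩
        · exact Or.inr hx
        · left; rw [← e3]
          refine ⟨i3 hx.1, Or.inl ?_⟩
          rw [← hc.symm.C₁_inter_B]
          exact ⟨hc2.C₁_sub (i3 hx.1), hx.2⟩
      · rw [← hc.hCu, ← hc2.hCu]
        ext x; simp only [mem_union]; tauto
      · apply Subset.antisymm
        · rintro x ⟨hx3, hx | hx⟩
          · exact Or.inl (hc.not_both hx (hc2.C₁_sub hx3))
          · exact Or.inr (hc2.not_both hx3 hx)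
        · rintro x (hx | hx)
          · exact ⟨(hS3 hx).1, Or.inl (hc.D_sub hx)⟩
          · exact ⟨hc2.D_sub hx, Or.inr (hc2.symm.D_sub hx)⟩
    have hSd : Disjoint S T := hd
    rcases hc2.side hS.isPreconnected' (fun x hx => hc.symm.D_sub hx) hSd with h | h
    · exact key2 hc2 h
    · exact key2 hc2.symm h
  rcases hc.side hT.isPreconnected' hTC hd.symm with h | h
  · exact key hc.symm h
  · exact key hc h

theorem IsMid.unique {n : ℕ} (hP : CutP (n + 1) E) (hI : IoDP (n + 2)) {C B S T N M : Set E}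
    (hC : ConBall (n + 2) C B) (hS : ConBall (n + 1) S (S ∩ B)) (hT : ConBall (n + 1) T (T ∩ B))
    (hSC : S ⊆ C) (hTC : T ⊆ C) (hd : Disjoint S T) (hN : IsMid n C B S T N)
    (hM : IsMid n C B S T M) : N = M := by
  obtain ⟨Z, _, _, h, -⟩ := IsMid.exists_cut hP hI hC hS hT hSC hTC hd
  rw [h N hN, h M hM]

/-- the outside of the region between two sheets -/
def out (C N S T : Set E) : Set E := (C \ N) ∪ (S ∪ T)

theorem IsMid.out_props {n : ℕ} (hP : CutP (n + 1) E) (hI : IoDP (n + 2)) {C B S T N : Set E}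
    (hC : ConBall (n + 2) C B) (hS : ConBall (n + 1) S (S ∩ B)) (hT : ConBall (n + 1) T (T ∩ B))
    (hSC : S ⊆ C) (hTC : T ⊆ C) (hd : Disjoint S T) (hN : IsMid n C B S T N) :
    IsClosed (out C N S T) ∧ ConicalSet (out C N S T) ∧ N ∪ out C N S T = C ∧
      N ∩ out C N S T = S ∪ T := by
  obtain ⟨Z, C₁, C₄, h, h1, h4, g1, g4, hu, hi⟩ :=
    IsMid.exists_cut hP hI hC hS hT hSC hTC hd
  have hZ := h N hN
  subst hZ
  have e : out C N S T = C₁ ∪ C₄ := by
    apply Subset.antisymm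
    · rintro x (⟨hx, hxN⟩ | hx)
      · rw [← hu] at hx
        exact hx.resolve_left hxN
      · rw [← hi] at hx; exact hx.2
    · intro x hx
      by_cases hxN : x ∈ N
      · right; rw [← hi]; exact ⟨hxN, hx⟩
      · left; exact ⟨by rw [← hu]; exact Or.inr hx, hxN⟩
  rw [e]
  exact ⟨h1.union h4, conicalSet_union g1 g4 h1 h4, hu, hi⟩

/-- homeomorphisms preserve regions between sheets -/
theorem IsMid.image {n : ℕ} (hP : CutP (n + 1) F) (hI : IoDP (n + 2)) {C B S T N : Set E}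
    {C' B' S' T' N' : Set F} (hC' : ConBall (n + 2) C' B') (hS' : ConBall (n + 1) S' (S' ∩ B'))
    (hT' : ConBall (n + 1) T' (T' ∩ B')) (hSC' : S' ⊆ C') (hTC' : T' ⊆ C') (hd' : Disjoint S' T')
    (hN : IsMid n C B S T N) (hN' : IsMid n C' B' S' T' N') (hBC : B ⊆ C) (Φ : ConHomeo C C')
    (hB : Φ.toFun '' B = B') (hS : Φ.toFun '' S = S') (hT : Φ.toFun '' T = T') :
    Φ.toFun '' N = N' := by
  refine IsMid.unique hP hI hC' hS' hT' hSC' hTC' hd' ⟨?_, ?_⟩ hN'
  · have h1 := hN.ball.image Φ hN.sub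
    rwa [image_union, image_union, Φ.injOn.image_inter hN.sub hBC, hB, hS, hT] at h1
  · rintro _ ⟨x, hx, rfl⟩; exact Φ.mapsTo (hN.sub hx)

end P073.H341
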