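import Vale.Agent.P073.H341.Repl

/-!
# P073, H341: the new sheets of the exchange are discs, the new intersection is one arc
-/

set_option linter.unusedSectionVars false

open Set Metric Topology Filter

namespace P073.H341

open P073 P073.H339

variable {E : Type*} [NormedAddCommGroup E] [NormedSpace ℝ E]

/-- the flat disc of a bigon configuration: `X = {x ∈ N | 0 ≤ u, 0 ≤ v, f = 0}` -/
structure Flat (U B N : Set E) (u v f : E → ℝ) (p q : E) : Prop where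
  clN : IsClosed N
  NU : N ⊆ U
  NB : Disjoint N B
  fc : ContinuousOn f N
  disc : ConBall 2 {x | x ∈ N ∧ 0 ≤ u x ∧ 0 ≤ v x ∧ f x = 0}
    ({x | x ∈ N ∧ u x = 0 ∧ 0 ≤ v x ∧ f x = 0} ∪ {x | x ∈ N ∧ 0 ≤ u x ∧ v x = 0 ∧ f x = 0})
  arcu : IsArc {x | x ∈ N ∧ u x = 0 ∧ 0 ≤ v x ∧ f x = 0} p q
  arcv : IsArc {x | x ∈ N ∧ 0 ≤ u x ∧ v x = 0 ∧ f x = 0} p q
  ends : {x | x ∈ N ∧ u x = 0 ∧ v x = 0 ∧ f x = 0} = {p, q}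
  int : {x | x ∈ N ∧ 0 ≤ u x ∧ 0 ≤ v x ∧ 0 ≤ f x} ⊆ interior N
  ne : ∃ x ∈ N, 0 ≤ u x ∧ 0 ≤ v x ∧ 0 < f x

namespace Flat

variable {U B N : Set E} {u v f : E → ℝ} {p q : E}

theorem swap (h : Flat U B N u v f p q) : Flat U B N v u f p q where
  clN := h.clN
  NU := h.NU
  NB := h.NB
  fc := h.fc
  disc := by
    have e1 : {x | x ∈ N ∧ 0 ≤ v x ∧ 0 ≤ u x ∧ f x = 0} =
        {x | x ∈ N ∧ 0 ≤ u x ∧ 0 ≤ v x ∧ f x = 0} := by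
      ext x; simp only [mem_ofPred_eq]; tauto
    have e2 : {x | x ∈ N ∧ v x = 0 ∧ 0 ≤ u x ∧ f x = 0} ∪
        {x | x ∈ N ∧ 0 ≤ v x ∧ u x = 0 ∧ f x = 0} =
        {x | x ∈ N ∧ u x = 0 ∧ 0 ≤ v x ∧ f x = 0} ∪
        {x | x ∈ N ∧ 0 ≤ u x ∧ v x = 0 ∧ f x = 0} := by
      ext x; simp only [mem_union, mem_ofPred_eq]; tauto
    rw [e1, e2]; exact h.disc
  arcu := by
    have e : {x | x ∈ N ∧ v x = 0 ∧ 0 ≤ u x ∧ f x = 0} =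
        {x | x ∈ N ∧ 0 ≤ u x ∧ v x = 0 ∧ f x = 0} := by
      ext x; simp only [mem_ofPred_eq]; tauto
    rw [e]; exact h.arcv
  arcv := by
    have e : {x | x ∈ N ∧ 0 ≤ v x ∧ u x = 0 ∧ f x = 0} =
        {x | x ∈ N ∧ u x = 0 ∧ 0 ≤ v x ∧ f x = 0} := by
      ext x; simp only [mem_ofPred_eq]; tauto
    rw [e]; exact h.arcu
  ends := by
    have e : {x | x ∈ N ∧ v x = 0 ∧ u x = 0 ∧ f x = 0} =
        {x | x ∈ N ∧ u x = 0 ∧ v x = 0 ∧ f x = 0} := by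
      ext x; simp only [mem_ofPred_eq]; tauto
    rw [e]; exact h.ends
  int := fun x hx => h.int ⟨hx.1, hx.2.2.1, hx.2.1, hx.2.2.2⟩
  ne := by
    obtain ⟨x, h1, h2, h3, h4⟩ := h.ne
    exact ⟨x, h1, h3, h2, h4⟩

/-- **the geometry of the cut off region** -/
theorem bg (hP : Pair U B u v) (h : Flat U B N u v f p q) :
    ∃ Z' l₀, BG U B u v {x | x ∈ N ∧ 0 ≤ u x ∧ 0 ≤ v x ∧ f x = 0}
      {x | x ∈ N ∧ u x = 0 ∧ 0 ≤ v x ∧ f x = 0} {x | x ∈ N ∧ 0 ≤ u x ∧ v x = 0 ∧ f x = 0} p q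
      {x | x ∈ N ∧ 0 ≤ u x ∧ 0 ≤ v x ∧ 0 ≤ f x} Z' l₀ := by
  obtain ⟨Z, Z', l₀, hb⟩ := hP.bigon h.disc h.arcu h.arcv (by
      rw [← h.ends]
      ext x
      simp only [mem_inter_iff, mem_ofPred_eq]
      constructor
      · rintro ⟨⟨h1, h2, h3, h4⟩, -, -, h5, -⟩; exact ⟨h1, h2, h5, h4⟩
      · rintro ⟨h1, h2, h5, h4⟩; exact ⟨⟨h1, h2, h5.ge, h4⟩, h1, h2.ge, h5, h4⟩)
    (fun x hx => h.NU hx.1) (fun x hx => hx.2.1) (fun x hx => hx.2.2.1)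
    (h.NB.mono_left fun x hx => hx.1)
    (fun x hx => ⟨fun h1 => h1.2.1, fun h1 => ⟨hx.1, h1, hx.2.2.1, hx.2.2.2⟩⟩)
    (fun x hx => ⟨fun h1 => h1.2.2.1, fun h1 => ⟨hx.1, hx.2.1, h1, hx.2.2.2⟩⟩)
  have hZ := hb.region hP h.clN h.NU h.NB h.fc rfl h.int h.ne
  rw [hZ] at hb
  exact ⟨Z', l₀, hb⟩

/-- **the new sheet is a disc** -/
theorem new_sheet (hP : Pair U B u v) (h : Flat U B N u v f p q) {S : Set E}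
    (hS : S = {x | x ∈ U ∧ ((x ∉ N ∧ u x = 0) ∨ (x ∈ N ∧ ((u x = 0 ∧ (v x ≤ 0 ∨ f x ≤ 0)) ∨
      (0 ≤ u x ∧ v x = 0 ∧ 0 ≤ f x) ∨ (0 ≤ u x ∧ 0 ≤ v x ∧ f x = 0))))}) :
    ConBall 2 S (S ∩ B) := by
  obtain ⟨Z', l₀, hb⟩ := h.bg hP
  set Z : Set E := {x | x ∈ N ∧ 0 ≤ u x ∧ 0 ≤ v x ∧ 0 ≤ f x} with hZdef
  set X : Set E := {x | x ∈ N ∧ 0 ≤ u x ∧ 0 ≤ v x ∧ f x = 0} with hX
  set α : Set E := {x | x ∈ N ∧ u x = 0 ∧ 0 ≤ v x ∧ f x = 0} with hα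
  have hl : ∀ x, x ∈ l₀ ↔ x ∈ Z ∧ u x = 0 ∧ v x = 0 := hb.hl'
  set γ : Set E := α ∪ l₀ with hγ
  have hγm : ∀ x, x ∈ γ ↔ x ∈ Z ∧ u x = 0 ∧ (v x = 0 ∨ f x = 0) := by
    intro x
    simp only [hγ, hα, hZdef, mem_union, hl, mem_ofPred_eq]
    constructor
    · rintro (⟨h1, h2, h3, h4⟩ | ⟨⟨h1, h2, h3, h4⟩, h5, h6⟩)
      · exact ⟨⟨h1, h2.ge, h3, h4.ge⟩, h2, Or.inr h4⟩
      · exact ⟨⟨h1, h2, h3, h4⟩, h5, Or.inl h6⟩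
    · rintro ⟨⟨h1, h2, h3, h4⟩, h5, h6 | h6⟩
      · exact Or.inr ⟨⟨h1, h2, h3, h4⟩, h5, h6⟩
      · exact Or.inl ⟨h1, h5, h3, h6⟩
  set D : Set E := {x | x ∈ Z ∧ u x = 0} with hD
  have hDγ : D \ γ = {x | x ∈ U ∧ u x = 0} ∩ {x | x ∈ interior N ∧ 0 < v x ∧ 0 < f x} := by
    ext x
    simp only [Set.mem_sdiff, hγm, hD, hZdef, mem_inter_iff, mem_ofPred_eq]
    constructor
    · rintro ⟨⟨hz, h5⟩, h6⟩
      have hz' := hz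
      obtain ⟨h1, h2, h3, h4⟩ := hz
      refine ⟨⟨h.NU h1, h5⟩, h.int ⟨h1, h2, h3, h4⟩, ?_, ?_⟩
      · exact lt_of_le_of_ne h3 fun h0 => h6 ⟨hz', h5, Or.inl h0.symm⟩
      · exact lt_of_le_of_ne h4 fun h0 => h6 ⟨hz', h5, Or.inr h0.symm⟩
    · rintro ⟨⟨-, h5⟩, h1, h3, h4⟩
      refine ⟨⟨⟨interior_subset h1, h5.ge, h3.le, h4.le⟩, h5⟩, ?_⟩
      rintro ⟨-, -, h6 | h6⟩
      · exact h3.ne' h6
      · exact h4.ne' h6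
  have hopen : IsOpen {x | x ∈ interior N ∧ 0 < v x ∧ 0 < f x} := by
    have h1 : IsOpen {x | x ∈ interior N ∧ 0 < v x} :=
      (hP.hv.mono (interior_subset.trans h.NU)).isOpen_inter_preimage isOpen_interior isOpen_Ioi
    have h2 : IsOpen {x | x ∈ interior N ∧ 0 < f x} :=
      (h.fc.mono interior_subset).isOpen_inter_preimage isOpen_interior isOpen_Ioi
    have e : {x | x ∈ interior N ∧ 0 < v x ∧ 0 < f x} =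
        {x | x ∈ interior N ∧ 0 < v x} ∩ {x | x ∈ interior N ∧ 0 < f x} := by
      ext x; simp only [mem_inter_iff, mem_ofPred_eq]; tauto
    rw [e]; exact h1.inter h2
  have hcl : IsClosed ({x | x ∈ U ∧ u x = 0} \ (D \ γ)) := by
    have e : {x | x ∈ U ∧ u x = 0} \ (D \ γ) =
        {x | x ∈ U ∧ u x = 0} ∩ {x | x ∈ interior N ∧ 0 < v x ∧ 0 < f x}ᶜ := by
      rw [hDγ]
      ext x; simp only [mem_inter_iff, Set.mem_sdiff, mem_compl_iff]; tauto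
    rw [e]; exact hP.hS.isClosed.inter hopen.isClosed_compl
  have hDS : D ⊆ {x | x ∈ U ∧ u x = 0} := fun x hx => ⟨h.NU hx.1.1, hx.2⟩
  have hDR : Disjoint D ({x | x ∈ U ∧ u x = 0} ∩ B) :=
    Set.disjoint_left.2 fun x hx hx' => Set.disjoint_left.1 h.NB hx.1.1 hx'.2
  have hR : ConBall 2 ({x | x ∈ Z ∧ v x = 0} ∪ X) γ := by
    rw [hγ, union_comm α]; exact hb.hBX
  have key := ball_replace hP.hS hb.hA hDS hDR hcl hR (by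
    rintro x ⟨hx | hx, hx'⟩
    · exact (hγm x).2 ⟨hx.1, hx'.2, Or.inl hx.2⟩
    · exact (hγm x).2 ⟨⟨hx.1, hx.2.1, hx.2.2.1, hx.2.2.2.ge⟩, hx'.2, Or.inr hx.2.2.2⟩)
  have e1 : ({x | x ∈ U ∧ u x = 0} \ (D \ γ)) ∪ ({x | x ∈ Z ∧ v x = 0} ∪ X) = S := by
    rw [hDγ, hS]
    ext x
    simp only [mem_union, Set.mem_sdiff, mem_inter_iff, mem_ofPred_eq, hZdef, hX]
    constructor
    · rintro (⟨⟨h1, h2⟩, h3⟩ | ⟨⟨h1, h2, h3, h4⟩, h5⟩ | ⟨h1, h2, h3, h4⟩)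
      · refine ⟨h1, ?_⟩
        by_cases hN : x ∈ N
        · right
          refine ⟨hN, Or.inl ⟨h2, ?_⟩⟩
          by_contra hcon
          push Not at hcon
          exact h3 ⟨⟨h1, h2⟩, h.int ⟨hN, h2.ge, hcon.1.le, hcon.2.le⟩, hcon.1, hcon.2⟩
        · exact Or.inl ⟨hN, h2⟩
      · exact ⟨h.NU h1, Or.inr ⟨h1, Or.inr (Or.inl ⟨h2, h5, h4⟩)⟩⟩
      · exact ⟨h.NU h1, Or.inr ⟨h1, Or.inr (Or.inr ⟨h2, h3, h4⟩)⟩⟩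
    · rintro ⟨h1, ⟨h2, h3⟩ | ⟨h2, ⟨h3, h4⟩ | ⟨h3, h4, h5⟩ | ⟨h3, h4, h5⟩⟩⟩
      · left
        exact ⟨⟨h1, h3⟩, fun h' => h2 (interior_subset h'.2.1)⟩
      · left
        refine ⟨⟨h1, h3⟩, fun h' => ?_⟩
        rcases h4 with h4 | h4
        · exact absurd h'.2.2.1 (not_lt.2 h4)
        · exact absurd h'.2.2.2 (not_lt.2 h4)
      · exact Or.inr (Or.inl ⟨⟨h2, h3, h4.ge, h5⟩, h4⟩)
      · exact Or.inr (Or.inr ⟨h2, h3, h4, h5⟩)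
  have e2 : {x | x ∈ U ∧ u x = 0} ∩ B = S ∩ B := by
    rw [hS]
    ext x
    simp only [mem_inter_iff, mem_ofPred_eq]
    constructor
    · rintro ⟨⟨h1, h2⟩, h3⟩
      exact ⟨⟨h1, Or.inl ⟨fun hN => Set.disjoint_left.1 h.NB hN h3, h2⟩⟩, h3⟩
    · rintro ⟨⟨h1, ⟨h2, h3⟩ | ⟨h2, -⟩⟩, h4⟩
      · exact ⟨⟨h1, h3⟩, h4⟩
      · exact absurd h4 (Set.disjoint_left.1 h.NB h2)
  rw [e1, e2] at key
  exact key

/-- **the new intersection is an arc** -/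
theorem new_arc (hP : Pair U B u v) (h : Flat U B N u v f p q) {S : Set E}
    (hS : S = {x | x ∈ U ∧ ((x ∉ N ∧ u x = 0 ∧ v x = 0) ∨ (x ∈ N ∧ ((u x = 0 ∧ v x = 0 ∧ f x ≤ 0) ∨
      (u x = 0 ∧ 0 ≤ v x ∧ f x = 0))))}) :
    ConBall 1 S (S ∩ B) := by
  obtain ⟨Z', l₀, hb⟩ := h.bg hP
  set Z : Set E := {x | x ∈ N ∧ 0 ≤ u x ∧ 0 ≤ v x ∧ 0 ≤ f x} with hZdef
  set α : Set E := {x | x ∈ N ∧ u x = 0 ∧ 0 ≤ v x ∧ f x = 0} with hα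
  have hl : ∀ x, x ∈ l₀ ↔ x ∈ Z ∧ u x = 0 ∧ v x = 0 := hb.hl'
  have hpq : ∀ x, x ∈ ({p, q} : Set E) ↔ x ∈ N ∧ u x = 0 ∧ v x = 0 ∧ f x = 0 := fun x => by
    rw [← h.ends]; exact Iff.rfl
  have hlpq : l₀ \ {p, q} = {x | x ∈ U ∧ u x = 0 ∧ v x = 0} ∩ {x | x ∈ interior N ∧ 0 < f x} := by
    ext x
    rw [Set.mem_sdiff, hl, hpq]
    simp only [hZdef, mem_inter_iff, mem_ofPred_eq]
    constructor
    · rintro ⟨⟨⟨h1, h2, h3, h4⟩, h5, h6⟩, h7⟩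
      exact ⟨⟨h.NU h1, h5, h6⟩, h.int ⟨h1, h2, h3, h4⟩,
        lt_of_le_of_ne h4 fun h0 => h7 ⟨h1, h5, h6, h0.symm⟩⟩
    · rintro ⟨⟨-, h5, h6⟩, h1, h4⟩
      exact ⟨⟨⟨interior_subset h1, h5.ge, h6.ge, h4.le⟩, h5, h6⟩, fun h' => h4.ne' h'.2.2.2⟩
  have hopen : IsOpen {x | x ∈ interior N ∧ 0 < f x} :=
    (h.fc.mono interior_subset).isOpen_inter_preimage isOpen_interior isOpen_Ioi
  have hcl : IsClosed ({x | x ∈ U ∧ u x = 0 ∧ v x = 0} \ (l₀ \ {p, q})) := by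
    have e : {x | x ∈ U ∧ u x = 0 ∧ v x = 0} \ (l₀ \ {p, q}) =
        {x | x ∈ U ∧ u x = 0 ∧ v x = 0} ∩ {x | x ∈ interior N ∧ 0 < f x}ᶜ := by
      rw [hlpq]
      ext x; simp only [mem_inter_iff, Set.mem_sdiff, mem_compl_iff]; tauto
    rw [e]; exact hP.hl.isClosed.inter hopen.isClosed_compl
  have key := ball_replace hP.hl (isArc_iff_conBall.1 hb.hl)
    (fun x hx => ⟨h.NU ((hl x).1 hx).1.1, ((hl x).1 hx).2⟩)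
    (Set.disjoint_left.2 fun x hx hx' => Set.disjoint_left.1 h.NB ((hl x).1 hx).1.1 hx'.2) hcl
    (isArc_iff_conBall.1 h.arcu) (by
      rintro x ⟨hx, hx'⟩
      exact (hpq x).2 ⟨hx.1, hx.2.1, hx'.2.2, hx.2.2.2⟩)
  have e1 : ({x | x ∈ U ∧ u x = 0 ∧ v x = 0} \ (l₀ \ {p, q})) ∪ α = S := by
    rw [hlpq, hS]
    ext x
    simp only [mem_union, Set.mem_sdiff, mem_inter_iff, mem_ofPred_eq, hα]
    constructor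
    · rintro (⟨⟨h1, h2, h3⟩, h4⟩ | ⟨h1, h2, h3, h4⟩)
      · refine ⟨h1, ?_⟩
        by_cases hN : x ∈ N
        · right
          refine ⟨hN, Or.inl ⟨h2, h3, ?_⟩⟩
          by_contra hcon
          push Not at hcon
          exact h4 ⟨⟨h1, h2, h3⟩, h.int ⟨hN, h2.ge, h3.ge, hcon.le⟩, hcon⟩
        · exact Or.inl ⟨hN, h2, h3⟩
      · exact ⟨h.NU h1, Or.inr ⟨h1, Or.inr ⟨h2, h3, h4⟩⟩⟩
    · rintro ⟨h1, ⟨h2, h3, h4⟩ | ⟨h2, ⟨h3, h4, h5⟩ | ⟨h3, h4, h5⟩⟩⟩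
      · left
        exact ⟨⟨h1, h3, h4⟩, fun h' => h2 (interior_subset h'.2.1)⟩
      · left
        exact ⟨⟨h1, h3, h4⟩, fun h' => absurd h'.2.2 (not_lt.2 h5)⟩
      · exact Or.inr ⟨h2, h3, h4, h5⟩
  have e2 : {x | x ∈ U ∧ u x = 0 ∧ v x = 0} ∩ B = S ∩ B := by
    rw [hS]
    ext x
    simp only [mem_inter_iff, mem_ofPred_eq]
    constructor
    · rintro ⟨⟨h1, h2, h2'⟩, h3⟩
      exact ⟨⟨h1, Or.inl ⟨fun hN => Set.disjoint_left.1 h.NB hN h3, h2, h2'⟩⟩, h3⟩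
    · rintro ⟨⟨h1, ⟨h2, h3, h3'⟩ | ⟨h2, -⟩⟩, h4⟩
      · exact ⟨⟨h1, h3, h3'⟩, h4⟩
      · exact absurd h4 (Set.disjoint_left.1 h.NB h2)
  rw [e1, e2] at key
  exact key

end Flat

end P073.H341
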