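import Vale.Agent.P073.H341.PlateZ2
import Vale.Agent.P073.H805.PIn
import Vale.Agent.P073.H880.RP0

/-!
# P073, H341: **[P-IN3]**, the exchange half of round P for `K3C`: the plates

`pz`: the plate of the processed square `s`, with the box `D.PE G s` and the safe set `D.ZE G s`
of H880's `Dat`; `Mg`: the margin; `Abv`: the side of a square.
-/

set_option linter.unusedSectionVars false

open Set Metric Topology Filter

namespace Vale.Agent.P073.H341

open _root_.P073 _root_.P073.TR _root_.P073.H579 _root_.P073.PA691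
open _root_.P073.H805 (Plate HasPat Clean Reg pFam SameLev Crosses)
open _root_.P073.H341 (ZOk YZ PlateInZ PlatesOutZ TouchP hasPat_cleanP hasPat_injP exists_platesZ
  trP)
open _root_.P073.H880.RP (Dat)
open Vale.Agent.P073.H238 (PFace meshFace mesh_sub)
open Vale.Agent.P073.H73 (Mesh)
open Vale.Agent.P073.St (V)
open Vale.Agent.P073.H471 (Rad Wid Boxes Near)
open Vale.Agent.P073.H267 (Geo)
open Vale.Agent.P073.H193 (Edges)
open Vale.Agent.P073.H805 (t1 t2 t1_ne t2_ne t1_ne_t2 t_cases near_of_PB isOpen_near oS_pos oS_p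
  SideNear PB_mono PB_eq lvs mem_lvs not_two EdgeOk)

variable {Ω Λ : Set V} {v : V} {K : BoxCx Λ v} {S : Rad K} {W : Wid K S} {B : Boxes W}
  {G : Geo B} {M : Mesh Ω} {h : ConHomeo Ω Λ} {D : Dat K M} {L : K.S → Fin 3 → Finset ℝ}

/-- the plate of a square, with the box `D.PE G s` -/
noncomputable def pz (G : Geo B) (D : Dat K M) (L : K.S → Fin 3 → Finset ℝ) (s : K.S) :
    Plate where
  lo := fun k => if k = K.nrm s then K.slo s k - D.ht s false else K.slo s k + G.p s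
  hi := fun k => if k = K.nrm s then K.slo s k + D.ht s true else K.shi s k - G.p s
  i := t1 (K.nrm s)
  j := t2 (K.nrm s)
  a := L s (t1 (K.nrm s))
  b := L s (t2 (K.nrm s))
  s := G.p s / 4

/-- `y` is at height at least `t` on the side `β` of the square -/
def Abv (K : BoxCx Λ v) (s : K.S) (β : Bool) (t : ℝ) (y : V) : Prop :=
  if β then K.slo s (K.nrm s) + t ≤ y (K.nrm s) else y (K.nrm s) ≤ K.slo s (K.nrm s) - t

/-- `y` is at distance at most `c p` from one of the side walls of the square, or outside -/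
def Mg (G : Geo B) (s : K.S) (c : ℝ) (y : V) : Prop :=
  ∃ j, j ≠ K.nrm s ∧ (y j ≤ K.slo s j + c * G.p s ∨ K.shi s j - c * G.p s ≤ y j)

theorem mem_pz {s : K.S} {y : V} : y ∈ Icc (pz G D L s).lo (pz G D L s).hi ↔ y ∈ D.PE G s := by
  constructor
  · intro h
    refine ⟨fun k hk => ?_, ?_, ?_⟩
    · have h1 := h.1 k
      have h2 := h.2 k
      simp only [pz, if_neg hk] at h1 h2
      exact ⟨h1, h2⟩
    · have h1 := h.1 (K.nrm s)
      simp only [pz, if_true] at h1
      exact h1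
    · have h2 := h.2 (K.nrm s)
      simp only [pz, if_true] at h2
      exact h2
  · rintro ⟨h1, h2, h3⟩
    have key : ∀ k, (pz G D L s).lo k ≤ y k ∧ y k ≤ (pz G D L s).hi k := by
      intro k
      by_cases hk : k = K.nrm s
      · subst hk
        simp only [pz, if_true]
        exact ⟨h2, h3⟩
      · simp only [pz, if_neg hk]
        exact h1 k hk
    exact ⟨fun k => (key k).1, fun k => (key k).2⟩

theorem pz_eq (s : K.S) : Icc (pz G D L s).lo (pz G D L s).hi = D.PE G s := ext fun _ => mem_pz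

theorem pe_closed (s : K.S) : IsClosed (D.PE G s) := by
  rw [← pz_eq (L := fun _ _ => ∅)]; exact isClosed_Icc

/-- the interior of the box -/
theorem mem_int_pe {s : K.S} {y : V} : y ∈ interior (D.PE G s) ↔
    (∀ k, k ≠ K.nrm s → K.slo s k + G.p s < y k ∧ y k < K.shi s k - G.p s) ∧
    K.slo s (K.nrm s) - D.ht s false < y (K.nrm s) ∧
    y (K.nrm s) < K.slo s (K.nrm s) + D.ht s true := by
  rw [← pz_eq (L := fun _ _ => ∅), TM.interior_Icc3]
  constructor
  · intro h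
    refine ⟨fun k hk => ?_, ?_⟩
    · have h1 := h k
      simp only [pz, if_neg hk] at h1
      exact h1
    · have h1 := h (K.nrm s)
      simp only [pz, if_true] at h1
      exact h1
  · rintro ⟨h1, h2⟩ k
    by_cases hk : k = K.nrm s
    · subst hk
      simp only [pz, if_true]
      exact h2
    · simp only [pz, if_neg hk]
      exact h1 k hk

/-- the heights -/
structure HtOk (G : Geo B) (D : Dat K M) : Prop where
  pos : ∀ s ∈ D.S₀, ∀ β, 0 < D.ht s β
  le : ∀ s ∈ D.S₀, ∀ β, D.ht s β ≤ B.τ s / 2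
  lt : ∀ s ∈ D.S₀, ∀ β, D.sd s β → D.ht s β < B.τ s / 2

theorem HtOk.pe_PB (H : HtOk G D) {s : K.S} (hs : s ∈ D.S₀) : D.PE G s ⊆ G.PB 1 s := by
  rintro y ⟨h1, h2, h3⟩
  rw [Geo.mem_PB]
  have k1 := H.le s hs true
  have k2 := H.le s hs false
  have k3 := B.τ_pos s
  refine ⟨fun k hk => ?_, ?_⟩
  · rw [one_mul]; exact h1 k hk
  · rw [abs_le]
    constructor <;> linarith

/-- levels in the window -/
def WinS (G : Geo B) (D : Dat K M) (L : K.S → Fin 3 → Finset ℝ) : Prop :=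
  ∀ s ∈ D.S₀, ∀ l, l ≠ K.nrm s → ∀ x ∈ L s l, K.slo s l + G.a s ≤ x ∧ x ≤ K.shi s l - G.a s

/-- the numbers of the plates -/
theorem pz_ok (H : HtOk G D) (hw : WinS G D L) {s : K.S} (hs : s ∈ D.S₀) :
    (pz G D L s).Ok Λ := by
  have hp := Geo.p_pos (G := G) s
  have hτ := B.τ_pos s
  have hpa := Geo.p_a (G := G) s
  have hau := G.a_u s
  have n1 := t1_ne (K.nrm s)
  have n2 := t2_ne (K.nrm s)
  have hH1 := H.pos s hs true
  have hH2 := H.pos s hs false
  refine ⟨fun l => ?_, ?_, t1_ne_t2 _,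
    by show 0 ≤ G.p s / 4; linarith, ?_, ?_⟩
  · by_cases hl : l = K.nrm s
    · subst hl
      simp only [pz, if_true]; linarith
    · simp only [pz, if_neg hl]
      have := G.size hl
      linarith
  · rw [pz_eq]
    exact (H.pe_PB hs).trans (Geo.PB_sub (by norm_num) s)
  · intro k hk
    have h1 := hw s hs _ n1 k hk
    simp only [pz, if_neg n1]
    constructor <;> linarith
  · intro k hk
    have h1 := hw s hs _ n2 k hk
    simp only [pz, if_neg n2]
    constructor <;> linarith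

/-- the plates -/
noncomputable def pzc (G : Geo B) (D : Dat K M) (L : K.S → Fin 3 → Finset ℝ)
    (c : {s : K.S // s ∈ D.S₀}) : Plate := pz G D L c.1

theorem pz_lf (H : HtOk G D) : ∀ y ∈ Λ, ∃ O ∈ 𝓝 y,
    {c : {s : K.S // s ∈ D.S₀} |
      (Icc (pzc G D L c).lo (pzc G D L c).hi ∩ O).Nonempty}.Finite := by
  intro y hy
  obtain ⟨O, hO, hf⟩ := Geo.lf_PB G (c := 1) (by norm_num) y hy
  refine ⟨O, hO, Set.Finite.of_finite_image (f := Subtype.val) (hf.subset ?_)
    Subtype.val_injective.injOn⟩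
  rintro _ ⟨c, ⟨z, hz, hzO⟩, rfl⟩
  refine ⟨z, H.pe_PB c.2 ?_, hzO⟩
  rw [← pz_eq (L := L)]; exact hz

theorem pe_dis (H : HtOk G D) {s s' : K.S} (hs : s ∈ D.S₀) (hs' : s' ∈ D.S₀) (hne : s ≠ s') :
    Disjoint (D.PE G s) (D.PE G s') :=
  (Geo.disjoint_PB (G := G) (c := 1) (by norm_num) hne).mono (H.pe_PB hs) (H.pe_PB hs')

theorem pz_dis (H : HtOk G D) (c d : {s : K.S // s ∈ D.S₀}) (hcd : c ≠ d) :
    Disjoint (Icc (pzc G D L c).lo (pzc G D L c).hi) (Icc (pzc G D L d).lo (pzc G D L d).hi) := by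
  show Disjoint (Icc (pz G D L c.1).lo (pz G D L c.1).hi)
    (Icc (pz G D L d.1).lo (pz G D L d.1).hi)
  rw [pz_eq, pz_eq]
  exact pe_dis H c.2 d.2 fun h1 => hcd (Subtype.ext h1)

/-- moves in the normal direction -/
theorem pe_update {s : K.S} {y : V} (hy : y ∈ D.PE G s) {r : ℝ}
    (h1 : K.slo s (K.nrm s) - D.ht s false ≤ r) (h2 : r ≤ K.slo s (K.nrm s) + D.ht s true) :
    Function.update y (K.nrm s) r ∈ D.PE G s := by
  refine ⟨fun k hk => ?_, ?_⟩
  · rw [Function.update_of_ne hk]; exact hy.1 k hk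
  · rw [Function.update_self]; exact ⟨h1, h2⟩

/-- the safe set of the plate -/
theorem ze_ok (H : HtOk G D) {s : K.S} (hs : s ∈ D.S₀) : ZOk (pz G D L s) (D.ZE G s) := by
  have c := (continuous_apply (K.nrm s) : Continuous fun y : V => y (K.nrm s))
  have hH1 := H.pos s hs true
  have hH2 := H.pos s hs false
  refine ⟨?_, fun y hy => mem_pz.2 hy.1, fun y hy => ?_⟩
  · have e : D.ZE G s = D.PE G s ∩
        ({y | ¬ D.sd s true ∧ K.slo s (K.nrm s) + D.ht s true / 2 ≤ y (K.nrm s)} ∪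
          {y | ¬ D.sd s false ∧ y (K.nrm s) ≤ K.slo s (K.nrm s) - D.ht s false / 2}) := rfl
    rw [e]
    refine (pe_closed s).inter (IsClosed.union ?_ ?_)
    · by_cases hd : D.sd s true
      · have : {y : V | ¬ D.sd s true ∧ K.slo s (K.nrm s) + D.ht s true / 2 ≤ y (K.nrm s)} = ∅ := by
          ext y; simp [hd]
        rw [this]; exact isClosed_empty
      · have : {y : V | ¬ D.sd s true ∧ K.slo s (K.nrm s) + D.ht s true / 2 ≤ y (K.nrm s)} =
            {y : V | K.slo s (K.nrm s) + D.ht s true / 2 ≤ y (K.nrm s)} := by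
          ext y; simp [hd]
        rw [this]; exact _root_.isClosed_le continuous_const c
    · by_cases hd : D.sd s false
      · have : {y : V | ¬ D.sd s false ∧ y (K.nrm s) ≤ K.slo s (K.nrm s) - D.ht s false / 2} =
            ∅ := by
          ext y; simp [hd]
        rw [this]; exact isClosed_empty
      · have : {y : V | ¬ D.sd s false ∧ y (K.nrm s) ≤ K.slo s (K.nrm s) - D.ht s false / 2} =
            {y : V | y (K.nrm s) ≤ K.slo s (K.nrm s) - D.ht s false / 2} := by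
          ext y; simp [hd]
        rw [this]; exact _root_.isClosed_le c continuous_const
  · have hn1 : K.nrm s ≠ (pz G D L s).i := (t1_ne _).symm
    have hn2 : K.nrm s ≠ (pz G D L s).j := (t2_ne _).symm
    obtain ⟨hy0, h1 | h1⟩ := hy
    · refine ⟨K.nrm s, hn1, hn2, K.slo s (K.nrm s) + D.ht s true, Or.inr (by simp [pz]),
        fun r hr => ?_⟩
      rw [uIcc_of_le hy0.2.2] at hr
      refine ⟨pe_update hy0 (by linarith [hr.1, h1.2]) hr.2, Or.inl ⟨h1.1, ?_⟩⟩
      rw [Function.update_self]; linarith [hr.1, h1.2]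
    · refine ⟨K.nrm s, hn1, hn2, K.slo s (K.nrm s) - D.ht s false, Or.inl (by simp [pz]),
        fun r hr => ?_⟩
      rw [uIcc_of_ge hy0.2.1] at hr
      refine ⟨pe_update hy0 hr.1 (by linarith [hr.2, h1.2]), Or.inr ⟨h1.1, ?_⟩⟩
      rw [Function.update_self]; linarith [hr.2, h1.2]

/-- the safe sets of the plates -/
def zc (G : Geo B) (D : Dat K M) (c : {s : K.S // s ∈ D.S₀}) : Set V := D.ZE G c.1

theorem mem_U_pz (H : HtOk G D) (hw : WinS G D L) {s : K.S} (hs : s ∈ D.S₀) {x : V} :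
    x ∈ (pz G D L s).U h ↔ x ∈ Ω ∧ h.toFun x ∈ D.PE G s := by
  rw [(pz_ok H hw hs).mem_U, pz_eq]

theorem mem_B_pz (H : HtOk G D) (hw : WinS G D L) {s : K.S} (hs : s ∈ D.S₀) {x : V} :
    x ∈ (pz G D L s).B h ↔ x ∈ Ω ∧ h.toFun x ∈ D.PE G s ∧ h.toFun x ∉ interior (D.PE G s) := by
  rw [(pz_ok H hw hs).mem_B, pz_eq, (pe_closed s).frontier_eq]
  exact Iff.rfl

/-- **the safe set**, pointwise -/
theorem mem_YZ (H : HtOk G D) (hw : WinS G D L) (c : {s : K.S // s ∈ D.S₀}) {x : V} :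
    x ∈ YZ h (pzc G D L) (zc G D) c ↔
      (x ∈ Ω ∧ h.toFun x ∈ D.PE G c.1) ∧ (h.toFun x ∈ D.ZE G c.1 ∨ Mg G c.1 (5 / 4) (h.toFun x)) := by
  have ok : (pzc G D L c).Ok Λ := pz_ok H hw c.2
  have n1 := t1_ne (K.nrm c.1)
  have n2 := t2_ne (K.nrm c.1)
  have hZΛ : D.ZE G c.1 ⊆ Λ := fun y hy =>
    Geo.PB_sub (G := G) (by norm_num : (1:ℝ) / 2 ≤ 1) c.1 (H.pe_PB c.2 hy.1)
  have hZ : x ∈ h.invFun '' D.ZE G c.1 ↔ x ∈ Ω ∧ h.toFun x ∈ D.ZE G c.1 := by
    constructor
    · rintro ⟨y, hy, rfl⟩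
      exact ⟨h.mapsTo_inv (hZΛ hy), by rw [h.right_inv (hZΛ hy)]; exact hy⟩
    · exact fun hy => ⟨_, hy.2, h.left_inv hy.1⟩
  have e1 : x ∈ (pzc G D L c).Y h ↔
      (x ∈ Ω ∧ h.toFun x ∈ D.PE G c.1) ∧ Mg G c.1 (5 / 4) (h.toFun x) := by
    rw [ok.mem_Y]
    have hm : h.toFun x ∈ (pzc G D L c).marg ↔ h.toFun x ∈ D.PE G c.1 ∧
        (h.toFun x (t1 (K.nrm c.1)) ≤ K.slo c.1 (t1 (K.nrm c.1)) + G.p c.1 + G.p c.1 / 4 ∨
        K.shi c.1 (t1 (K.nrm c.1)) - G.p c.1 - G.p c.1 / 4 ≤ h.toFun x (t1 (K.nrm c.1)) ∨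
        h.toFun x (t2 (K.nrm c.1)) ≤ K.slo c.1 (t2 (K.nrm c.1)) + G.p c.1 + G.p c.1 / 4 ∨
        K.shi c.1 (t2 (K.nrm c.1)) - G.p c.1 - G.p c.1 / 4 ≤ h.toFun x (t2 (K.nrm c.1))) := by
      unfold Plate.marg
      simp only [mem_ofPred_eq]
      show h.toFun x ∈ Icc (pz G D L c.1).lo (pz G D L c.1).hi ∧ _ ↔ _
      rw [mem_pz]
      simp only [pzc, pz, if_neg n1, if_neg n2]
    rw [hm, and_assoc]
    refine and_congr_right fun _ => and_congr_right fun _ => ?_
    constructor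
    · rintro (h1 | h1 | h1 | h1)
      · exact ⟨_, n1, Or.inl (by linarith)⟩
      · exact ⟨_, n1, Or.inr (by linarith)⟩
      · exact ⟨_, n2, Or.inl (by linarith)⟩
      · exact ⟨_, n2, Or.inr (by linarith)⟩
    · rintro ⟨j, hj, hs⟩
      rcases t_cases hj with rfl | rfl
      · rcases hs with hs | hs
        · left; linarith
        · right; left; linarith
      · rcases hs with hs | hs
        · right; right; left; linarith
        · right; right; right; linarith
  show x ∈ (pzc G D L c).Y h ∪ h.invFun '' zc G D c ↔ _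
  rw [mem_union, e1]
  show _ ∨ x ∈ h.invFun '' D.ZE G c.1 ↔ _
  rw [hZ]
  constructor
  · rintro (h1 | h1)
    · exact ⟨h1.1, Or.inr h1.2⟩
    · exact ⟨⟨h1.1, h1.2.1⟩, Or.inl h1.2⟩
  · rintro ⟨h1, h2 | h2⟩
    · exact Or.inr ⟨h1.1, h2⟩
    · exact Or.inl ⟨h1, h2⟩

end Vale.Agent.P073.H341
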