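import Vale.Agent.P073.H341.PIn3B

/-!
# P073, H341: **[P-IN3]**, positions, levels and patterns after the exchange
-/

set_option linter.unusedSectionVars false

open Set Metric Topology Filter

namespace Vale.Agent.P073.H341

open _root_.P073 _root_.P073.TR _root_.P073.H579 _root_.P073.PA691
open _root_.P073.H805 (Plate HasPat Clean Reg pFam SameLev Crosses)
open _root_.P073.H341 (ZOk YZ PlateInZ PlatesOutZ TouchP hasPat_cleanP hasPat_injP exists_platesZ
  trP)
open _root_.P073.H880.RP (Dat)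
open Vale.Agent.P073.H238 (PFace meshFace mesh_sub)
open Vale.Agent.P073.H73 (Mesh)
open Vale.Agent.P073.St (V)
open Vale.Agent.P073.H471 (Rad Wid Boxes Near)
open Vale.Agent.P073.H267 (Geo)
open Vale.Agent.P073.H193 (Edges)
open Vale.Agent.P073.H805 (t1 t2 t1_ne t2_ne t1_ne_t2 t_cases near_of_PB isOpen_near oS_pos oS_p
  SideNear PB_mono PB_eq lvs mem_lvs not_two EdgeOk mFam mFam_mesh closure_relint)

variable {Ω Λ : Set V} {v : V} {K : BoxCx Λ v} {S : Rad K} {W : Wid K S} {B : Boxes W}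
  {G : Geo B} {M : Mesh Ω} {h h2 : ConHomeo Ω Λ} {D : Dat K M} {L : K.S → Fin 3 → Finset ℝ}
  {E : Edges M} {ι : Type} {F : ι → Set V}

/-- the set `A` has a pattern for the levels of `s` under the map `w` -/
def PatS (L : K.S → Fin 3 → Finset ℝ) (s : K.S) (w : V → V) (A : Set V) : Prop :=
  ∃ (T : Type) (_ : Finite T) (S : T → Set V) (col : T → Bool) (lev : T → ℝ),
    FacePat A (intrinsicFrontier ℝ A) w (fun l => (lvs L s l : Set ℝ)) S
      (fun α => bif col α then t2 (K.nrm s) else t1 (K.nrm s)) lev col ∧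
    ∀ α β, α ≠ β → (bif col α then t2 (K.nrm s) else t1 (K.nrm s)) =
      (bif col β then t2 (K.nrm s) else t1 (K.nrm s)) → Disjoint (S α) (S β)

theorem pz_lv (s : K.S) : (pz G D L s).lv = lvs L s := by
  funext l
  unfold Plate.lv lvs pz
  by_cases hl : l = K.nrm s
  · have h1 : l ≠ t1 (K.nrm s) := by rw [hl]; exact (t1_ne _).symm
    have h2 : l ≠ t2 (K.nrm s) := by rw [hl]; exact (t2_ne _).symm
    simp [hl, (t1_ne (K.nrm s)).symm, (t2_ne (K.nrm s)).symm]
  · rcases t_cases hl with rfl | rfl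
    · simp [t1_ne]
    · simp [t2_ne, (t1_ne_t2 (K.nrm s)).symm]

theorem patS_iff {s : K.S} {w : V → V} {A : Set V} :
    HasPat A w (pz G D L s) ↔ PatS L s w A := by
  unfold HasPat PatS
  rw [pz_lv]
  exact Iff.rfl

section

variable (H : RIn3 G E D h L F)
  (O : PlatesOutZ h h2 M.F (fun k => meshFace M k) F (pzc G D L) (zc G D) (univ : Set M.κ))

include O

/-- a point which is not fixed is in a box -/
theorem ne_box {x : V} (hx : x ∈ Ω) (hne : h2.toFun x ≠ h.toFun x) :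
    ∃ s ∈ D.S₀, h.toFun x ∈ interior (D.PE G s) := by
  by_contra hcon
  push Not at hcon
  refine hne (O.off x hx fun c => ?_)
  show h.toFun x ∉ interior (Icc (pz G D L c.1).lo (pz G D L c.1).hi)
  rw [pz_eq]
  exact hcon c.1 c.2

theorem off3 {x : V} (hx : x ∈ Ω) (hno : ∀ s ∈ D.S₀, h.toFun x ∉ interior (D.PE G s)) :
    h2.toFun x = h.toFun x := by
  by_contra hne
  obtain ⟨s, hs, h1⟩ := ne_box O hx hne
  exact hno s hs h1

theorem box3 {s : K.S} (hs : s ∈ D.S₀) {x : V} (hx : x ∈ Ω) :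
    h2.toFun x ∈ D.PE G s ↔ h.toFun x ∈ D.PE G s := by
  have h1 := O.box ⟨s, hs⟩ x hx
  simp only [pzc, mem_pz] at h1
  exact h1

include H

/-- interior points stay interior -/
theorem intbox3 {s : K.S} (hs : s ∈ D.S₀) {x : V} (hx : x ∈ Ω)
    (hi : h.toFun x ∈ interior (D.PE G s)) : h2.toFun x ∈ interior (D.PE G s) := by
  by_contra hno
  have h1 : h2.toFun x ∈ D.PE G s := (box3 O hs hx).2 (interior_subset hi)
  have hzΛ := h2.mapsTo hx
  have hx0 := h.mapsTo_inv hzΛ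
  have h6 : h.toFun (h.invFun (h2.toFun x)) = h2.toFun x := h.right_inv hzΛ
  have h7 : h2.toFun (h.invFun (h2.toFun x)) = h.toFun (h.invFun (h2.toFun x)) := by
    refine off3 O hx0 fun s' hs' hd => ?_
    rw [h6] at hd
    by_cases he : s' = s
    · subst he; exact hno hd
    · exact Set.disjoint_left.1 (pe_dis H.ht hs' hs he) (interior_subset hd) h1
  rw [h6] at h7
  have h8 := h2.injOn hx0 hx h7
  rw [h8] at h6
  rw [h6] at hi
  exact hno hi

/-- **position of the faces which meet the plate** -/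
theorem RIn3.near2 {s : K.S} {k : M.κ} (hk : D.PkS G h s k) {y : V} (hy : y ∈ M.F k) :
    h.toFun y ∈ G.PB (15 / 16) s ∧ h2.toFun y ∈ G.PB (15 / 16) s ∧
      |h2.toFun y (K.nrm s) - K.slo s (K.nrm s)| < B.τ s / 2 := by
  have h1 := H.near s k hk y hy
  refine ⟨h1, ?_⟩
  by_cases hne : h2.toFun y = h.toFun y
  · rw [hne]; exact ⟨h1, (H.hgt hk hy).2⟩
  · have hyΩ := mesh_sub M k hy
    obtain ⟨s', hs', h3⟩ := ne_box O hyΩ hne
    have e : s' = s := PB_eq (G := G) (by norm_num) (by norm_num)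
      (H.ht.pe_PB hs' (interior_subset h3)) h1
    subst e
    have h4 := intbox3 H O hs' hyΩ h3
    refine ⟨PB_mono (by norm_num) _ (H.ht.pe_PB hs' (interior_subset h4)), ?_⟩
    obtain ⟨-, h5, h6⟩ := mem_int_pe.1 h4
    have k1 := H.ht.le s' hs' true
    have k2 := H.ht.le s' hs' false
    rw [abs_lt]
    constructor <;> linarith

/-- **the levels which do not change** -/
theorem RIn3.lev {s : K.S} (hs : s ∈ D.S₀) {x : V} (hx : x ∈ Ω)
    (hxs : h.toFun x ∈ interior (D.PE G s) →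
      h.toFun x ∈ D.ZE G s ∨ Mg G s (5 / 4) (h.toFun x))
    (hxo : ∀ s' ∈ D.S₀, s' ≠ s → h.toFun x ∉ interior (D.PE G s')) {l : Fin 3} {t : ℝ}
    (ht : t ∈ lvs L s l) :
    (h2.toFun x l = t ↔ h.toFun x l = t) ∧ (h2.toFun x l < t ↔ h.toFun x l < t) ∧
      (t < h2.toFun x l ↔ t < h.toFun x l) := by
  refine O.lev ⟨s, hs⟩ x hx (fun hU => ?_) (fun d hd hU => ?_) l t ?_
  · have hU' := (mem_U_pz H.ht H.win hs).1 hU
    by_cases hi : h.toFun x ∈ interior (D.PE G s)
    · exact Or.inl ((mem_YZ H.ht H.win ⟨s, hs⟩).2 ⟨hU', hxs hi⟩)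
    · exact Or.inr ((mem_B_pz H.ht H.win hs).2 ⟨hx, hU'.2, hi⟩)
  · have hU' := (mem_U_pz H.ht H.win d.2).1 hU
    exact (mem_B_pz H.ht H.win d.2).2 ⟨hx, hU'.2, hxo d.1 d.2 fun he => hd (Subtype.ext he)⟩
  · show t ∈ (pz G D L s).lv l
    rw [pz_lv]; exact ht

/-- **sets which meet the box in the safe set keep their pattern** -/
theorem RIn3.keep {s : K.S} (hs : s ∈ D.S₀) {A : Set V} (hA : A ⊆ Ω)
    (hAs : ∀ x ∈ A, h.toFun x ∈ interior (D.PE G s) →
      h.toFun x ∈ D.ZE G s ∨ Mg G s (5 / 4) (h.toFun x))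
    (hAo : ∀ s' ∈ D.S₀, s' ≠ s → ∀ x ∈ A, h.toFun x ∉ interior (D.PE G s'))
    (hp : PatS L s h.toFun A) : PatS L s h2.toFun A := by
  rw [← patS_iff (G := G) (D := D)] at hp ⊢
  refine O.keep ⟨s, hs⟩ A hA ?_ ?_ hp
  · rintro x ⟨hxA, hU⟩
    have hU' := (mem_U_pz H.ht H.win hs).1 hU
    by_cases hi : h.toFun x ∈ interior (D.PE G s)
    · exact Or.inl ((mem_YZ H.ht H.win ⟨s, hs⟩).2 ⟨hU', hAs x hxA hi⟩)
    · exact Or.inr ((mem_B_pz H.ht H.win hs).2 ⟨hU'.1, hU'.2, hi⟩)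
  · rintro d hd x ⟨hxA, hU⟩
    have hU' := (mem_U_pz H.ht H.win d.2).1 hU
    exact (mem_B_pz H.ht H.win d.2).2 ⟨hU'.1, hU'.2,
      hAo d.1 d.2 (fun he => hd (Subtype.ext he)) x hxA⟩

omit O in
/-- faces inside a box, off the safe set in the relative interior -/
theorem RIn3.inU {s : K.S} (hs : s ∈ D.S₀) {k : M.κ} (h1 : ∀ x ∈ M.F k, h.toFun x ∈ D.PE G s)
    (h3 : ∀ x ∈ intrinsicInterior ℝ (M.F k), h.toFun x ∈ interior (D.PE G s)) :
    M.F k ⊆ (pzc G D L ⟨s, hs⟩).U h ∧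
      Disjoint (intrinsicInterior ℝ (M.F k)) ((pzc G D L ⟨s, hs⟩).B h) := by
  refine ⟨fun x hx => (mem_U_pz H.ht H.win hs).2 ⟨mesh_sub M k hx, h1 x hx⟩,
    Set.disjoint_left.2 fun x hx hB => ?_⟩
  exact ((mem_B_pz H.ht H.win hs).1 hB).2.2 (h3 x hx)

/-- **pattern of the faces inside a box**, off the safe set, or without circles and crossing
points -/
theorem RIn3.pat_in {s : K.S} (hs : s ∈ D.S₀) {k : M.κ} (h1 : ∀ x ∈ M.F k, h.toFun x ∈ D.PE G s)
    (h3 : ∀ x ∈ intrinsicInterior ℝ (M.F k), h.toFun x ∈ interior (D.PE G s))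
    (h4 : (∀ x ∈ intrinsicInterior ℝ (M.F k), h.toFun x ∉ D.ZE G s ∧
      ¬ Mg G s (5 / 4) (h.toFun x)) ∨ Clean h.toFun (pz G D L s) (M.F k)) :
    PatS L s h2.toFun (M.F k) := by
  rw [← patS_iff (G := G) (D := D)]
  obtain ⟨k1, k2⟩ := H.inU hs h1 h3
  refine O.inner ⟨s, hs⟩ k (mem_univ _) k1 k2 (Vale.Agent.P073.H244.conBall_face M k) ?_
  rcases h4 with h4 | h4
  · refine Or.inl (Set.disjoint_left.2 fun x hx hY => ?_)
    rcases ((mem_YZ H.ht H.win ⟨s, hs⟩).1 hY).2 with h5 | h5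
    · exact (h4 x hx).1 h5
    · exact (h4 x hx).2 h5
  · exact Or.inr h4

omit O in
/-- the pattern before the exchange, for faces without circles and crossing points -/
theorem RIn3.pat_clean (hΩ : IsOpen Ω) {s : K.S} (hs : s ∈ D.S₀) {k : M.κ}
    (hc : Clean h.toFun (pz G D L s) (M.F k)) : PatS L s h.toFun (M.F k) := by
  rw [← patS_iff (G := G) (D := D)]
  obtain ⟨g, hg⟩ := H.fam.face k
  exact hasPat_cleanP (F := pFam h F (pzc G D L)) hΩ h (t1_ne_t2 _) (meshFace M k)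
    (mesh_sub M k) ⟨Sum.inl g, hg⟩ (Vale.Agent.P073.H244.conBall_face M k)
    (fun y hy hya => H.reg1 s hs _ (t1_ne _) y (mesh_sub M k hy) hya)
    (fun y hy hya => H.reg1 s hs _ (t2_ne _) y (mesh_sub M k hy) hya) hc

omit O in
/-- the pattern before the exchange, for faces on which the two coordinates are injective -/
theorem RIn3.pat_inj (hΩ : IsOpen Ω) {s : K.S} (hs : s ∈ D.S₀) {k : M.κ}
    (hinj : ∀ x ∈ M.F k, ∀ y ∈ M.F k, h.toFun x (t1 (K.nrm s)) = h.toFun y (t1 (K.nrm s)) →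
      h.toFun x (t2 (K.nrm s)) = h.toFun y (t2 (K.nrm s)) → x = y) :
    PatS L s h.toFun (M.F k) := by
  rw [← patS_iff (G := G) (D := D)]
  obtain ⟨g, hg⟩ := H.fam.face k
  exact hasPat_injP (F := pFam h F (pzc G D L)) (P := pz G D L s) hΩ h (t1_ne_t2 _)
    (meshFace M k) (mesh_sub M k) ⟨Sum.inl g, hg⟩ (Vale.Agent.P073.H244.conBall_face M k)
    (fun y hy hya => H.reg1 s hs _ (t1_ne _) y (mesh_sub M k hy) hya)
    (fun y hy hya => H.reg1 s hs _ (t2_ne _) y (mesh_sub M k hy) hya)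
    (fun y hy hya hyb => H.reg2 s hs y (mesh_sub M k hy) hya hyb) hinj

/-- a face which meets the plate is off the other boxes -/
theorem RIn3.other {s : K.S} {k : M.κ} (hk : D.PkS G h s k) {s' : K.S} (hs' : s' ∈ D.S₀)
    (hne : s' ≠ s) {x : V} (hx : x ∈ M.F k) : h.toFun x ∉ D.PE G s' := fun hx' =>
  hne (PB_eq (G := G) (by norm_num) (by norm_num) (H.ht.pe_PB hs' hx') (H.near s k hk x hx))

/-- **the pattern of the peeled faces** -/
theorem RIn3.pat_of (hΩ : IsOpen Ω) {s : K.S} {k : M.κ} (hk : D.PkS G h s k) :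
    PatS L s h2.toFun (M.F k) := by
  have hs := hk.1
  have hp := Geo.p_pos (G := G) s
  by_cases ht : ∀ x ∈ M.F k, ¬ Mg G s (5 / 4) (h.toFun x)
  · have hop : ∀ x ∈ M.F k, ∀ l, l ≠ K.nrm s → K.slo s l + G.p s < h.toFun x l ∧
        h.toFun x l < K.shi s l - G.p s := by
      intro x hx l hl
      have h1 := ht x hx
      unfold Mg at h1
      push Not at h1
      have h2 := h1 l hl
      constructor <;> linarith [h2.1, h2.2]
    refine H.pat_in O hs (fun x hx => ⟨fun l hl => ?_, (H.hgt hk hx).1⟩)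
      (fun x hx => mem_int_pe.2 ⟨hop x (intrinsicInterior_subset hx), (H.hgt_int hk hx).1⟩)
      (Or.inl fun x hx => ⟨(H.hgt_int hk hx).2, ht x (intrinsicInterior_subset hx)⟩)
    have := hop x hx l hl
    exact ⟨this.1.le, this.2.le⟩
  · push Not at ht
    obtain ⟨y, hy, j, hj, hyj⟩ := ht
    -- the face is near the side wall
    have hcoord : ∀ x ∈ M.F k, |h.toFun y j - h.toFun x j| ≤ G.p s / 16 := fun x hx =>
      (norm_le_pi_norm (h.toFun y - h.toFun x) j).trans (H.osc s k hk y hy x hx)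
    obtain ⟨β, hβ⟩ : ∃ β, ∀ x ∈ M.F k, SideNear G h s j β (3 / 2) x := by
      rcases hyj with h1 | h1
      · refine ⟨false, fun x hx => ?_⟩
        have h2 := abs_le.1 (hcoord x hx)
        simp only [SideNear, Bool.false_eq_true, if_false]
        linarith
      · refine ⟨true, fun x hx => ?_⟩
        have h2 := abs_le.1 (hcoord x hx)
        simp only [SideNear, if_true]
        linarith
    have hcl := H.clean hk hj hβ
    by_cases hin : ∀ x ∈ M.F k, ∀ l, l ≠ K.nrm s → K.slo s l + G.p s < h.toFun x l ∧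
        h.toFun x l < K.shi s l - G.p s
    · refine H.pat_in O hs (fun x hx => ⟨fun l hl => ?_, (H.hgt hk hx).1⟩)
        (fun x hx => mem_int_pe.2 ⟨hin x (intrinsicInterior_subset hx), (H.hgt_int hk hx).1⟩)
        (Or.inr hcl)
      have := hin x hx l hl
      exact ⟨this.1.le, this.2.le⟩
    · push Not at hin
      obtain ⟨z, hz, l, hl, hzl⟩ := hin
      refine H.keep O hs (mesh_sub M k) (fun x hx _ => Or.inr ⟨l, hl, ?_⟩)
        (fun s' hs' hne x hx hi => H.other O hk hs' hne hx (interior_subset hi))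
        (H.pat_clean hΩ hs hcl)
      have h2 := abs_le.1 ((norm_le_pi_norm (h.toFun z - h.toFun x) l).trans
        (H.osc s k hk z hz x hx))
      simp only [Pi.sub_apply] at h2
      by_cases h1 : K.slo s l + G.p s < h.toFun z l
      · right
        linarith [hzl h1]
      · left
        linarith

end

end Vale.Agent.P073.H341
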