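import Vale.Agent.P073.H341.PIn3D
import Vale.Agent.P073.H669.PLevH
import Vale.Agent.P073.H805.RinT

/-!
# P073, H341: **[P-IN3]**, the input `RIn3` from the levels `PLg` (H669)

`pxFam h F G D`: the family `F` with the preimages of the boxes `D.PE G s`; `rin3_of_plg`.
-/

set_option linter.unusedSectionVars false

open Set Metric Topology Filter

namespace Vale.Agent.P073.H341

open _root_.P073 _root_.P073.TR _root_.P073.H579 _root_.P073.PA691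
open _root_.P073.H805 (Plate HasPat Clean Reg pFam SameLev Crosses)
open _root_.P073.H880.RP (Dat ROut3)
open _root_.P073.H345 (tg)
open Vale.Agent.P073.H238 (PFace meshFace mesh_sub)
open Vale.Agent.P073.H73 (Mesh)
open Vale.Agent.P073.St (V)
open Vale.Agent.P073.H471 (Rad Wid Boxes Near)
open Vale.Agent.P073.H267 (Geo TBx)
open Vale.Agent.P073.H193 (Edges)
open Vale.Agent.P073.H669 (PLg boxFam boxFam_cone boxFam_lf sumFam_cone sumFam_lf)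
open Vale.Agent.P073.H805 (t1 t2 t1_ne t2_ne t1_ne_t2 SideNear RelB wall_all conn_circle)

variable {Ω Λ : Set V} {v : V} {K : BoxCx Λ v} {S : Rad K} {W : Wid K S} {B : Boxes W}
  {G : Geo B} {M : Mesh Ω} {h : ConHomeo Ω Λ} {D : Dat K M} {L : K.S → Fin 3 → Finset ℝ}
  {E : Edges M} {ι : Type} {F : ι → Set V}

/-- lower corners of the boxes -/
noncomputable def plo3 (G : Geo B) (D : Dat K M) (c : {s : K.S // s ∈ D.S₀}) : V :=
  (pz G D (fun _ _ => ∅) c.1).lo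

/-- upper corners of the boxes -/
noncomputable def phi3 (G : Geo B) (D : Dat K M) (c : {s : K.S // s ∈ D.S₀}) : V :=
  (pz G D (fun _ _ => ∅) c.1).hi

/-- **the family with the preimages of the boxes and of their boundaries** -/
noncomputable def pxFam (h : ConHomeo Ω Λ) (F : ι → Set V) (G : Geo B) (D : Dat K M) :
    ι ⊕ ({s : K.S // s ∈ D.S₀} × Bool) → Set V :=
  Sum.elim F (boxFam h (plo3 G D) (phi3 G D))

theorem winS_empty : WinS G D (fun _ _ => ∅) := fun _ _ _ _ _ hx => absurd hx (Finset.notMem_empty _)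

theorem pxFam_cone (H : HtOk G D) (hF : FamOk M F) :
    ∀ t, ∀ x ∈ Ω, LocConeAt (pxFam h F G D t) x :=
  sumFam_cone hF.cone fun g x _ => boxFam_cone (lo := plo3 G D) (hi := phi3 G D) h
    (fun c j => (pz_ok (Λ := Λ) H winS_empty c.2).lt j)
    (fun c => (pz_ok H winS_empty c.2).sub) g x

theorem pxFam_lf (hΩ : IsOpen Ω) (H : HtOk G D) (hF : FamOk M F) :
    ∀ x ∈ Ω, ∃ U ∈ 𝓝 x, {t | (pxFam h F G D t ∩ U).Nonempty}.Finite :=
  sumFam_lf hF.fin (boxFam_lf (lo := plo3 G D) (hi := phi3 G D) hΩ h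
    (fun c => (pz_ok H winS_empty c.2).sub) (pz_lf (L := fun _ _ => ∅) H))

/-- `pxFam` is the family of the plates -/
theorem pxFam_eq (h : ConHomeo Ω Λ) (F : ι → Set V) (G : Geo B) (D : Dat K M)
    (L : K.S → Fin 3 → Finset ℝ) : pFam h F (pzc G D L) = pxFam h F G D := by
  funext t
  rcases t with t | ⟨c, b⟩
  · rfl
  · cases b <;> rfl

/-- **the circles of the faces near a side wall**, from (T8) -/
theorem noc_of (win : WinS G D L)
    (hcirc : ∀ s ∈ D.S₀, ∀ l, l ≠ K.nrm s → ∀ t ∈ L s l, ∀ b : TBx K, RelB s l b →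
      ∀ k ∈ D.DF, ∀ σ : Set V, IsCircle σ → σ ⊆ M.F k →
      (∀ x ∈ σ, h.toFun x ∈ G.TB true b ∧ h.toFun x b.ax = t) → False)
    (hτ : ∀ s k, D.PkS G h s k → ∀ x ∈ M.F k,
      |h.toFun x (K.nrm s) - K.slo s (K.nrm s)| ≤ 1 / 2 * B.τ s) :
    ∀ s k, D.PkS G h s k → ∀ (j l : Fin 3) (β : Bool),
      j ≠ K.nrm s → l ≠ K.nrm s → j ≠ l →
      (∀ x ∈ M.F k, h.toFun x ∈ G.PB (15 / 16) s ∧ SideNear G h s j β (3 / 2) x) →
      ∀ a ∈ L s l, ∀ σ : Set V, IsCircle σ → σ ⊆ M.F k → ¬ ∀ x ∈ σ, h.toFun x l = a := by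
  intro s k hk j l β hj hl hjl hA t htL σ hσ hσk hall
  have hp := Geo.p_pos (G := G) s
  obtain ⟨hw1, hw2⟩ := win s hk.1 l hl t htL
  have hW : ∀ x ∈ σ, G.Wall s j l β (h.toFun x) := by
    intro x hx
    obtain ⟨h2, h3⟩ := hA x (hσk hx)
    obtain ⟨h4, -⟩ := Geo.mem_PB.1 h2
    have h5 := h4 j hj
    refine ⟨hj, hl, hjl, hτ s k hk x (hσk hx), ?_, ?_, ?_⟩
    · cases β
      · simp only [SideNear, Bool.false_eq_true, if_false] at h3 ⊢
        constructor <;> linarith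
      · simp only [SideNear, if_true] at h3 ⊢
        constructor <;> linarith
    · rw [hall x hx]; exact hw1
    · rw [hall x hx]; exact hw2
  obtain ⟨-, x0, hx0⟩ := conn_circle hσ
  obtain ⟨b, hb1, hb2, hb3⟩ := wall_all (hW x0 hx0)
  refine hcirc s hk.1 l hl t htL b hb1 k hk.2.1 σ hσ hσk fun x hx => ⟨?_, ?_⟩
  · exact hb3 _ (hW x hx) (by rw [hall x hx, hall x0 hx0])
  · rw [hb2]; exact hall x hx

/-- **[RIN3]**: the input of the exchange from levels in the windows, regular for `pxFam`;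
`hcirc` is (T8) of round T; `hcov`: at a protected side everything above the box is in a protected
cell -/
theorem rin3_of (hwin : WinS G D L)
    (hr1 : ∀ s ∈ D.S₀, ∀ l, l ≠ K.nrm s → ∀ x ∈ Ω, h.toFun x l ∈ L s l →
      Reg (fun y => h.toFun y l) (pxFam h F G D) x)
    (hr2 : ∀ s ∈ D.S₀, ∀ x ∈ Ω, h.toFun x (t1 (K.nrm s)) ∈ L s (t1 (K.nrm s)) →
      h.toFun x (t2 (K.nrm s)) ∈ L s (t2 (K.nrm s)) →
      Reg (fun y => (h.toFun y (t1 (K.nrm s)), h.toFun y (t2 (K.nrm s)))) (pxFam h F G D) x)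
    (hcirc : ∀ s ∈ D.S₀, ∀ l, l ≠ K.nrm s → ∀ t ∈ L s l, ∀ b : TBx K, RelB s l b →
      ∀ k ∈ D.DF, ∀ σ : Set V, IsCircle σ → σ ⊆ M.F k →
      (∀ x ∈ σ, h.toFun x ∈ G.TB true b ∧ h.toFun x b.ax = t) → False)
    (hht : HtOk G D)
    (hprot : ∀ i ∈ D.Pr, ∀ x ∈ M.Q i, ∀ s ∈ D.S₀, h.toFun x ∉ interior (D.PE G s))
    (hnear : ∀ s k, D.PkS G h s k → ∀ x ∈ M.F k, h.toFun x ∈ G.PB (15 / 16) s)
    (hosc : ∀ s k, D.PkS G h s k → ∀ x ∈ M.F k, ∀ y ∈ M.F k,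
      ‖h.toFun x - h.toFun y‖ ≤ G.p s / 16)
    (hτ : ∀ s k, D.PkS G h s k → ∀ x ∈ M.F k,
      |h.toFun x (K.nrm s) - K.slo s (K.nrm s)| ≤ 1 / 2 * B.τ s)
    (hlow : ∀ s k, D.PkS G h s k → ∀ β, ¬ D.sd s β → ∀ x ∈ M.F k,
      ¬ Abv K s β (D.ht s β / 2) (h.toFun x))
    (hcov : ∀ s ∈ D.S₀, ∀ β, D.sd s β → ∀ x ∈ Ω, h.toFun x ∈ G.PB (15 / 16) s →
      Abv K s β (D.ht s β) (h.toFun x) → ∃ i ∈ D.Pr, x ∈ M.Q i)
    (hfam : FamOk M F) (hseg : ∀ e, ∃ g, F g = E.seg e) :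
    RIn3 G E D h L F where
  ht := hht
  win := hwin
  prot := hprot
  near := hnear
  osc := hosc
  low := hlow
  lowP := lowP_of_cov hcov hnear
  noc := noc_of hwin hcirc hτ
  fam := hfam
  seg := hseg
  reg1 := by
    intro s hs l hl x hx h1
    rw [pxFam_eq]
    exact hr1 s hs l hl x hx h1
  reg2 := by
    intro s hs x hx h1 h2
    rw [pxFam_eq]
    exact hr2 s hs x hx h1 h2

/-- **[RIN3]** from the levels of H669 -/
theorem rin3_of_plg {T : K.S → Bool → Finset (ℝ × ℝ)} {η : ℝ} {C : Set ℝ}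
    {ξ : Type*} {sa sb : ξ → V} {εE : ξ → ℝ} {μ δ : K.S → ℝ}
    (L : PLg G h T η (pxFam h F G D) C sa sb εE μ δ)
    (hcirc : ∀ s ∈ D.S₀, ∀ l, l ≠ K.nrm s → ∀ t ∈ L.lev.lv s l, ∀ b : TBx K, RelB s l b →
      ∀ k ∈ D.DF, ∀ σ : Set V, IsCircle σ → σ ⊆ M.F k →
      (∀ x ∈ σ, h.toFun x ∈ G.TB true b ∧ h.toFun x b.ax = t) → False)
    (hht : HtOk G D)
    (hprot : ∀ i ∈ D.Pr, ∀ x ∈ M.Q i, ∀ s ∈ D.S₀, h.toFun x ∉ interior (D.PE G s))
    (hnear : ∀ s k, D.PkS G h s k → ∀ x ∈ M.F k, h.toFun x ∈ G.PB (15 / 16) s)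
    (hosc : ∀ s k, D.PkS G h s k → ∀ x ∈ M.F k, ∀ y ∈ M.F k,
      ‖h.toFun x - h.toFun y‖ ≤ G.p s / 16)
    (hτ : ∀ s k, D.PkS G h s k → ∀ x ∈ M.F k,
      |h.toFun x (K.nrm s) - K.slo s (K.nrm s)| ≤ 1 / 2 * B.τ s)
    (hlow : ∀ s k, D.PkS G h s k → ∀ β, ¬ D.sd s β → ∀ x ∈ M.F k,
      ¬ Abv K s β (D.ht s β / 2) (h.toFun x))
    (hcov : ∀ s ∈ D.S₀, ∀ β, D.sd s β → ∀ x ∈ Ω, h.toFun x ∈ G.PB (15 / 16) s →
      Abv K s β (D.ht s β) (h.toFun x) → ∃ i ∈ D.Pr, x ∈ M.Q i)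
    (hfam : FamOk M F) (hseg : ∀ e, ∃ g, F g = E.seg e) :
    RIn3 G E D h L.lev.lv F :=
  rin3_of (fun s _ l hl => L.win s l hl) (fun _ _ _ _ _ hx hl => L.regF hx hl)
    (fun _ _ _ hx h1 h2 => L.regF2 (t1_ne_t2 _) hx h1 h2) hcirc hht hprot hnear hosc hτ hlow hcov
    hfam hseg

end Vale.Agent.P073.H341
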