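import Vale.Agent.P073.H919.PathPat

/-!
# P073, H341: **[PATH-P]**, part 1: paths in a face with a pattern

`bd_path`: two points of the boundary circle of a disc are joined in it by an injective curve;
`LabPath.of_bd`; **`FacePat.labPath`**: any two points of a convex face with a pattern are joined
in the face by a curve along which the labels vary by at most `4 + 4 N`, `N` the number of the
level points on the boundary.
-/

open Set Metric Topology Filter
open scoped ENNReal Real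

set_option linter.unusedSectionVars false

namespace P073.H341

open P073 P073.TR P073.SCH P073.H579 P073.H919

/-! ### the unit circle -/

/-- direction `θ`, normalised for the sup norm -/
noncomputable def cir (θ : ℝ) : Fin 2 → ℝ :=
  (‖(![Real.cos θ, Real.sin θ] : Fin 2 → ℝ)‖)⁻¹ • ![Real.cos θ, Real.sin θ]

theorem cs_ne (θ : ℝ) : (![Real.cos θ, Real.sin θ] : Fin 2 → ℝ) ≠ 0 := by
  intro h0
  have h1 : Real.cos θ = 0 := by simpa using congrFun h0 0
  have h2 : Real.sin θ = 0 := by simpa using congrFun h0 1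
  have h3 := Real.cos_sq_add_sin_sq θ
  rw [h1, h2] at h3
  norm_num at h3

theorem cir_mem (θ : ℝ) : cir θ ∈ sphere (0 : Fin 2 → ℝ) 1 := by
  rw [mem_sphere_zero_iff_norm]
  unfold cir
  rw [norm_smul, norm_inv, norm_norm, inv_mul_cancel₀ (norm_ne_zero_iff.2 (cs_ne θ))]

theorem continuous_cir : Continuous cir := by
  have h1 : Continuous fun θ : ℝ => (![Real.cos θ, Real.sin θ] : Fin 2 → ℝ) := by
    refine continuous_pi fun i => ?_
    fin_cases i
    · exact Real.continuous_cos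
    · exact Real.continuous_sin
  exact (h1.norm.inv₀ fun θ => norm_ne_zero_iff.2 (cs_ne θ)).smul h1

theorem cir_inj {θ θ' : ℝ} (hd : |θ - θ'| < 2 * π) (h : cir θ = cir θ') : θ = θ' := by
  unfold cir at h
  set a := (‖(![Real.cos θ, Real.sin θ] : Fin 2 → ℝ)‖)⁻¹ with ha
  set b := (‖(![Real.cos θ', Real.sin θ'] : Fin 2 → ℝ)‖)⁻¹ with hb
  have ha0 : 0 < a := inv_pos.2 (norm_pos_iff.2 (cs_ne θ))
  have hb0 : 0 < b := inv_pos.2 (norm_pos_iff.2 (cs_ne θ'))
  have h1 : a * Real.cos θ = b * Real.cos θ' := by simpa using congrFun h 0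
  have h2 : a * Real.sin θ = b * Real.sin θ' := by simpa using congrFun h 1
  have hab : a = b := by
    have e1 : a ^ 2 = b ^ 2 := by
      have k1 := Real.cos_sq_add_sin_sq θ
      have k2 := Real.cos_sq_add_sin_sq θ'
      calc a ^ 2 = (a * Real.cos θ) ^ 2 + (a * Real.sin θ) ^ 2 := by
            rw [mul_pow, mul_pow, ← mul_add, k1, mul_one]
        _ = (b * Real.cos θ') ^ 2 + (b * Real.sin θ') ^ 2 := by rw [h1, h2]
        _ = b ^ 2 := by rw [mul_pow, mul_pow, ← mul_add, k2, mul_one]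
    exact (pow_left_inj₀ ha0.le hb0.le two_ne_zero).1 e1
  rw [hab] at h1 h2
  have hc : Real.cos θ = Real.cos θ' := mul_left_cancel₀ hb0.ne' h1
  have hs : Real.sin θ = Real.sin θ' := mul_left_cancel₀ hb0.ne' h2
  have h3 : (θ : Real.Angle) = θ' := Real.Angle.cos_sin_inj hc hs
  obtain ⟨k, hk⟩ := Real.Angle.angle_eq_iff_two_pi_dvd_sub.1 h3
  rw [hk, abs_mul, abs_of_pos Real.two_pi_pos] at hd
  have hk1 : |(k : ℝ)| < 1 := by
    have := Real.two_pi_pos
    nlinarith [abs_nonneg (k : ℝ)]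
  have hk0 : k = 0 := by
    rw [← Int.cast_abs] at hk1
    exact Int.abs_lt_one_iff.1 (by exact_mod_cast hk1)
  rw [hk0] at hk
  simp only [Int.cast_zero, mul_zero] at hk
  linarith

theorem exists_cir {p : Fin 2 → ℝ} (hp : p ∈ sphere (0 : Fin 2 → ℝ) 1) :
    ∃ θ, -π < θ ∧ θ ≤ π ∧ cir θ = p := by
  have hp1 : ‖p‖ = 1 := mem_sphere_zero_iff_norm.1 hp
  set z : ℂ := ⟨p 0, p 1⟩ with hz
  have hz0 : z ≠ 0 := by
    intro h0
    have h1 : p 0 = 0 := congrArg Complex.re h0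
    have h2 : p 1 = 0 := congrArg Complex.im h0
    have h3 : p = 0 := by
      funext i
      fin_cases i
      · exact h1
      · exact h2
    rw [h3, norm_zero] at hp1
    exact zero_ne_one hp1
  have hzp : 0 < ‖z‖ := norm_pos_iff.2 hz0
  have hcs : (![Real.cos z.arg, Real.sin z.arg] : Fin 2 → ℝ) = ‖z‖⁻¹ • p := by
    funext i
    fin_cases i
    · show Real.cos z.arg = ‖z‖⁻¹ * p 0
      rw [Complex.cos_arg hz0, div_eq_inv_mul]
    · show Real.sin z.arg = ‖z‖⁻¹ * p 1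
      rw [Complex.sin_arg, div_eq_inv_mul]
  refine ⟨z.arg, Complex.neg_pi_lt_arg z, Complex.arg_le_pi z, ?_⟩
  unfold cir
  rw [hcs, norm_smul, hp1, mul_one, norm_inv, norm_norm, inv_inv, smul_smul,
    mul_inv_cancel₀ hzp.ne', one_smul]

variable {E : Type*} [NormedAddCommGroup E] [NormedSpace ℝ E]

/-- **two points of a circle are joined in it by an injective curve** -/
theorem bd_path {B : Set E} (hB : ConSphere 1 B) {p q : E} (hp : p ∈ B) (hq : q ∈ B)
    (hpq : p ≠ q) : ∃ γ : ℝ → E, ContinuousOn γ (Icc 0 1) ∧ γ 0 = p ∧ γ 1 = q ∧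
      MapsTo γ (Icc 0 1) B ∧ InjOn γ (Icc 0 1) := by
  obtain ⟨φ⟩ := hB
  obtain ⟨θ₁, a1, a2, a3⟩ := exists_cir (φ.mapsTo hp)
  obtain ⟨θ₂, b1, b2, b3⟩ := exists_cir (φ.mapsTo hq)
  have hne : θ₁ ≠ θ₂ := fun h => hpq (φ.injOn hp hq (by rw [← a3, ← b3, h]))
  have hd : |θ₂ - θ₁| < 2 * π := by rw [abs_lt]; constructor <;> linarith
  have hc : Continuous fun t : ℝ => cir (θ₁ + t * (θ₂ - θ₁)) := continuous_cir.comp (by fun_prop)
  refine ⟨fun t => φ.invFun (cir (θ₁ + t * (θ₂ - θ₁))), ?_, ?_, ?_, ?_, ?_⟩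
  · exact φ.cont_inv.comp hc.continuousOn fun t _ => cir_mem _
  · show φ.invFun (cir (θ₁ + 0 * (θ₂ - θ₁))) = p
    rw [zero_mul, add_zero, a3, φ.left_inv hp]
  · show φ.invFun (cir (θ₁ + 1 * (θ₂ - θ₁))) = q
    rw [one_mul, add_sub_cancel, b3, φ.left_inv hq]
  · exact fun t _ => φ.mapsTo_inv (cir_mem _)
  · intro s hs t ht hst
    have h1 : cir (θ₁ + s * (θ₂ - θ₁)) = cir (θ₁ + t * (θ₂ - θ₁)) := by
      have h2 := congrArg φ.toFun hst
      simp only at h2
      rwa [φ.right_inv (cir_mem _), φ.right_inv (cir_mem _)] at h2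
    have h3 := cir_inj (by
      have e : θ₁ + s * (θ₂ - θ₁) - (θ₁ + t * (θ₂ - θ₁)) = (s - t) * (θ₂ - θ₁) := by ring
      rw [e, abs_mul]
      have h4 : |s - t| ≤ 1 := by rw [abs_le]; constructor <;> linarith [hs.1, hs.2, ht.1, ht.2]
      calc |s - t| * |θ₂ - θ₁| ≤ 1 * |θ₂ - θ₁| :=
            mul_le_mul_of_nonneg_right h4 (abs_nonneg _)
        _ < 2 * π := by rw [one_mul]; exact hd) h1
    have h4 : (s - t) * (θ₂ - θ₁) = 0 := by linarith
    rcases mul_eq_zero.1 h4 with h5 | h5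
    · linarith
    · exact absurd (by linarith : θ₁ = θ₂) hne

variable {κ : Type*} [Fintype κ] {P : κ → Finset ℝ} {h : E → κ → ℝ} {X : Set E} {n : ℝ≥0∞}

/-- walk along the boundary circle -/
theorem labPath_of_bd {B : Set E} (hB : ConSphere 1 B) (hBX : B ⊆ X)
    (hh : ∀ l, ContinuousOn (fun x => h x l) X)
    (hf : ∀ l, {w | w ∈ B ∧ h w l ∈ P l}.Finite) {N : ℕ}
    (hN : ∑ l, {w | w ∈ B ∧ h w l ∈ P l}.ncard ≤ N) {p q : E} (hp : p ∈ B) (hq : q ∈ B) :
    LabPath P h X (2 * N : ℕ) p q := by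
  classical
  by_cases hpq : p = q
  · subst hpq
    exact (LabPath.refl (hBX hp)).mono subset_rfl zero_le
  obtain ⟨γ, h1, h2, h3, h4, h5⟩ := bd_path hB hp hq hpq
  have hfin : ∀ l, {t : ℝ | t ∈ Icc (0 : ℝ) 1 ∧ h (γ t) l ∈ P l}.Finite := fun l => by
    refine Set.Finite.of_finite_image ((hf l).subset ?_) (h5.mono fun t ht => ht.1)
    rintro _ ⟨t, ht, rfl⟩
    exact ⟨h4 ht.1, ht.2⟩
  have h6 := LabPath.of_times (P := P) (h := h) (X := X) (N := N) zero_le_one h1
    (h4.mono_right hBX) hh (fun l => (hfin l).toFinset)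
    (fun l t ht k1 => (hfin l).mem_toFinset.2 ⟨ht, k1⟩)
    (le_trans (Finset.sum_le_sum fun l _ => ?_) hN)
  · rwa [h2, h3] at h6
  · rw [← Set.ncard_eq_toFinset_card _ (hfin l)]
    exact Set.ncard_le_ncard_of_injOn γ (fun t ht => ⟨h4 ht.1, ht.2⟩)
      (h5.mono fun t ht => ht.1) (hf l)

variable {C B : Set E} {K : Type*} [Finite K] {S : K → Set E} {cd : K → κ} {lev : K → ℝ}
  {col : K → Bool}

/-- the level points on the boundary, coordinate by coordinate -/
theorem sum_ncard_bd (H : FacePat C B h (fun l => (P l : Set ℝ)) S cd lev col) :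
    (∀ l, {x | x ∈ B ∧ h x l ∈ P l}.Finite) ∧
      ∑ l, {x | x ∈ B ∧ h x l ∈ P l}.ncard = {x | x ∈ B ∧ ∃ l, h x l ∈ P l}.ncard := by
  classical
  obtain ⟨hfin, -⟩ := ncard_bd H
  have hBC : B ⊆ C := H.pat.hC.1
  have hf : ∀ l, {x | x ∈ B ∧ h x l ∈ P l}.Finite := fun l =>
    hfin.subset fun x hx => ⟨hx.1, l, hx.2⟩
  refine ⟨hf, ?_⟩
  have hdis : ∀ l l', l ≠ l' → ∀ x ∈ B, h x l ∈ P l → h x l' ∉ P l' := by
    intro l l' hne x hx hl hl'
    obtain ⟨α, hα, -, hα2⟩ := exists_arc H (hBC hx) hl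
    obtain ⟨β, hβ, -, hβ2⟩ := exists_arc H (hBC hx) hl'
    have hαβ : α ≠ β := fun he => hne (by rw [← hα, ← hβ, he])
    exact Set.disjoint_left.1 (H.pat.off α β hαβ) ⟨hα2, hβ2⟩ hx
  have hU : {x | x ∈ B ∧ ∃ l, h x l ∈ P l} =
      ↑((Finset.univ : Finset κ).biUnion fun l => (hf l).toFinset) := by
    ext x
    simp only [Finset.coe_biUnion, mem_iUnion, Finset.mem_coe, Finite.mem_toFinset, mem_ofPred_eq,
      Finset.mem_univ, exists_prop, true_and]
    constructor
    · rintro ⟨h1, l, h2⟩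
      exact ⟨l, h1, h2⟩
    · rintro ⟨l, h1, h2⟩
      exact ⟨h1, l, h2⟩
  rw [hU, Set.ncard_coe_finset, Finset.card_biUnion]
  · exact Finset.sum_congr rfl fun l _ => Set.ncard_eq_toFinset_card _ (hf l)
  · intro l _ l' _ hne
    rw [Function.onFun, Finset.disjoint_left]
    intro x hx hx'
    rw [(hf l).mem_toFinset] at hx
    rw [(hf l').mem_toFinset] at hx'
    exact hdis l l' hne x hx.1 hx.2 hx'.2

/-- **[PATH-P]: any two points of a convex face with a pattern are joined in the face** by a curve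
along which the labels vary by at most `4 + 4 N`, `N` the number of level points on the boundary -/
theorem labPath_of_pat (H : FacePat C B h (fun l => (P l : Set ℝ)) S cd lev col)
    (hconv : Convex ℝ C) (hh : ∀ l, ContinuousOn (fun x => h x l) C) {x y : E} (hx : x ∈ C)
    (hy : y ∈ C) :
    LabPath P h C (4 + 4 * {x | x ∈ B ∧ ∃ l, h x l ∈ P l}.ncard : ℕ) x y := by
  obtain ⟨p, hp, h1⟩ := path_of_pat' H hconv hh hx
  obtain ⟨q, hq, h2⟩ := path_of_pat' H hconv hh hy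
  obtain ⟨hf, hs⟩ := sum_ncard_bd H
  have h3 := labPath_of_bd (P := P) (h := h) H.pat.hC.conSphere H.pat.hC.1 hh hf hs.le hp hq
  refine ((h1.trans h3).trans h2.symm).mono subset_rfl ?_
  rw [← Nat.cast_add, ← Nat.cast_add]
  exact Nat.cast_le.2 (by omega)

/-- the same as a bound between two points of the boundary -/
theorem labPath_bd (H : FacePat C B h (fun l => (P l : Set ℝ)) S cd lev col)
    (hh : ∀ l, ContinuousOn (fun x => h x l) C) {x y : E} (hx : x ∈ B) (hy : y ∈ B) :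
    LabPath P h C (2 * {x | x ∈ B ∧ ∃ l, h x l ∈ P l}.ncard : ℕ) x y := by
  obtain ⟨hf, hs⟩ := sum_ncard_bd H
  exact labPath_of_bd (P := P) (h := h) H.pat.hC.conSphere H.pat.hC.1 hh hf hs.le hx hy

end P073.H341
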