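import Vale.Agent.P073.H341.PL1
import Vale.Agent.P073.H341.PIn3D

/-!
# P073, H341: **[PATH-P]**, part 2: the faces in the boxes of the exchange

`bd_count`: the level points of `h2` on the boundary of a face are at most the level points of `h1`
on its edges; **`labPath_face`**: two points of a face with a pattern (`ROut3.pat`, `ROutZ.patIn`)
are joined in the face by a curve along which the labels of `h2` vary by at most `4 + 4 N`, `N` the
number of the level points of `h1` on the edges of the face.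
-/

set_option linter.unusedSectionVars false

open Set Metric Topology Filter
open scoped ENNReal

namespace Vale.Agent.P073.H341

open _root_.P073 _root_.P073.TR _root_.P073.H579 _root_.P073.PA691
open _root_.P073.H919 (lab LabPath)
open _root_.P073.H880.RP (Dat ROut3)
open Vale.Agent.P073.H73 (Mesh)
open Vale.Agent.P073.St (V)
open Vale.Agent.P073.H471 (Rad Wid Boxes Near)
open Vale.Agent.P073.H267 (Geo)
open Vale.Agent.P073.H193 (Edges pgn_of_fat mesh_sub)
open Vale.Agent.P073.H805 (t1 t2 lvs mem_lvs EdgeOk)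

variable {Ω Λ : Set V} {v : V} {K : BoxCx Λ v} {S : Rad K} {W : Wid K S} {B : Boxes W}
  {G : Geo B} {M : Mesh Ω} {h1 h2 : ConHomeo Ω Λ} {D : Dat K M} {L : K.S → Fin 3 → Finset ℝ}
  {E : Edges M} {ι : Type} {F : ι → Set V}

/-- level points on a set -/
def lpt (L : K.S → Fin 3 → Finset ℝ) (s : K.S) (w : V → V) (A : Set V) : Set V :=
  {x | x ∈ A ∧ ∃ l, w x l ∈ lvs L s l}

/-- the number of the level points of `h1` on the edges of the face `k` -/
noncomputable def nE (E : Edges M) (L : K.S → Fin 3 → Finset ℝ) (w : V → V) (s : K.S)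
    (k : M.κ) : ℕ := ∑ e ∈ (E.fin_face k).toFinset, (lpt L s w (E.seg e)).ncard

/-- **the level points on the boundary of a face** -/
theorem bd_count (R : ROut3 G E D h1 h2 L F) (hseg : ∀ e, ∃ g, F g = E.seg e) {s : K.S}
    (hs : s ∈ D.S₀) {k : M.κ}
    (hno : ∀ s' ∈ D.S₀, s' ≠ s → ∀ x ∈ M.F k, h1.toFun x ∉ D.PE G s') :
    {x | x ∈ intrinsicFrontier ℝ (M.F k) ∧ ∃ l, h2.toFun x l ∈ lvs L s l}.ncard ≤
      nE E L h1.toFun s k := by
  classical
  have key : ∀ e, E.seg e ⊆ M.F k → (lpt L s h2.toFun (E.seg e)).Finite ∧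
      (lpt L s h2.toFun (E.seg e)).ncard ≤ (lpt L s h1.toFun (E.seg e)).ncard := by
    intro e he
    obtain ⟨g, hg⟩ := hseg e
    obtain ⟨-, k1, -, k3⟩ := R.cnt g ⟨E.a e, E.b e, hg⟩ (by rw [hg]; exact E.seg_sub_Ω e) s hs
      (fun s' hs' hne x hx => by
        rw [hg] at hx
        exact hno s' hs' hne x (he hx))
    rw [hg] at k1 k3
    exact ⟨k1, k3⟩
  have hsub : {x | x ∈ intrinsicFrontier ℝ (M.F k) ∧ ∃ l, h2.toFun x l ∈ lvs L s l} ⊆
      ⋃ e ∈ (E.fin_face k).toFinset, lpt L s h2.toFun (E.seg e) := by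
    rintro x ⟨hx, hl⟩
    rw [E.fr_eq k] at hx
    obtain ⟨e, he, hxe⟩ := mem_iUnion₂.1 hx
    exact mem_iUnion₂.2 ⟨e, (E.fin_face k).mem_toFinset.2 he, hxe, hl⟩
  have hfin : (⋃ e ∈ (E.fin_face k).toFinset, lpt L s h2.toFun (E.seg e)).Finite :=
    Set.Finite.biUnion (Finset.finite_toSet _) fun e he =>
      (key e ((E.fin_face k).mem_toFinset.1 he)).1
  refine (Set.ncard_le_ncard hsub hfin).trans ?_
  unfold nE
  refine le_trans (Finset.set_ncard_biUnion_le _ _) (Finset.sum_le_sum fun e he => ?_)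
  exact (key e ((E.fin_face k).mem_toFinset.1 he)).2

/-- **[PATH-P]** -/
theorem labPath_face (R : ROut3 G E D h1 h2 L F) (hseg : ∀ e, ∃ g, F g = E.seg e) {s : K.S}
    (hs : s ∈ D.S₀) {k : M.κ} (hp : PatS L s h2.toFun (M.F k))
    (hno : ∀ s' ∈ D.S₀, s' ≠ s → ∀ x ∈ M.F k, h1.toFun x ∉ D.PE G s') {x y : V}
    (hx : x ∈ M.F k) (hy : y ∈ M.F k) :
    LabPath (lvs L s) h2.toFun (M.F k) ((4 + 4 * nE E L h1.toFun s k : ℕ) : ℝ≥0∞) x y := by
  obtain ⟨T, hT, Sg, col, lev, hpat, -⟩ := hp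
  have hh : ∀ l, ContinuousOn (fun x => h2.toFun x l) (M.F k) := fun l =>
    ((continuous_apply l).comp_continuousOn h2.cont).mono (mesh_sub M k)
  have h1 := _root_.P073.H341.labPath_of_pat (P := lvs L s) hpat
    (pgn_of_fat (M.fat k)).convex hh hx hy
  refine h1.mono subset_rfl (Nat.cast_le.2 ?_)
  have h2 := bd_count R hseg hs hno
  omega

/-- **[PATH-P]** between points of the boundary -/
theorem labPath_face_bd (R : ROut3 G E D h1 h2 L F) (hseg : ∀ e, ∃ g, F g = E.seg e) {s : K.S}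
    (hs : s ∈ D.S₀) {k : M.κ} (hp : PatS L s h2.toFun (M.F k))
    (hno : ∀ s' ∈ D.S₀, s' ≠ s → ∀ x ∈ M.F k, h1.toFun x ∉ D.PE G s') {x y : V}
    (hx : x ∈ intrinsicFrontier ℝ (M.F k)) (hy : y ∈ intrinsicFrontier ℝ (M.F k)) :
    LabPath (lvs L s) h2.toFun (M.F k) ((2 * nE E L h1.toFun s k : ℕ) : ℝ≥0∞) x y := by
  obtain ⟨T, hT, Sg, col, lev, hpat, -⟩ := hp
  have hh : ∀ l, ContinuousOn (fun x => h2.toFun x l) (M.F k) := fun l =>
    ((continuous_apply l).comp_continuousOn h2.cont).mono (mesh_sub M k)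
  have h1 := _root_.P073.H341.labPath_bd (P := lvs L s) hpat hh hx hy
  refine h1.mono subset_rfl (Nat.cast_le.2 ?_)
  have h2 := bd_count R hseg hs hno
  omega

end Vale.Agent.P073.H341
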