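import Vale.Agent.P073.H341.PL2

/-!
# P073, H341: **[CLASS-P]**, the pattern of the low faces

`LowF`: the face `k` is near the square `s`, small, and in the relative interior strictly below half
of the height of the box at the sides which are not protected (below the height of the box at a
protected side), and has no circles near a side wall.  **`ROutZ.pat_low`**: after the exchange such
a face has a pattern; `labPath_low`: paths.
-/

set_option linter.unusedSectionVars false

open Set Metric Topology Filter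
open scoped ENNReal

namespace Vale.Agent.P073.H341

open _root_.P073 _root_.P073.TR _root_.P073.H579 _root_.P073.PA691
open _root_.P073.H919 (lab LabPath)
open _root_.P073.H805 (Plate HasPat Clean Reg pFam)
open _root_.P073.H880.RP (Dat ROut3)
open Vale.Agent.P073.H73 (Mesh)
open Vale.Agent.P073.St (V)
open Vale.Agent.P073.H471 (Rad Wid Boxes Near)
open Vale.Agent.P073.H267 (Geo)
open Vale.Agent.P073.H193 (Edges pgn_of_fat mesh_sub)
open Vale.Agent.P073.H805 (t1 t2 t1_ne t2_ne t1_ne_t2 t_cases SideNear PB_mono PB_eq lvs mem_lvs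
  EdgeOk closure_relint)

variable {Ω Λ : Set V} {v : V} {K : BoxCx Λ v} {S : Rad K} {W : Wid K S} {B : Boxes W}
  {G : Geo B} {M : Mesh Ω} {h h2 : ConHomeo Ω Λ} {D : Dat K M} {L : K.S → Fin 3 → Finset ℝ}
  {E : Edges M} {ι : Type} {F : ι → Set V}

/-- the position of a low face at the square `s` -/
structure LowG (G : Geo B) (D : Dat K M) (h : ConHomeo Ω Λ) (s : K.S) (k : M.κ) : Prop where
  near : ∀ x ∈ M.F k, h.toFun x ∈ G.PB (3 / 4) s
  osc : ∀ x ∈ M.F k, ∀ y ∈ M.F k, ‖h.toFun x - h.toFun y‖ ≤ G.p s / 16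
  low : ∀ β, ¬ D.sd s β → ∀ x ∈ intrinsicInterior ℝ (M.F k),
    ¬ Abv K s β (D.ht s β / 2) (h.toFun x)
  lowP : ∀ β, D.sd s β → ∀ x ∈ intrinsicInterior ℝ (M.F k), ¬ Abv K s β (D.ht s β) (h.toFun x)

/-- **a low face** at the square `s` -/
structure LowF (G : Geo B) (D : Dat K M) (h : ConHomeo Ω Λ) (L : K.S → Fin 3 → Finset ℝ)
    (s : K.S) (k : M.κ) : Prop extends LowG G D h s k where
  noc : ∀ (j l : Fin 3) (β : Bool), j ≠ K.nrm s → l ≠ K.nrm s → j ≠ l →
    (∀ x ∈ M.F k, h.toFun x ∈ G.PB (3 / 4) s ∧ SideNear G h s j β (3 / 2) x) →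
    ∀ a ∈ L s l, ∀ σ : Set V, IsCircle σ → σ ⊆ M.F k → ¬ ∀ x ∈ σ, h.toFun x l = a

/-- a peeled face is low -/
theorem RIn3.lowF (H : RIn3 G E D h L F) {s : K.S} {k : M.κ} (hk : D.PkS G h s k) :
    LowF G D h L s k where
  near := fun x hx => PB_mono (by norm_num) _ (H.near s k hk x hx)
  osc := H.osc s k hk
  low := fun β hβ x hx => H.low s k hk β hβ x (intrinsicInterior_subset hx)
  lowP := H.lowP s k hk
  noc := fun j l β hj hl hjl hA => H.noc s k hk j l β hj hl hjl fun x hx =>
    ⟨H.near s k hk x hx, (hA x hx).2⟩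

namespace LowG

variable {s : K.S} {k : M.κ} (Q : LowG G D h s k)

include Q

/-- a low face is off the other boxes -/
theorem other (hht : HtOk G D) {s' : K.S} (hs' : s' ∈ D.S₀) (hne : s' ≠ s) {x : V}
    (hx : x ∈ M.F k) : h.toFun x ∉ D.PE G s' :=
  fun hx' => hne (PB_eq (G := G) (by norm_num) (by norm_num) (hht.pe_PB hs' hx') (Q.near x hx))

/-- in the relative interior -/
theorem hgt_int (hht : HtOk G D) (hs : s ∈ D.S₀) {x : V} (hx : x ∈ intrinsicInterior ℝ (M.F k)) :
    (K.slo s (K.nrm s) - D.ht s false < h.toFun x (K.nrm s) ∧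
      h.toFun x (K.nrm s) < K.slo s (K.nrm s) + D.ht s true) ∧ h.toFun x ∉ D.ZE G s := by
  have p1 := hht.pos s hs true
  have p2 := hht.pos s hs false
  refine ⟨⟨?_, ?_⟩, ?_⟩
  · by_cases hd : D.sd s false
    · have h1 := Q.lowP false hd x hx
      simp only [Abv, Bool.false_eq_true, if_false, not_le] at h1
      exact h1
    · have h1 := Q.low false hd x hx
      simp only [Abv, Bool.false_eq_true, if_false, not_le] at h1
      linarith
  · by_cases hd : D.sd s true
    · have h1 := Q.lowP true hd x hx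
      simp only [Abv, if_true, not_le] at h1
      exact h1
    · have h1 := Q.low true hd x hx
      simp only [Abv, if_true, not_le] at h1
      linarith
  · rintro ⟨-, ⟨hd, h2⟩ | ⟨hd, h2⟩⟩
    · have h1 := Q.low true hd x hx
      simp only [Abv, if_true] at h1
      exact h1 h2
    · have h1 := Q.low false hd x hx
      simp only [Abv, Bool.false_eq_true, if_false] at h1
      exact h1 h2

/-- in all points -/
theorem hgt (hht : HtOk G D) (hs : s ∈ D.S₀) {x : V} (hx : x ∈ M.F k) :
    K.slo s (K.nrm s) - D.ht s false ≤ h.toFun x (K.nrm s) ∧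
      h.toFun x (K.nrm s) ≤ K.slo s (K.nrm s) + D.ht s true := by
  have hc : ContinuousOn (fun y => h.toFun y (K.nrm s)) (M.F k) :=
    ((continuous_apply _).comp_continuousOn h.cont).mono (mesh_sub M k)
  have hcl : x ∈ closure (intrinsicInterior ℝ (M.F k)) := by rw [closure_relint]; exact hx
  have hev : ∀ᶠ y in 𝓝[intrinsicInterior ℝ (M.F k)] x, y ∈ intrinsicInterior ℝ (M.F k) :=
    self_mem_nhdsWithin
  have hne : (𝓝[intrinsicInterior ℝ (M.F k)] x).NeBot := mem_closure_iff_nhdsWithin_neBot.1 hcl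
  have ht : Tendsto (fun y => h.toFun y (K.nrm s)) (𝓝[intrinsicInterior ℝ (M.F k)] x)
      (𝓝 (h.toFun x (K.nrm s))) :=
    (hc x hx).mono_left (nhdsWithin_mono _ intrinsicInterior_subset)
  exact ⟨ge_of_tendsto ht (hev.mono fun y hy => (Q.hgt_int hht hs hy).1.1.le),
    le_of_tendsto ht (hev.mono fun y hy => (Q.hgt_int hht hs hy).1.2.le)⟩

end LowG

namespace LowF

variable {s : K.S} {k : M.κ} (Q : LowF G D h L s k)

include Q

/-- **low faces near a side wall are clean** -/
theorem clean (hw : WinS G D L) (hs : s ∈ D.S₀) {j : Fin 3} {β : Bool} (hj : j ≠ K.nrm s)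
    (hA : ∀ x ∈ M.F k, SideNear G h s j β (3 / 2) x) :
    Clean h.toFun (pz G D L s) (M.F k) := by
  have hp := Geo.p_pos (G := G) s
  have hpa := Geo.p_a (G := G) s
  have hno : ∀ x ∈ M.F k, h.toFun x j ∉ L s j := by
    intro x hx hxL
    have h1 := hw s hs j hj _ hxL
    have h2 := hA x hx
    cases β
    · simp only [SideNear, Bool.false_eq_true, if_false] at h2
      linarith
    · simp only [SideNear, if_true] at h2
      linarith
  have hcirc : ∀ l, l ≠ K.nrm s → ∀ σ : Set V, IsCircle σ → σ ⊆ M.F k →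
      ¬ ∀ x ∈ σ, h.toFun x l ∈ L s l := by
    intro l hl σ hσ hσk hall
    obtain ⟨hpre, x0, hx0⟩ := Vale.Agent.P073.H805.conn_circle hσ
    by_cases hjl : j = l
    · subst hjl
      exact hno x0 (hσk hx0) (hall x0 hx0)
    · have hc : ContinuousOn (fun x => h.toFun x l) σ :=
        ((continuous_apply l).comp_continuousOn h.cont).mono
          (hσk.trans (mesh_sub M k))
      have hsub : ((fun x => h.toFun x l) '' σ).Subsingleton := by
        refine Vale.Agent.P073.H805.sub_of_fin (hpre.image _ hc) ?_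
        exact (L s l).finite_toSet.subset (by rintro _ ⟨x, hx, rfl⟩; exact hall x hx)
      refine Q.noc j l β hj hl hjl (fun x hx => ⟨Q.near x hx, hA x hx⟩)
        (h.toFun x0 l) (hall x0 hx0) σ hσ hσk fun x hx => ?_
      exact hsub (mem_image_of_mem _ hx) (mem_image_of_mem _ hx0)
  refine ⟨fun x hx h1 h2 => ?_, fun σ hσ hσk => ⟨hcirc _ (t1_ne _) σ hσ hσk,
    hcirc _ (t2_ne _) σ hσ hσk⟩⟩
  rcases t_cases hj with rfl | rfl
  · exact hno x hx h1
  · exact hno x hx h2

end LowF

/-- **[CLASS-P]: the pattern of the low faces after the exchange** -/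
theorem ROutZ.pat_low (Z : ROutZ G E D h h2 L F) (hht : HtOk G D) (hw : WinS G D L) {s : K.S}
    (hs : s ∈ D.S₀) {k : M.κ} (Q : LowF G D h L s k) : PatS L s h2.toFun (M.F k) := by
  have hp := Geo.p_pos (G := G) s
  by_cases ht : ∀ x ∈ M.F k, ¬ Mg G s (5 / 4) (h.toFun x)
  · have hop : ∀ x ∈ M.F k, ∀ l, l ≠ K.nrm s → K.slo s l + G.p s < h.toFun x l ∧
        h.toFun x l < K.shi s l - G.p s := by
      intro x hx l hl
      have h1 := ht x hx
      unfold Mg at h1
      push Not at h1
      have h2 := h1 l hl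
      constructor <;> linarith [h2.1, h2.2]
    refine Z.patIn s hs k (fun x hx => ⟨fun l hl => ?_, Q.hgt hht hs hx⟩)
      (fun x hx => mem_int_pe.2 ⟨hop x (intrinsicInterior_subset hx), (Q.hgt_int hht hs hx).1⟩)
      (Or.inl fun x hx => ⟨(Q.hgt_int hht hs hx).2, ht x (intrinsicInterior_subset hx)⟩)
    have := hop x hx l hl
    exact ⟨this.1.le, this.2.le⟩
  · push Not at ht
    obtain ⟨y, hy, j, hj, hyj⟩ := ht
    -- the face is near the side wall
    have hcoord : ∀ x ∈ M.F k, |h.toFun y j - h.toFun x j| ≤ G.p s / 16 := fun x hx =>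
      (norm_le_pi_norm (h.toFun y - h.toFun x) j).trans (Q.osc y hy x hx)
    obtain ⟨β, hβ⟩ : ∃ β, ∀ x ∈ M.F k, SideNear G h s j β (3 / 2) x := by
      rcases hyj with h1 | h1
      · refine ⟨false, fun x hx => ?_⟩
        have h2 := abs_le.1 (hcoord x hx)
        simp only [SideNear, Bool.false_eq_true, if_false]
        linarith
      · refine ⟨true, fun x hx => ?_⟩
        have h2 := abs_le.1 (hcoord x hx)
        simp only [SideNear, if_true]
        linarith
    have hcl := Q.clean hw hs hj hβ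
    by_cases hin : ∀ x ∈ M.F k, ∀ l, l ≠ K.nrm s → K.slo s l + G.p s < h.toFun x l ∧
        h.toFun x l < K.shi s l - G.p s
    · refine Z.patIn s hs k (fun x hx => ⟨fun l hl => ?_, Q.hgt hht hs hx⟩)
        (fun x hx => mem_int_pe.2 ⟨hin x (intrinsicInterior_subset hx), (Q.hgt_int hht hs hx).1⟩)
        (Or.inr hcl)
      have := hin x hx l hl
      exact ⟨this.1.le, this.2.le⟩
    · push Not at hin
      obtain ⟨z, hz, l, hl, hzl⟩ := hin
      refine Z.keep s hs (M.F k) (mesh_sub M k) (fun x hx _ => Or.inr ⟨l, hl, ?_⟩)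
        (fun s' hs' hne x hx hi => Q.other hht hs' hne hx (interior_subset hi))
        (Z.pat_clean s hs k hcl)
      have h2 := abs_le.1 ((norm_le_pi_norm (h.toFun z - h.toFun x) l).trans
        (Q.osc z hz x hx))
      simp only [Pi.sub_apply] at h2
      by_cases h1 : K.slo s l + G.p s < h.toFun z l
      · right
        linarith [hzl h1]
      · left
        linarith

/-- **[CLASS-P]**, paths in the low faces -/
theorem labPath_low (R : ROut3 G E D h h2 L F) (Z : ROutZ G E D h h2 L F)
    (hseg : ∀ e, ∃ g, F g = E.seg e) (hht : HtOk G D) (hw : WinS G D L) {s : K.S}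
    (hs : s ∈ D.S₀) {k : M.κ} (Q : LowF G D h L s k) {x y : V} (hx : x ∈ M.F k)
    (hy : y ∈ M.F k) :
    LabPath (lvs L s) h2.toFun (M.F k) ((4 + 4 * nE E L h.toFun s k : ℕ) : ℝ≥0∞) x y :=
  labPath_face R hseg hs (Z.pat_low hht hw hs Q)
    (fun _ hs' hne _ hx => Q.other hht hs' hne hx) hx hy

end Vale.Agent.P073.H341
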