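import Vale.Agent.P073.H341.PL3
import Vale.Agent.P073.H267.K3St2

/-!
# P073, H341: **[CLASS-P]**, the low faces over the stages of `K3C`

`S1.lowF`: a face in no protected cell, with a point of the plate of `s`, whose relative interior is
strictly below half of the height of the box at the sides which are not protected, is low;
**`S2.patS`**, **`S2.labPath`**: its pattern after the exchange, and paths.
`lab_h2`: the labels of `h2` and of `h1` agree on the safe set and off the boxes.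
-/

set_option linter.unusedSectionVars false

open Set Metric Topology Filter
open scoped ENNReal

namespace Vale.Agent.P073.H341

open _root_.P073 _root_.P073.TR _root_.P073.H579 _root_.P073.PA691 _root_.P073.H236
open _root_.P073.H919 (lab LabPath HB mem_HB)
open _root_.P073.H880.RP (Dat ROut3 PEx)
open _root_.P073.H345 (PK tg PLev PB_sub_PK)
open _root_.P073.H155 (Band3 RelT)
open Vale.Agent.P073.H73 (Mesh)
open Vale.Agent.P073.St (V)
open Vale.Agent.P073.H471 Vale.Agent.P073.H267 Vale.Agent.P073.H267.K3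
open Vale.Agent.P073.H193 (Edges pgn_of_fat mesh_sub edges)
open Vale.Agent.P073.H805 (t1 t2 t1_ne t2_ne t_cases SideNear PB_mono PB_eq lvs mem_lvs EdgeOk
  closure_relint RelB wall_all conn_circle face_sub_of_mem)
open Vale.Agent.P073.H926 Vale.Agent.P073.H926.KIn3
open Vale.Agent.P073.H238.K3

variable {c₀ n δ : ℝ} {j : ℕ} {Ω Λ : Set V} {v w : V} {ρ : V → ℝ} {M : Mesh Ω} {h : ConHomeo Ω Λ}
  {J₀ J : Set (ℕ × (Fin 3 → ℤ))} {P Z : Set M.ι} {K : BoxCx Λ w}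
  {D : KIn3 c₀ n j δ v w ρ M h J₀ J P Z} {C : Cells ρ w K} {C₀ μT : ℝ}

section

variable (X : S1 D C C₀ μT) {s : K.S} {k : M.κ}

/-- a face in no protected cell, with a point of a plate, is active in ROUND T -/
theorem act_of_PK (hs : s ∈ pS C J₀) (hP : ∀ i ∈ P, ¬ M.F k ⊆ M.Q i) {x₀ : V} (hx₀ : x₀ ∈ M.F k)
    (h₀ : X.h1.toFun x₀ ∈ PK (D.G C) s) : k ∈ Act D C := by
  rintro i (hi | hW) hk
  · exact hP i hi hk
  · exact X.out.wc_PK D C hW hs (hk hx₀) h₀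

/-- **the position of the low faces** -/
theorem lowG_of (hs : s ∈ pS C J₀) (hP : ∀ i ∈ P, ¬ M.F k ⊆ M.Q i) {x₀ : V} (hx₀ : x₀ ∈ M.F k)
    (h₀ : X.h1.toFun x₀ ∈ HB (D.G C) (7 / 8) (3 / 4) s)
    (hlow : ∀ β, ¬ (D.dat C).sd s β → ∀ x ∈ intrinsicInterior ℝ (M.F k),
      ¬ Abv K s β ((D.dat C).ht s β / 2) (X.h1.toFun x)) :
    LowG (D.G C) (D.dat C) X.h1 s k := by
  obtain ⟨g1, g2⟩ := mem_HB.1 h₀
  have hp := Geo.p_pos (G := D.G C) s
  have hτ := (D.B C).τ_pos s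
  have e1 := (D.G C).oS_τ s
  have e2 := (D.G C).τ_p s
  have hPK : X.h1.toFun x₀ ∈ PK (D.G C) s := by
    refine ⟨fun l hl => ?_, by linarith⟩
    have := g1 l hl
    constructor <;> linarith [this.1, this.2]
  obtain ⟨i, i', -, hki⟩ := M.two k
  have hkQ : M.F k ⊆ M.Q i := hki.trans inter_subset_left
  have hiP : i ∉ P := fun hi => hP i hi hkQ
  have hn := X.out.nearC D C i
  have hd : ∀ y ∈ M.F k, ‖X.h1.toFun y - X.h1.toFun x₀‖ ≤ 11 * (D.G C).oS s := fun y hy =>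
    (D.pos_PK C hs hiP hn (hkQ hx₀) hPK (hkQ hy)).2
  have hco : ∀ y ∈ M.F k, ∀ l, |X.h1.toFun y l - X.h1.toFun x₀ l| ≤ 11 * (D.G C).oS s :=
    fun y hy l => (norm_le_pi_norm (X.h1.toFun y - X.h1.toFun x₀) l).trans (hd y hy)
  have hnear : ∀ x ∈ M.F k, X.h1.toFun x ∈ (D.G C).PB (3 / 4) s := by
    intro x hx
    rw [Geo.mem_PB]
    refine ⟨fun l hl => ?_, ?_⟩
    · have h1 := abs_le.1 (hco x hx l)
      have h2 := g1 l hl
      constructor <;> linarith [h2.1, h2.2, h1.1, h1.2]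
    · have h1 := abs_le.1 (hco x hx (K.nrm s))
      have h2 := abs_le.1 g2
      rw [abs_le]
      constructor <;> linarith [h2.1, h2.2, h1.1, h1.2]
  refine ⟨hnear, fun x hx y hy => ?_, hlow, fun β hβ x hx hA => ?_⟩
  · calc ‖X.h1.toFun x - X.h1.toFun y‖ =
          ‖(X.h1.toFun x - X.h1.toFun x₀) - (X.h1.toFun y - X.h1.toFun x₀)‖ := by congr 1; abel
      _ ≤ ‖X.h1.toFun x - X.h1.toFun x₀‖ + ‖X.h1.toFun y - X.h1.toFun x₀‖ := norm_sub_le _ _
      _ ≤ (D.G C).p s / 16 := by linarith [hd x hx, hd y hy]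
  · have hxF := intrinsicInterior_subset hx
    obtain ⟨i₁, hi₁, hxi⟩ := D.rin_cov C X.out.rectc s β hβ x (mesh_sub M k hxF)
      (PK_sub_PX s (PB_sub_PK le_rfl s (hnear x hxF))) hA
    exact hP i₁ hi₁ (face_sub_of_mem hx hxi)

/-- **the low faces** -/
theorem lowF_of {L : PLev (D.G C)} (hw : WinS (D.G C) (D.dat C) L.lv)
    (hband : Band3 L (pS C J₀) X.sl) (hs : s ∈ pS C J₀) (hP : ∀ i ∈ P, ¬ M.F k ⊆ M.Q i) {x₀ : V}
    (hx₀ : x₀ ∈ M.F k) (h₀ : X.h1.toFun x₀ ∈ HB (D.G C) (7 / 8) (3 / 4) s)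
    (hlow : ∀ β, ¬ (D.dat C).sd s β → ∀ x ∈ intrinsicInterior ℝ (M.F k),
      ¬ Abv K s β ((D.dat C).ht s β / 2) (X.h1.toFun x)) :
    LowF (D.G C) (D.dat C) X.h1 L.lv s k := by
  have Q := lowG_of X hs hP hx₀ h₀ hlow
  have hht := D.htOk C
  have hPK : X.h1.toFun x₀ ∈ PK (D.G C) s := PB_sub_PK le_rfl s (Q.near x₀ hx₀)
  have hact := act_of_PK X hs hP hx₀ hPK
  refine ⟨Q, ?_⟩
  intro j l β hj hl hjl hA t htL σ hσ hσk hall
  have hp := Geo.p_pos (G := D.G C) s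
  obtain ⟨hw1, hw2⟩ := hw s hs l hl t htL
  have hW : ∀ x ∈ σ, (D.G C).Wall s j l β (X.h1.toFun x) := by
    intro x hx
    obtain ⟨h2, h3⟩ := hA x (hσk hx)
    obtain ⟨h4, -⟩ := Geo.mem_PB.1 h2
    have h5 := h4 j hj
    have h6 := Q.hgt hht hs (hσk hx)
    have h7 := hht.le s hs true
    have h8 := hht.le s hs false
    refine ⟨hj, hl, hjl, ?_, ?_, ?_, ?_⟩
    · rw [abs_le]
      constructor <;> linarith [h6.1, h6.2]
    · cases β
      · simp only [SideNear, Bool.false_eq_true, if_false] at h3 ⊢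
        constructor <;> linarith
      · simp only [SideNear, if_true] at h3 ⊢
        constructor <;> linarith
    · rw [hall x hx]; exact hw1
    · rw [hall x hx]; exact hw2
  obtain ⟨-, y0, hy0⟩ := conn_circle hσ
  obtain ⟨b, hb1, hb2, hb3⟩ := wall_all (hW y0 hy0)
  have hb' : RelT s l b := by
    rcases b with e | H
    · exact hb1
    · exact hb1
  have hbG : b ∈ pB C J₀ := X.dpre.rel s hs l b hb'
  obtain ⟨β', rfl⟩ : ∃ β', l = tg s β' :=
    ⟨_root_.P073.H345.bt s l, (_root_.P073.H345.tg_bt s hl).symm⟩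
  have htL' := htL
  rw [_root_.P073.H345.PLev.lv_tg] at htL'
  obtain ⟨m, hm, rfl⟩ := (L.lvs s β').mem_L.1 htL'
  refine X.out.circ k hact ⟨b, hbG⟩ (L.a s β' m)
    (X.noSl_of_band L hband hs hm ⟨b, hbG⟩ hb' (r := L.a s β' m) ?_) σ hσ
    hσk fun x hx => ⟨?_, ?_⟩
  · rw [sub_self, abs_zero]
    have := (L.lvs s β').c0
    positivity
  · exact hb3 _ (hW x hx) (by rw [hall x hx, hall y0 hy0])
  · rw [hb2]; exact hall x hx

variable {X} (Y₂ : S2 X)

/-- the levels are in the windows -/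
theorem win_of : WinS (D.G C) (D.dat C) Y₂.L.lv := fun s _ l hl => Y₂.Lw.win s l hl

theorem seg_of : ∀ e, ∃ g, vFam M (edges M) g = (edges M).seg e :=
  fun e => ⟨Sum.inl (Sum.inr (Sum.inr e)), rfl⟩

/-- **[CLASS-P] over `S2`: the low faces** -/
theorem low_S2 (hs : s ∈ pS C J₀) (hP : ∀ i ∈ P, ¬ M.F k ⊆ M.Q i) {x₀ : V} (hx₀ : x₀ ∈ M.F k)
    (h₀ : X.h1.toFun x₀ ∈ HB (D.G C) (7 / 8) (3 / 4) s)
    (hlow : ∀ β, ¬ (D.dat C).sd s β → ∀ x ∈ intrinsicInterior ℝ (M.F k),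
      ¬ Abv K s β ((D.dat C).ht s β / 2) (X.h1.toFun x)) :
    LowF (D.G C) (D.dat C) X.h1 Y₂.L.lv s k :=
  lowF_of X (win_of Y₂) Y₂.band hs hP hx₀ h₀ hlow

/-- **the pattern of the low faces** -/
theorem patS_S2 (hs : s ∈ pS C J₀) (Q : LowF (D.G C) (D.dat C) X.h1 Y₂.L.lv s k) :
    PatS Y₂.L.lv s Y₂.h2.toFun (M.F k) :=
  Y₂.ex.exZ.pat_low (D.htOk C) (win_of Y₂) hs Q

/-- a low face is off the other boxes -/
theorem other_S2 (Q : LowF (D.G C) (D.dat C) X.h1 Y₂.L.lv s k) :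
    ∀ s' ∈ (D.dat C).S₀, s' ≠ s → ∀ x ∈ M.F k, X.h1.toFun x ∉ (D.dat C).PE (D.G C) s' :=
  fun _ hs' hne _ hx => Q.other (D.htOk C) hs' hne hx

/-- **paths in the low faces** -/
theorem labPath_S2 (hs : s ∈ pS C J₀) (Q : LowF (D.G C) (D.dat C) X.h1 Y₂.L.lv s k) {x y : V}
    (hx : x ∈ M.F k) (hy : y ∈ M.F k) :
    LabPath (lvs Y₂.L.lv s) Y₂.h2.toFun (M.F k)
      ((4 + 4 * nE (edges M) Y₂.L.lv X.h1.toFun s k : ℕ) : ℝ≥0∞) x y :=
  labPath_low Y₂.ex.ex Y₂.ex.exZ seg_of (D.htOk C) (win_of Y₂) hs Q hx hy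

omit X k in
theorem lvs_lev {S' : Rad K} {W' : Wid K S'} {B' : Boxes W'} {G : Geo B'} (L : PLev G) (s : K.S) :
    lvs L.lv s = L.lv s := by
  funext l
  by_cases hl : l = K.nrm s
  · subst hl
    rw [_root_.P073.H345.PLev.lv_nrm]
    unfold lvs
    simp
  · unfold lvs
    simp [hl]

/-- **paths in the low faces** -/
theorem labPath_S2' (hs : s ∈ pS C J₀) (Q : LowF (D.G C) (D.dat C) X.h1 Y₂.L.lv s k) {x y : V}
    (hx : x ∈ M.F k) (hy : y ∈ M.F k) :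
    LabPath (Y₂.L.lv s) Y₂.h2.toFun (M.F k)
      ((4 + 4 * nE (edges M) Y₂.L.lv X.h1.toFun s k : ℕ) : ℝ≥0∞) x y := by
  have h1 := labPath_S2 Y₂ hs Q hx hy
  rwa [lvs_lev] at h1

end

/-! ### labels -/

/-- the label is determined by the positions with respect to the levels -/
theorem lab_congr {L : Finset ℝ} {a b : ℝ} (h : ∀ t ∈ L, (a = t ↔ b = t) ∧ (a < t ↔ b < t) ∧
    (t < a ↔ t < b)) : lab L a = lab L b := by
  unfold lab
  have e1 : L.filter (· < a) = L.filter (· < b) :=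
    Finset.filter_congr fun t ht => (h t ht).2.2
  have e2 : L.filter (· ≤ a) = L.filter (· ≤ b) :=
    Finset.filter_congr fun t ht => by
      rw [← not_lt, ← not_lt]
      exact not_congr (h t ht).2.1
  rw [e1, e2]

/-- **the labels of `h2` and of `h1`** agree on the safe set and off the boxes -/
theorem lab_h2 {S' : Rad K} {W' : Wid K S'} {B' : Boxes W'} {G : Geo B'} {E : Edges M}
    {D' : Dat K M} {h1 h2 : ConHomeo Ω Λ} {L : K.S → Fin 3 → Finset ℝ} {ι : Type}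
    {F : ι → Set V} (Z : ROutZ G E D' h1 h2 L F) {s : K.S} (hs : s ∈ D'.S₀) {x : V} (hx : x ∈ Ω)
    (h3 : h1.toFun x ∈ interior (D'.PE G s) →
      h1.toFun x ∈ D'.ZE G s ∨ Mg G s (5 / 4) (h1.toFun x))
    (h4 : ∀ s' ∈ D'.S₀, s' ≠ s → h1.toFun x ∉ interior (D'.PE G s')) (l : Fin 3) :
    lab (lvs L s l) (h2.toFun x l) = lab (lvs L s l) (h1.toFun x l) :=
  lab_congr fun t ht => Z.lev s hs x hx h3 h4 l t ht

end Vale.Agent.P073.H341
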