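import Vale.Agent.P073.H341.PL4

/-!
# P073, H341: **[DICH]**, the faces at a plate

`class_S2`: a face in no protected cell with a point in `HB (7/8) (3/4)`, which does not cross the
height `τ / 4` (half of the height of the box) at the sides which are not protected, unless it is
near a side wall, has a pattern for `h2`, or is above this height in all points.
-/

set_option linter.unusedSectionVars false

open Set Metric Topology Filter
open scoped ENNReal

namespace Vale.Agent.P073.H341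

open _root_.P073 _root_.P073.TR _root_.P073.H579 _root_.P073.PA691 _root_.P073.H236
open _root_.P073.H919 (lab LabPath HB mem_HB)
open _root_.P073.H880.RP (Dat ROut3 PEx)
open _root_.P073.H345 (PK tg PLev PB_sub_PK)
open _root_.P073.H155 (Band3 RelT)
open _root_.P073.H805 (Clean)
open Vale.Agent.P073.H73 (Mesh)
open Vale.Agent.P073.St (V)
open Vale.Agent.P073.H471 Vale.Agent.P073.H267 Vale.Agent.P073.H267.K3
open Vale.Agent.P073.H193 (Edges pgn_of_fat mesh_sub edges)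
open Vale.Agent.P073.H805 (t1 t2 t1_ne t2_ne t_cases SideNear PB_mono PB_eq lvs mem_lvs EdgeOk
  closure_relint RelB wall_all conn_circle face_sub_of_mem)
open Vale.Agent.P073.H926 Vale.Agent.P073.H926.KIn3
open Vale.Agent.P073.H238.K3

variable {c₀ n δ : ℝ} {j : ℕ} {Ω Λ : Set V} {v w : V} {ρ : V → ℝ} {M : Mesh Ω} {h : ConHomeo Ω Λ}
  {J₀ J : Set (ℕ × (Fin 3 → ℤ))} {P Z : Set M.ι} {K : BoxCx Λ w}
  {D : KIn3 c₀ n j δ v w ρ M h J₀ J P Z} {C : Cells ρ w K} {C₀ μT : ℝ}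

theorem relint_nonempty (k : M.κ) : (intrinsicInterior ℝ (M.F k)).Nonempty := by
  have hne : (M.F k).Nonempty := by
    obtain ⟨z, hz⟩ := (Vale.Agent.P073.H238.meshFace M k).int
    exact ⟨_, (Vale.Agent.P073.H238.meshFace M k).ch_mem (interior_subset hz)⟩
  exact hne.intrinsicInterior (pgn_of_fat (M.fat k)).convex

section

variable (X : S1 D C C₀ μT) {s : K.S} {k : M.κ}

/-- **positions** of a face with a point in `HB (7/8) (3/4)` -/
theorem pos_of_HB (hs : s ∈ pS C J₀) (hP : ∀ i ∈ P, ¬ M.F k ⊆ M.Q i) {x₀ : V} (hx₀ : x₀ ∈ M.F k)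
    (h₀ : X.h1.toFun x₀ ∈ HB (D.G C) (7 / 8) (3 / 4) s) :
    (∀ x ∈ M.F k, X.h1.toFun x ∈ (D.G C).PB (3 / 4) s) ∧
      (∀ x ∈ M.F k, ∀ y ∈ M.F k, ‖X.h1.toFun x - X.h1.toFun y‖ ≤ (D.B C).τ s / 40) ∧
      ∀ β, (D.dat C).sd s β → ∀ x ∈ intrinsicInterior ℝ (M.F k),
        ¬ Abv K s β ((D.dat C).ht s β) (X.h1.toFun x) := by
  obtain ⟨g1, g2⟩ := mem_HB.1 h₀
  have hp := Geo.p_pos (G := D.G C) s
  have hτ := (D.B C).τ_pos s
  have e1 := (D.G C).oS_τ s
  have e2 := (D.G C).τ_p s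
  have hPK : X.h1.toFun x₀ ∈ PK (D.G C) s := by
    refine ⟨fun l hl => ?_, by linarith⟩
    have := g1 l hl
    constructor <;> linarith [this.1, this.2]
  obtain ⟨i, i', -, hki⟩ := M.two k
  have hkQ : M.F k ⊆ M.Q i := hki.trans inter_subset_left
  have hiP : i ∉ P := fun hi => hP i hi hkQ
  have hn := X.out.nearC D C i
  have hd : ∀ y ∈ M.F k, ‖X.h1.toFun y - X.h1.toFun x₀‖ ≤ 11 * (D.G C).oS s := fun y hy =>
    (D.pos_PK C hs hiP hn (hkQ hx₀) hPK (hkQ hy)).2
  have hco : ∀ y ∈ M.F k, ∀ l, |X.h1.toFun y l - X.h1.toFun x₀ l| ≤ 11 * (D.G C).oS s :=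
    fun y hy l => (norm_le_pi_norm (X.h1.toFun y - X.h1.toFun x₀) l).trans (hd y hy)
  have hnear : ∀ x ∈ M.F k, X.h1.toFun x ∈ (D.G C).PB (3 / 4) s := by
    intro x hx
    rw [Geo.mem_PB]
    refine ⟨fun l hl => ?_, ?_⟩
    · have h1 := abs_le.1 (hco x hx l)
      have h2 := g1 l hl
      constructor <;> linarith [h2.1, h2.2, h1.1, h1.2]
    · have h1 := abs_le.1 (hco x hx (K.nrm s))
      have h2 := abs_le.1 g2
      rw [abs_le]
      constructor <;> linarith [h2.1, h2.2, h1.1, h1.2]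
  refine ⟨hnear, fun x hx y hy => ?_, fun β hβ x hx hA => ?_⟩
  · calc ‖X.h1.toFun x - X.h1.toFun y‖ =
          ‖(X.h1.toFun x - X.h1.toFun x₀) - (X.h1.toFun y - X.h1.toFun x₀)‖ := by congr 1; abel
      _ ≤ ‖X.h1.toFun x - X.h1.toFun x₀‖ + ‖X.h1.toFun y - X.h1.toFun x₀‖ := norm_sub_le _ _
      _ ≤ (D.B C).τ s / 40 := by linarith [hd x hx, hd y hy]
  · have hxF := intrinsicInterior_subset hx
    obtain ⟨i₁, hi₁, hxi⟩ := D.rin_cov C X.out.rectc s β hβ x (mesh_sub M k hxF)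
      (PK_sub_PX s (PB_sub_PK le_rfl s (hnear x hxF))) hA
    exact hP i₁ hi₁ (face_sub_of_mem hx hxi)

/-- **circles of faces near a side wall** -/
theorem noc_of_pos {L : PLev (D.G C)} (hw : WinS (D.G C) (D.dat C) L.lv)
    (hband : Band3 L (pS C J₀) X.sl) (hs : s ∈ pS C J₀) (hact : k ∈ Act D C)
    (hnear : ∀ x ∈ M.F k, X.h1.toFun x ∈ (D.G C).PB (3 / 4) s)
    (hn : ∀ x ∈ M.F k, |X.h1.toFun x (K.nrm s) - K.slo s (K.nrm s)| ≤ 1 / 2 * (D.B C).τ s)
    {j l : Fin 3} {β : Bool} (hj : j ≠ K.nrm s) (hl : l ≠ K.nrm s) (hjl : j ≠ l)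
    (hA : ∀ x ∈ M.F k, SideNear (D.G C) X.h1 s j β (3 / 2) x) {t : ℝ} (htL : t ∈ L.lv s l)
    {σ : Set V} (hσ : _root_.P073.IsCircle σ) (hσk : σ ⊆ M.F k) :
    ¬ ∀ x ∈ σ, X.h1.toFun x l = t := by
  intro hall
  have hp := Geo.p_pos (G := D.G C) s
  obtain ⟨hw1, hw2⟩ := hw s hs l hl t htL
  have hW : ∀ x ∈ σ, (D.G C).Wall s j l β (X.h1.toFun x) := by
    intro x hx
    have h3 := hA x (hσk hx)
    obtain ⟨h4, -⟩ := Geo.mem_PB.1 (hnear x (hσk hx))
    have h5 := h4 j hj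
    refine ⟨hj, hl, hjl, hn x (hσk hx), ?_, ?_, ?_⟩
    · cases β
      · simp only [SideNear, Bool.false_eq_true, if_false] at h3 ⊢
        constructor <;> linarith
      · simp only [SideNear, if_true] at h3 ⊢
        constructor <;> linarith
    · rw [hall x hx]; exact hw1
    · rw [hall x hx]; exact hw2
  obtain ⟨-, y0, hy0⟩ := conn_circle hσ
  obtain ⟨b, hb1, hb2, hb3⟩ := wall_all (hW y0 hy0)
  have hb' : RelT s l b := by
    rcases b with e | H
    · exact hb1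
    · exact hb1
  have hbG : b ∈ pB C J₀ := X.dpre.rel s hs l b hb'
  obtain ⟨β', rfl⟩ : ∃ β', l = tg s β' :=
    ⟨_root_.P073.H345.bt s l, (_root_.P073.H345.tg_bt s hl).symm⟩
  have htL' := htL
  rw [_root_.P073.H345.PLev.lv_tg] at htL'
  obtain ⟨m, hm, rfl⟩ := (L.lvs s β').mem_L.1 htL'
  refine X.out.circ k hact ⟨b, hbG⟩ (L.a s β' m)
    (X.noSl_of_band L hband hs hm ⟨b, hbG⟩ hb' (r := L.a s β' m) ?_) σ hσ
    hσk fun x hx => ⟨?_, ?_⟩
  · rw [sub_self, abs_zero]
    have := (L.lvs s β').c0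
    positivity
  · exact hb3 _ (hW x hx) (by rw [hall x hx, hall y0 hy0])
  · rw [hb2]; exact hall x hx

/-- **faces near a side wall are clean** -/
theorem clean_of_pos {L : PLev (D.G C)} (hw : WinS (D.G C) (D.dat C) L.lv)
    (hband : Band3 L (pS C J₀) X.sl) (hs : s ∈ pS C J₀) (hact : k ∈ Act D C)
    (hnear : ∀ x ∈ M.F k, X.h1.toFun x ∈ (D.G C).PB (3 / 4) s)
    (hn : ∀ x ∈ M.F k, |X.h1.toFun x (K.nrm s) - K.slo s (K.nrm s)| ≤ 1 / 2 * (D.B C).τ s)
    {j : Fin 3} {β : Bool} (hj : j ≠ K.nrm s)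
    (hA : ∀ x ∈ M.F k, SideNear (D.G C) X.h1 s j β (3 / 2) x) :
    Clean X.h1.toFun (pz (D.G C) (D.dat C) L.lv s) (M.F k) := by
  have hp := Geo.p_pos (G := D.G C) s
  have hpa := Geo.p_a (G := D.G C) s
  have hno : ∀ x ∈ M.F k, X.h1.toFun x j ∉ L.lv s j := by
    intro x hx hxL
    have h1 := hw s hs j hj _ hxL
    have h2 := hA x hx
    cases β
    · simp only [SideNear, Bool.false_eq_true, if_false] at h2
      linarith
    · simp only [SideNear, if_true] at h2
      linarith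
  have hcirc : ∀ l, l ≠ K.nrm s → ∀ σ : Set V, _root_.P073.IsCircle σ → σ ⊆ M.F k →
      ¬ ∀ x ∈ σ, X.h1.toFun x l ∈ L.lv s l := by
    intro l hl σ hσ hσk hall
    obtain ⟨hpre, y0, hy0⟩ := conn_circle hσ
    by_cases hjl : j = l
    · subst hjl
      exact hno y0 (hσk hy0) (hall y0 hy0)
    · have hc : ContinuousOn (fun x => X.h1.toFun x l) σ :=
        ((continuous_apply l).comp_continuousOn X.h1.cont).mono
          (hσk.trans (mesh_sub M k))
      have hsub : ((fun x => X.h1.toFun x l) '' σ).Subsingleton := by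
        refine Vale.Agent.P073.H805.sub_of_fin (hpre.image _ hc) ?_
        exact (L.lv s l).finite_toSet.subset (by rintro _ ⟨x, hx, rfl⟩; exact hall x hx)
      refine noc_of_pos X hw hband hs hact hnear hn hj hl hjl hA (hall y0 hy0) hσ hσk
        fun x hx => ?_
      exact hsub (mem_image_of_mem _ hx) (mem_image_of_mem _ hy0)
  refine ⟨fun x hx h1 h2 => ?_, fun σ hσ hσk => ⟨hcirc _ (t1_ne _) σ hσ hσk,
    hcirc _ (t2_ne _) σ hσ hσk⟩⟩
  rcases t_cases hj with rfl | rfl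
  · exact hno x hx h1
  · exact hno x hx h2

variable {X} (Y₂ : S2 X)

/-- **[DICH]: the faces at a plate**: a pattern for `h2`, or above the height `τ / 4` on one side
which is not protected -/
theorem class_S2 (hs : s ∈ pS C J₀) (hP : ∀ i ∈ P, ¬ M.F k ⊆ M.Q i) {x₀ : V} (hx₀ : x₀ ∈ M.F k)
    (h₀ : X.h1.toFun x₀ ∈ HB (D.G C) (7 / 8) (3 / 4) s)
    (hwall : ∀ β, ¬ (D.dat C).sd s β →
      (∀ x ∈ M.F k, ¬ Mg (D.G C) s (5 / 4) (X.h1.toFun x)) →
      (∀ x ∈ intrinsicInterior ℝ (M.F k), ¬ Abv K s β ((D.dat C).ht s β / 2) (X.h1.toFun x)) ∨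
        ∀ x ∈ M.F k, Abv K s β ((D.dat C).ht s β / 2) (X.h1.toFun x)) :
    PatS Y₂.L.lv s Y₂.h2.toFun (M.F k) ∨
      ∃ β, ¬ (D.dat C).sd s β ∧ ∀ x ∈ M.F k, Abv K s β ((D.dat C).ht s β / 2) (X.h1.toFun x) := by
  have hp := Geo.p_pos (G := D.G C) s
  have hτ := (D.B C).τ_pos s
  have e2 := (D.G C).τ_p s
  have hht := D.htOk C
  have hw := win_of Y₂
  obtain ⟨hnear, hosc, hlowP⟩ := pos_of_HB X hs hP hx₀ h₀
  have hco : ∀ x ∈ M.F k, ∀ y ∈ M.F k, ∀ l, |X.h1.toFun x l - X.h1.toFun y l| ≤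
      (D.B C).τ s / 40 := fun x hx y hy l =>
    (norm_le_pi_norm (X.h1.toFun x - X.h1.toFun y) l).trans (hosc x hx y hy)
  have hact := act_of_PK X hs hP hx₀ (PB_sub_PK le_rfl s (hnear x₀ hx₀))
  obtain ⟨z₀, hz₀⟩ := relint_nonempty (M := M) k
  -- high faces
  by_cases hhigh : ∃ β, ∃ x₁ ∈ M.F k, Abv K s β ((D.B C).τ s / 2) (X.h1.toFun x₁)
  · obtain ⟨β, x₁, hx₁, hA⟩ := hhigh
    have hall : ∀ x ∈ M.F k, ∀ t, t ≤ (D.B C).τ s / 4 → Abv K s β t (X.h1.toFun x) := by
      intro x hx t ht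
      have h1 := abs_le.1 (hco x hx x₁ hx₁ (K.nrm s))
      cases β
      · simp only [Abv, Bool.false_eq_true, if_false] at hA ⊢
        linarith [h1.1, h1.2]
      · simp only [Abv, if_true] at hA ⊢
        linarith [h1.1, h1.2]
    have hsd : ¬ (D.dat C).sd s β := fun hβ => by
      have h3 := D.dat_ht_prot C (s := s) (β := β) hβ
      exact hlowP β hβ z₀ hz₀ (hall z₀ (intrinsicInterior_subset hz₀) _ (by linarith))
    refine Or.inr ⟨β, hsd, fun x hx => hall x hx _ ?_⟩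
    rw [D.dat_ht_not C hsd]
    linarith
  push Not at hhigh
  have hlt : ∀ x ∈ M.F k, K.slo s (K.nrm s) - (D.B C).τ s / 2 < X.h1.toFun x (K.nrm s) ∧
      X.h1.toFun x (K.nrm s) < K.slo s (K.nrm s) + (D.B C).τ s / 2 := by
    intro x hx
    have h1 := hhigh true x hx
    have h2 := hhigh false x hx
    simp only [Abv, Bool.false_eq_true, if_false, if_true, not_le] at h1 h2
    exact ⟨h2, h1⟩
  have hn : ∀ x ∈ M.F k, |X.h1.toFun x (K.nrm s) - K.slo s (K.nrm s)| ≤
      1 / 2 * (D.B C).τ s := by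
    intro x hx
    have h1 := hlt x hx
    rw [abs_le]
    constructor <;> linarith [h1.1, h1.2]
  by_cases hmg : ∀ x ∈ M.F k, ¬ Mg (D.G C) s (5 / 4) (X.h1.toFun x)
  · -- faces in the middle
    by_cases hH : ∃ β, ¬ (D.dat C).sd s β ∧
        ∀ x ∈ M.F k, Abv K s β ((D.dat C).ht s β / 2) (X.h1.toFun x)
    · exact Or.inr hH
    · push Not at hH
      refine Or.inl (patS_S2 Y₂ hs (low_S2 Y₂ hs hP hx₀ h₀ fun β hβ => ?_))
      rcases hwall β hβ hmg with h1 | h1
      · exact h1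
      · obtain ⟨x, hx, hxA⟩ := hH β hβ
        exact absurd (h1 x hx) hxA
  · -- faces near a side wall
    left
    push Not at hmg
    obtain ⟨y, hy, j, hj, hyj⟩ := hmg
    obtain ⟨β, hβ⟩ : ∃ β, ∀ x ∈ M.F k, SideNear (D.G C) X.h1 s j β (3 / 2) x := by
      rcases hyj with h1 | h1
      · refine ⟨false, fun x hx => ?_⟩
        have h2 := abs_le.1 (hco x hx y hy j)
        simp only [SideNear, Bool.false_eq_true, if_false]
        linarith [h2.1, h2.2]
      · refine ⟨true, fun x hx => ?_⟩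
        have h2 := abs_le.1 (hco x hx y hy j)
        simp only [SideNear, if_true]
        linarith [h2.1, h2.2]
    have hcl := clean_of_pos X hw Y₂.band hs hact hnear hn hj hβ
    -- the heights
    have hint : ∀ x ∈ intrinsicInterior ℝ (M.F k),
        K.slo s (K.nrm s) - (D.dat C).ht s false < X.h1.toFun x (K.nrm s) ∧
        X.h1.toFun x (K.nrm s) < K.slo s (K.nrm s) + (D.dat C).ht s true := by
      intro x hx
      have h1 := hlt x (intrinsicInterior_subset hx)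
      constructor
      · by_cases hd : (D.dat C).sd s false
        · have h2 := hlowP false hd x hx
          simp only [Abv, Bool.false_eq_true, if_false, not_le] at h2
          exact h2
        · rw [D.dat_ht_not C hd]
          linarith [h1.1]
      · by_cases hd : (D.dat C).sd s true
        · have h2 := hlowP true hd x hx
          simp only [Abv, if_true, not_le] at h2
          exact h2
        · rw [D.dat_ht_not C hd]
          linarith [h1.2]
    have hcl' : ∀ x ∈ M.F k, K.slo s (K.nrm s) - (D.dat C).ht s false ≤ X.h1.toFun x (K.nrm s) ∧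
        X.h1.toFun x (K.nrm s) ≤ K.slo s (K.nrm s) + (D.dat C).ht s true := by
      intro x hx
      have hc : ContinuousOn (fun y => X.h1.toFun y (K.nrm s)) (M.F k) :=
        ((continuous_apply _).comp_continuousOn X.h1.cont).mono (mesh_sub M k)
      have hcl : x ∈ closure (intrinsicInterior ℝ (M.F k)) := by rw [closure_relint]; exact hx
      have hev : ∀ᶠ y in 𝓝[intrinsicInterior ℝ (M.F k)] x, y ∈ intrinsicInterior ℝ (M.F k) :=
        self_mem_nhdsWithin
      have hne : (𝓝[intrinsicInterior ℝ (M.F k)] x).NeBot :=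
        mem_closure_iff_nhdsWithin_neBot.1 hcl
      have ht : Tendsto (fun y => X.h1.toFun y (K.nrm s)) (𝓝[intrinsicInterior ℝ (M.F k)] x)
          (𝓝 (X.h1.toFun x (K.nrm s))) :=
        (hc x hx).mono_left (nhdsWithin_mono _ intrinsicInterior_subset)
      exact ⟨ge_of_tendsto ht (hev.mono fun y hy => (hint y hy).1.le),
        le_of_tendsto ht (hev.mono fun y hy => (hint y hy).2.le)⟩
    have hother : ∀ s' ∈ (D.dat C).S₀, s' ≠ s → ∀ x ∈ M.F k,
        X.h1.toFun x ∉ interior ((D.dat C).PE (D.G C) s') := fun s' hs' hne x hx hi =>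
      hne (PB_eq (G := D.G C) (by norm_num) (by norm_num)
        (hht.pe_PB hs' (interior_subset hi)) (hnear x hx))
    by_cases hin : ∀ x ∈ M.F k, ∀ l, l ≠ K.nrm s → K.slo s l + (D.G C).p s < X.h1.toFun x l ∧
        X.h1.toFun x l < K.shi s l - (D.G C).p s
    · refine Y₂.ex.exZ.patIn s hs k (fun x hx => ⟨fun l hl => ?_, hcl' x hx⟩)
        (fun x hx => mem_int_pe.2 ⟨hin x (intrinsicInterior_subset hx), hint x hx⟩)
        (Or.inr hcl)
      have := hin x hx l hl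
      exact ⟨this.1.le, this.2.le⟩
    · push Not at hin
      obtain ⟨z, hz, l, hl, hzl⟩ := hin
      refine Y₂.ex.exZ.keep s hs (M.F k) (mesh_sub M k) (fun x hx _ => Or.inr ⟨l, hl, ?_⟩)
        hother (Y₂.ex.exZ.pat_clean s hs k hcl)
      have h2 := abs_le.1 (hco z hz x hx l)
      by_cases h1 : K.slo s l + (D.G C).p s < X.h1.toFun z l
      · right
        linarith [hzl h1, h2.1, h2.2]
      · left
        linarith [h2.1, h2.2]

/-- a face which is above half of the height: the labels do not change in the exchange -/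
theorem high_lev (hs : s ∈ pS C J₀) {β : Bool} (hβ : ¬ (D.dat C).sd s β) {x : V}
    (hx : x ∈ Ω) (hA : Abv K s β ((D.dat C).ht s β / 2) (X.h1.toFun x))
    (hno : ∀ s' ∈ (D.dat C).S₀, s' ≠ s → X.h1.toFun x ∉ interior ((D.dat C).PE (D.G C) s'))
    (l : Fin 3) {t : ℝ} (ht : t ∈ lvs Y₂.L.lv s l) :
    (Y₂.h2.toFun x l = t ↔ X.h1.toFun x l = t) ∧ (Y₂.h2.toFun x l < t ↔ X.h1.toFun x l < t) ∧
      (t < Y₂.h2.toFun x l ↔ t < X.h1.toFun x l) := by
  refine Y₂.ex.exZ.lev s hs x hx (fun hi => Or.inl ⟨interior_subset hi, ?_⟩) hno l t ht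
  cases β
  · right
    simp only [Abv, Bool.false_eq_true, if_false] at hA
    exact ⟨hβ, hA⟩
  · left
    simp only [Abv, if_true] at hA
    exact ⟨hβ, hA⟩

end

end Vale.Agent.P073.H341
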