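import Vale.Agent.P073.H341.PL5
import Vale.Agent.P073.H936.K3R

/-!
# P073, H341: **[DICH]**, no face crosses the wall

`WFace`: the positions, in a coordinate without boxes of ROUND T, of the faces inside a wall
(581's `wallF`).  **`low_or_high`**: on a mesh with `NW` a face in no protected cell with a point in
`HB (7/8) (3/4)` is strictly below half of the height of the box in the relative interior, at the
sides which are not protected, or it is above this height on one of these sides.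
**`dich`**: for every processed square and every face in no protected cell: off the plate, or low,
or high.
-/

set_option linter.unusedSectionVars false

open Set Metric Topology Filter
open scoped ENNReal

namespace Vale.Agent.P073.H341

open _root_.P073 _root_.P073.TR _root_.P073.H579 _root_.P073.PA691 _root_.P073.H236
open _root_.P073.H919 (lab LabPath HB mem_HB)
open _root_.P073.H880.RP (Dat ROut3 PEx)
open _root_.P073.H345 (PK tg PLev PB_sub_PK)
open _root_.P073.H155 (Band3 RelT)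
open Vale.Agent.P073.H73 (Mesh)
open Vale.Agent.P073.St (V)
open Vale.Agent.P073.H471 Vale.Agent.P073.H267 Vale.Agent.P073.H267.K3
open Vale.Agent.P073.H193 (Edges pgn_of_fat mesh_sub edges)
open Vale.Agent.P073.H805 (t1 t2 t1_ne t2_ne t_cases SideNear PB_mono PB_eq lvs mem_lvs EdgeOk
  closure_relint RelB wall_all conn_circle face_sub_of_mem)
open Vale.Agent.P073.H926 Vale.Agent.P073.H926.KIn3
open Vale.Agent.P073.H238.K3
open Vale.Agent.P073.H936.KR (QW QZG NWG NW Zw hgt)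

/-- an affine function with a maximum in the relative interior of a set is constant on it -/
theorem aff_const {A : Set V} {φ : V →ᵃ[ℝ] ℝ} {c : ℝ} (hle : ∀ x ∈ A, φ x ≤ c)
    {x₀ : V} (h₀ : x₀ ∈ intrinsicInterior ℝ A) (he : φ x₀ = c) : ∀ x ∈ A, φ x = c := by
  intro x hx
  obtain ⟨z, hz, rfl⟩ := h₀
  have hxs : x ∈ affineSpan ℝ A := subset_affineSpan ℝ A hx
  have hmem : ∀ t : ℝ, AffineMap.lineMap x (z : V) t ∈ affineSpan ℝ A := fun t =>
    AffineMap.lineMap_mem t hxs z.2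
  let γ : ℝ → affineSpan ℝ A := fun t => ⟨AffineMap.lineMap x (z : V) t, hmem t⟩
  have hγ : Continuous γ :=
    Continuous.subtype_mk AffineMap.lineMap_continuous _
  have h1 : γ 1 = z := Subtype.ext (AffineMap.lineMap_apply_one _ _)
  have hev : ∀ᶠ t in 𝓝 (1 : ℝ), γ t ∈ ((↑) ⁻¹' A : Set (affineSpan ℝ A)) := by
    have h2 : interior ((↑) ⁻¹' A : Set (affineSpan ℝ A)) ∈ 𝓝 (γ 1) := by
      rw [h1]; exact isOpen_interior.mem_nhds hz
    filter_upwards [hγ.continuousAt h2] with t ht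
    exact interior_subset ht
  obtain ⟨ε, hε, hball⟩ := Metric.eventually_nhds_iff.1 hev
  have ht : γ (1 + ε / 2) ∈ ((↑) ⁻¹' A : Set (affineSpan ℝ A)) := by
    apply hball
    rw [Real.dist_eq, add_sub_cancel_left, abs_of_pos (by linarith)]
    linarith
  have h3 := hle _ ht
  have h4 : φ (AffineMap.lineMap x (z : V) (1 + ε / 2)) =
      (1 - (1 + ε / 2)) * φ x + (1 + ε / 2) * φ z := by
    rw [AffineMap.apply_lineMap, AffineMap.lineMap_apply_module]
    simp [smul_eq_mul]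
  have h5 : φ (γ (1 + ε / 2) : V) = φ (AffineMap.lineMap x (z : V) (1 + ε / 2)) := rfl
  rw [h5, h4, he] at h3
  have h6 := hle x hx
  refine le_antisymm h6 ?_
  nlinarith

section

variable {Λ : Set V} {v : V} {K : BoxCx Λ v} {S : Rad K} {W : Wid K S} {B : Boxes W} {G : Geo B}

/-- the boxes of ROUND T near a square are not transverse to it -/
theorem ax_ne {s : K.S} {y : V} (hy : y ∈ W.ss s) {b : TBx K} (hb : y ∈ G.TB false b) :
    b.ax ≠ K.nrm s := by
  rcases b with e | H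
  · have hZe := Geo.TB_subset_Ze e hb
    have hes := edge_subset_sq hy hZe.1 (Ze_nJ hZe)
    exact (nrm_ne_dir hes).symm
  · have hH : H.s = s := by
      by_contra hne
      exact (disjoint_ss (W := W) hne).notMem_of_mem_left (Zs_subset (Geo.TB_subset_Zs H hb)) hy
    rw [← hH]
    exact H.l_n

theorem abv_iff {s : K.S} {β : Bool} {t : ℝ} {y : V} : Abv K s β t y ↔ t ≤ hgt K s β y := by
  cases β
  · simp only [Abv, hgt, Bool.false_eq_true, if_false]
    constructor <;> intro h <;> linarith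
  · simp only [Abv, hgt, if_true]
    constructor <;> intro h <;> linarith

theorem hgt_abs {s : K.S} {β : Bool} {y z : V} : |hgt K s β y - hgt K s β z| ≤ ‖y - z‖ := by
  have h1 := norm_le_pi_norm (y - z) (K.nrm s)
  rw [Real.norm_eq_abs, Pi.sub_apply] at h1
  cases β
  · simp only [hgt, Bool.false_eq_true, if_false]
    rwa [sub_sub_sub_cancel_left, abs_sub_comm]
  · simp only [hgt, if_true]
    rwa [sub_sub_sub_cancel_right]

/-- the height as an affine function -/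
theorem exists_hgt (s : K.S) (β : Bool) : ∃ φ : V →ᵃ[ℝ] ℝ, ∀ y, φ y = hgt K s β y := by
  cases β
  · refine ⟨AffineMap.const ℝ V (K.slo s (K.nrm s)) -
      (LinearMap.proj (K.nrm s) : V →ₗ[ℝ] ℝ).toAffineMap, fun y => ?_⟩
    simp [hgt]
  · refine ⟨(LinearMap.proj (K.nrm s) : V →ₗ[ℝ] ℝ).toAffineMap -
      AffineMap.const ℝ V (K.slo s (K.nrm s)), fun y => ?_⟩
    simp [hgt]

end

variable {c₀ n δ : ℝ} {j : ℕ} {Ω Λ : Set V} {v w : V} {ρ : V → ℝ} {M : Mesh Ω} {h : ConHomeo Ω Λ}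
  {J₀ J : Set (ℕ × (Fin 3 → ℤ))} {P Z : Set M.ι} {K : BoxCx Λ w}
  {D : KIn3 c₀ n j δ v w ρ M h J₀ J P Z} {C : Cells ρ w K} {C₀ μT : ℝ}

/-- the faces inside a wall, after ROUND T -/
def WFace (D : KIn3 c₀ n j δ v w ρ M h J₀ J P Z) (C : Cells ρ w K) (h1 : V → V) : Prop :=
  ∀ Q ∈ Zw D C, ∀ k, h.toFun '' M.F k ⊆ Q → ∀ l,
    (∀ b ∈ pB C J₀, (h.toFun '' M.F k ∩ (D.G C).TB false b).Nonempty → b.ax ≠ l) →
    ∀ x ∈ M.F k, ∃ x' ∈ M.F k, h1 x l = h.toFun x' l ∧
      (x' ∈ intrinsicFrontier ℝ (M.F k) → x ∈ intrinsicFrontier ℝ (M.F k))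

/-- the relative interior of the face is strictly below half of the height of the box, at the sides
which are not protected -/
def LowS (D : KIn3 c₀ n j δ v w ρ M h J₀ J P Z) (C : Cells ρ w K) (h1 : V → V) (s : K.S)
    (k : M.κ) : Prop :=
  ∀ β, ¬ (D.dat C).sd s β → ∀ x ∈ intrinsicInterior ℝ (M.F k),
    ¬ Abv K s β ((D.dat C).ht s β / 2) (h1 x)

/-- the face is above half of the height of the box, on a side which is not protected -/
def HighS (D : KIn3 c₀ n j δ v w ρ M h J₀ J P Z) (C : Cells ρ w K) (h1 : V → V) (s : K.S)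
    (k : M.κ) : Prop :=
  ∃ β, ¬ (D.dat C).sd s β ∧ ∀ x ∈ M.F k, Abv K s β ((D.dat C).ht s β / 2) (h1 x)

section

variable (X : S1 D C C₀ μT) {s : K.S} {k : M.κ}

/-- **positions** of a face with a point in `PB (7/8)` -/
theorem pos_of_PB (hs : s ∈ pS C J₀) (hP : ∀ i ∈ P, ¬ M.F k ⊆ M.Q i) {x₀ : V} (hx₀ : x₀ ∈ M.F k)
    (h₀ : X.h1.toFun x₀ ∈ (D.G C).PB (7 / 8) s) :
    (∀ x ∈ M.F k, ∀ l, l ≠ K.nrm s →
      K.slo s l + 27 / 32 * (D.G C).p s ≤ X.h1.toFun x l ∧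
        X.h1.toFun x l ≤ K.shi s l - 27 / 32 * (D.G C).p s) ∧
    (∀ x ∈ M.F k, X.h1.toFun x ∈ PK (D.G C) s) ∧
    (∀ x ∈ M.F k, ∀ y ∈ M.F k, ‖X.h1.toFun x - X.h1.toFun y‖ ≤ (D.B C).τ s / 40) ∧
    (∀ x ∈ M.F k, ∀ y ∈ M.F k, ‖h.toFun x - X.h1.toFun y‖ ≤ (D.B C).τ s / 80) ∧
      ∀ β, (D.dat C).sd s β → ∀ x ∈ intrinsicInterior ℝ (M.F k),
        ¬ Abv K s β ((D.dat C).ht s β) (X.h1.toFun x) := by
  obtain ⟨g1, g2⟩ := Geo.mem_PB.1 h₀
  have hp := Geo.p_pos (G := D.G C) s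
  have hτ := (D.B C).τ_pos s
  have e1 := (D.G C).oS_τ s
  have e2 := (D.G C).τ_p s
  have hPK : X.h1.toFun x₀ ∈ PK (D.G C) s := PB_sub_PK (by norm_num) s h₀
  obtain ⟨i, i', -, hki⟩ := M.two k
  have hkQ : M.F k ⊆ M.Q i := hki.trans inter_subset_left
  have hiP : i ∉ P := fun hi => hP i hi hkQ
  have hn := X.out.nearC D C i
  have hd : ∀ y ∈ M.F k, ‖X.h1.toFun y - X.h1.toFun x₀‖ ≤ 11 * (D.G C).oS s := fun y hy =>
    (D.pos_PK C hs hiP hn (hkQ hx₀) hPK (hkQ hy)).2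
  have hco : ∀ y ∈ M.F k, ∀ l, |X.h1.toFun y l - X.h1.toFun x₀ l| ≤ 11 * (D.G C).oS s :=
    fun y hy l => (norm_le_pi_norm (X.h1.toFun y - X.h1.toFun x₀) l).trans (hd y hy)
  have htan : ∀ x ∈ M.F k, ∀ l, l ≠ K.nrm s →
      K.slo s l + 27 / 32 * (D.G C).p s ≤ X.h1.toFun x l ∧
        X.h1.toFun x l ≤ K.shi s l - 27 / 32 * (D.G C).p s := by
    intro x hx l hl
    have h1 := abs_le.1 (hco x hx l)
    have h2 := g1 l hl
    constructor <;> linarith [h2.1, h2.2, h1.1, h1.2]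
  have hpk : ∀ x ∈ M.F k, X.h1.toFun x ∈ PK (D.G C) s := by
    intro x hx
    refine ⟨fun l hl => ?_, ?_⟩
    · have h1 := htan x hx l hl
      constructor <;> linarith [h1.1, h1.2]
    · have h1 := abs_le.1 (hco x hx (K.nrm s))
      have h2 := abs_le.1 g2
      rw [abs_le]
      constructor <;> linarith [h2.1, h2.2, h1.1, h1.2]
  refine ⟨htan, hpk, fun x hx y hy => ?_, fun x hx y hy => ?_, fun β hβ x hx hA => ?_⟩
  · calc ‖X.h1.toFun x - X.h1.toFun y‖ =
          ‖(X.h1.toFun x - X.h1.toFun x₀) - (X.h1.toFun y - X.h1.toFun x₀)‖ := by congr 1; abel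
      _ ≤ ‖X.h1.toFun x - X.h1.toFun x₀‖ + ‖X.h1.toFun y - X.h1.toFun x₀‖ := norm_sub_le _ _
      _ ≤ (D.B C).τ s / 40 := by linarith [hd x hx, hd y hy]
  · have h1 := (D.pos_PK C hs hiP hn (hkQ hy) (hpk y hy) (hkQ hx)).1
    linarith
  · have hxF := intrinsicInterior_subset hx
    obtain ⟨i₁, hi₁, hxi⟩ := D.rin_cov C X.out.rectc s β hβ x (mesh_sub M k hxF)
      (PK_sub_PX s (hpk x hxF)) hA
    exact hP i₁ hi₁ (face_sub_of_mem hx hxi)

/-- the faces which are near the height `τ / 4`, on a side which is not protected, are inside a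
slab, and they do not cross it -/
theorem wall_side (hNW : NW D C) (hW : WFace D C X.h1.toFun) (hs : s ∈ pS C J₀)
    (hP : ∀ i ∈ P, ¬ M.F k ⊆ M.Q i) {x₀ : V} (hx₀ : x₀ ∈ M.F k)
    (h₀ : X.h1.toFun x₀ ∈ (D.G C).PB (7 / 8) s) {β : Bool} (hβ : ¬ (D.dat C).sd s β) :
    (∀ x ∈ intrinsicInterior ℝ (M.F k), ¬ Abv K s β ((D.dat C).ht s β / 2) (X.h1.toFun x)) ∨
      ∀ x ∈ M.F k, Abv K s β ((D.dat C).ht s β / 2) (X.h1.toFun x) := by
  obtain ⟨htan, hpk, hosc, hnear, -⟩ := pos_of_PB X hs hP hx₀ h₀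
  have hp := Geo.p_pos (G := D.G C) s
  have hτ := (D.B C).τ_pos s
  have e2 := (D.G C).τ_p s
  have eht : (D.dat C).ht s β / 2 = (D.B C).τ s / 4 := by
    rw [D.dat_ht_not C hβ]; ring
  rw [eht]
  simp only [abv_iff]
  by_contra hcon
  push Not at hcon
  obtain ⟨⟨x₁, hx₁, hA⟩, x₂, hx₂, hB⟩ := hcon
  have hx₁' := intrinsicInterior_subset hx₁
  -- the image of the face is in the slab
  have hQ : h.toFun '' M.F k ⊆ QW (D.G C) s β := by
    rintro _ ⟨x, hx, rfl⟩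
    have h1 := hnear x hx x₁ hx₁'
    have h2 := abs_le.1 ((hgt_abs (K := K) (s := s) (β := β)).trans h1)
    have h3 := hnear x hx x₂ hx₂
    have h4 := abs_le.1 ((hgt_abs (K := K) (s := s) (β := β)).trans h3)
    refine ⟨fun l hl => ?_, ?_, ?_⟩
    · have h5 := abs_le.1 ((norm_le_pi_norm (h.toFun x - X.h1.toFun x₁) l).trans h1)
      have h6 := htan x₁ hx₁' l hl
      simp only [Pi.sub_apply] at h5
      constructor <;> linarith [h5.1, h5.2, h6.1, h6.2]
    · linarith [h2.1, h2.2]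
    · linarith [h4.1, h4.2]
  have hne : (h.toFun '' M.F k ∩ QW (D.G C) s β).Nonempty :=
    ⟨_, mem_image_of_mem _ hx₀, hQ (mem_image_of_mem _ hx₀)⟩
  have hQZ : QW (D.G C) s β ∈ Zw D C := ⟨s, hs, β, hβ, rfl⟩
  have hax : ∀ b ∈ pB C J₀, (h.toFun '' M.F k ∩ (D.G C).TB false b).Nonempty →
      b.ax ≠ K.nrm s := by
    rintro b - ⟨_, ⟨x, hx, rfl⟩, hxb⟩
    refine ax_ne (PX_sub_ss s (PX_of_near (hpk x hx) ?_)) hxb
    linarith [hnear x hx x hx]
  have key := hW _ hQZ k hQ (K.nrm s) hax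
  have hkey : ∀ x ∈ M.F k, ∃ x' ∈ M.F k, hgt K s β (X.h1.toFun x) = hgt K s β (h.toFun x') ∧
      (x' ∈ intrinsicFrontier ℝ (M.F k) → x ∈ intrinsicFrontier ℝ (M.F k)) := by
    intro x hx
    obtain ⟨x', hx', he, hf⟩ := key x hx
    refine ⟨x', hx', ?_, hf⟩
    unfold hgt
    rw [he]
  rcases hNW.side s hs β hβ k hne with H | H
  · obtain ⟨x', hx', he, -⟩ := hkey x₂ hx₂
    have := H x' hx'
    linarith
  · obtain ⟨x', hx', he, hf⟩ := hkey x₁ hx₁'
    have h1 := H x' hx'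
    have h2 : hgt K s β (h.toFun x') = (D.B C).τ s / 4 := by linarith
    have h3 : x' ∈ intrinsicInterior ℝ (M.F k) := by
      by_contra hcon
      have h4 : x' ∈ intrinsicFrontier ℝ (M.F k) := by
        rw [Vale.Agent.P073.H193.Pgn.fr_eq
          ((Vale.Agent.P073.H193.fam_of_mesh M).pgn k)]
        exact ⟨hx', hcon⟩
      have h5 := hf h4
      rw [Vale.Agent.P073.H193.Pgn.fr_eq
          ((Vale.Agent.P073.H193.fam_of_mesh M).pgn k)] at h5
      exact h5.2 hx₁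
    obtain ⟨A, hA'⟩ := hNW.aff _ hQZ k hne
    obtain ⟨φ, hφ⟩ := exists_hgt (K := K) s β
    have h4 : ∀ x ∈ M.F k, (φ.comp A) x = hgt K s β (h.toFun x) := by
      intro x hx
      rw [AffineMap.comp_apply, hφ, hA' hx]
    have h5 := aff_const (φ := φ.comp A) (c := (D.B C).τ s / 4)
      (fun x hx => by rw [h4 x hx]; exact H x hx) h3 (by rw [h4 x' hx', h2])
    obtain ⟨x'', hx'', he', -⟩ := hkey x₂ hx₂
    have h6 := h5 x'' hx''
    rw [h4 x'' hx''] at h6
    linarith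

/-- **[DICH]** -/
theorem low_or_high (hNW : NW D C) (hW : WFace D C X.h1.toFun) (hs : s ∈ pS C J₀)
    (hP : ∀ i ∈ P, ¬ M.F k ⊆ M.Q i) {x₀ : V} (hx₀ : x₀ ∈ M.F k)
    (h₀ : X.h1.toFun x₀ ∈ (D.G C).PB (7 / 8) s) :
    LowS D C X.h1.toFun s k ∨ HighS D C X.h1.toFun s k := by
  by_cases hH : HighS D C X.h1.toFun s k
  · exact Or.inr hH
  · left
    intro β hβ
    rcases wall_side X hNW hW hs hP hx₀ h₀ hβ with h1 | h1
    · exact h1
    · exact absurd ⟨β, hβ, h1⟩ hH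

/-- a low face is in the part `3 / 4` of the plate -/
theorem low_hgt (hs : s ∈ pS C J₀)
    (hP : ∀ i ∈ P, ¬ M.F k ⊆ M.Q i) {x₀ : V} (hx₀ : x₀ ∈ M.F k)
    (h₀ : X.h1.toFun x₀ ∈ (D.G C).PB (7 / 8) s) (hlow : LowS D C X.h1.toFun s k) :
    ∀ x ∈ M.F k, |X.h1.toFun x (K.nrm s) - K.slo s (K.nrm s)| ≤ 5 / 16 * (D.B C).τ s := by
  obtain ⟨htan, hpk, hosc, hnear, hlowP⟩ := pos_of_PB X hs hP hx₀ h₀
  have hτ := (D.B C).τ_pos s
  obtain ⟨z, hz⟩ := relint_nonempty (M := M) k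
  have key : ∀ β, hgt K s β (X.h1.toFun z) ≤ (D.B C).τ s / 4 := by
    intro β
    by_cases hβ : (D.dat C).sd s β
    · have h1 := hlowP β hβ z hz
      rw [abv_iff, not_le] at h1
      linarith [D.dat_ht_prot C hβ]
    · have h1 := hlow β hβ z hz
      rw [abv_iff, not_le, D.dat_ht_not C hβ] at h1
      linarith
  have h1 := key true
  have h2 := key false
  simp only [hgt, if_true, Bool.false_eq_true, if_false] at h1 h2
  intro x hx
  have h3 := abs_le.1 ((norm_le_pi_norm (X.h1.toFun x - X.h1.toFun z) (K.nrm s)).trans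
    (hosc x hx z (intrinsicInterior_subset hz)))
  simp only [Pi.sub_apply] at h3
  rw [abs_le]
  constructor <;> linarith [h3.1, h3.2]

/-- **[DICH]**: every face in no protected cell, at every processed square -/
theorem dich (hNW : NW D C) (hW : WFace D C X.h1.toFun) (hs : s ∈ pS C J₀)
    (hP : ∀ i ∈ P, ¬ M.F k ⊆ M.Q i) :
    (∀ x ∈ M.F k, X.h1.toFun x ∉ (D.G C).PB (7 / 8) s) ∨
      ((∀ x ∈ M.F k, X.h1.toFun x ∈ HB (D.G C) (27 / 32) (5 / 16) s) ∧
        LowS D C X.h1.toFun s k) ∨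
      ((∀ x ∈ M.F k, X.h1.toFun x ∈ PK (D.G C) s) ∧ HighS D C X.h1.toFun s k) := by
  by_cases hx : ∃ x₀ ∈ M.F k, X.h1.toFun x₀ ∈ (D.G C).PB (7 / 8) s
  · obtain ⟨x₀, hx₀, h₀⟩ := hx
    right
    obtain ⟨htan, hpk, hosc, hnear, hlowP⟩ := pos_of_PB X hs hP hx₀ h₀
    rcases low_or_high X hNW hW hs hP hx₀ h₀ with h1 | h1
    · exact Or.inl ⟨fun x hx => mem_HB.2 ⟨htan x hx, low_hgt X hs hP hx₀ h₀ h1 x hx⟩, h1⟩
    · exact Or.inr ⟨hpk, h1⟩
  · push Not at hx
    exact Or.inl hx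

end

end Vale.Agent.P073.H341
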