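import Vale.Agent.P073.H341.StepI
import Vale.Agent.P073.H805.Plate

/-!
# P073, H341: a further safe set of a plate

`ZOk P Z`: `Z` is a closed subset of the box of the plate `P`, and every point of `Z` can be moved
inside `Z` along the third direction to a wall. The preimage of `marg ∪ Z` is safe (`safeZ`).
-/

set_option linter.unusedSectionVars false

open Set Metric Topology Filter

namespace P073.H341

open P073 P073.TR P073.H579 P073.H805

open Vale.Agent.P073.St (V)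

section

variable {E : Type*} [NormedAddCommGroup E] [NormedSpace ℝ E] {ι : Type*} {D : Data E ι}
  {u v : E → ℝ}

theorem joinedB_union {T T' B : Set E} (h : JoinedB T B) (h' : JoinedB T' B) :
    JoinedB (T ∪ T') B := by
  rintro x (hx | hx)
  · obtain ⟨C, h1, h2, h3, h4⟩ := h x hx
    exact ⟨C, h1.trans subset_union_left, h2, h3, h4⟩
  · obtain ⟨C, h1, h2, h3, h4⟩ := h' x hx
    exact ⟨C, h1.trans subset_union_right, h2, h3, h4⟩

theorem safe_union {Y Y' : Set E} (h : Safe D u v Y) (h' : Safe D u v Y') :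
    Safe D u v (Y ∪ Y') := by
  have e : ∀ p : E → Prop, {x | x ∈ Y ∪ Y' ∧ p x} = {x | x ∈ Y ∧ p x} ∪ {x | x ∈ Y' ∧ p x} := by
    intro p; ext x; simp only [mem_ofPred_eq, mem_union]; tauto
  refine ⟨h.closed.union h'.closed, union_subset h.sub h'.sub, joinedB_union h.all h'.all,
    fun k hk => ?_, fun l hl => ?_, fun k hk l hl => ?_⟩
  · rw [e]; exact joinedB_union (h.ju k hk) (h'.ju k hk)
  · rw [e]; exact joinedB_union (h.jv l hl) (h'.jv l hl)
  · rw [e]; exact joinedB_union (h.juv k hk l hl) (h'.juv k hk l hl)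

end

/-- a closed subset of the box of `P`; every point can be moved inside of the set along the third
direction to a wall -/
structure ZOk (P : Plate) (Z : Set V) : Prop where
  closed : IsClosed Z
  sub : Z ⊆ Icc P.lo P.hi
  move : ∀ y ∈ Z, ∃ n, n ≠ P.i ∧ n ≠ P.j ∧ ∃ c, (c = P.lo n ∨ c = P.hi n) ∧
    ∀ t ∈ uIcc (y n) c, Function.update y n t ∈ Z

theorem ZOk.empty (P : Plate) : ZOk P ∅ :=
  ⟨isClosed_empty, empty_subset _, fun _ h => absurd h (notMem_empty _)⟩

theorem ZOk.union {P : Plate} {Z Z' : Set V} (h : ZOk P Z) (h' : ZOk P Z') : ZOk P (Z ∪ Z') := by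
  refine ⟨h.closed.union h'.closed, union_subset h.sub h'.sub, ?_⟩
  rintro y (hy | hy)
  · obtain ⟨n, h1, h2, c, h3, h4⟩ := h.move y hy
    exact ⟨n, h1, h2, c, h3, fun t ht => Or.inl (h4 t ht)⟩
  · obtain ⟨n, h1, h2, c, h3, h4⟩ := h'.move y hy
    exact ⟨n, h1, h2, c, h3, fun t ht => Or.inr (h4 t ht)⟩

theorem ZOk.iUnion {P : Plate} {κ : Type*} [Finite κ] {Z : κ → Set V} (h : ∀ k, ZOk P (Z k)) :
    ZOk P (⋃ k, Z k) := by
  refine ⟨isClosed_iUnion_of_finite fun k => (h k).closed, iUnion_subset fun k => (h k).sub, ?_⟩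
  intro y hy
  obtain ⟨k, hk⟩ := mem_iUnion.1 hy
  obtain ⟨n, h1, h2, c, h3, h4⟩ := (h k).move y hk
  exact ⟨n, h1, h2, c, h3, fun t ht => mem_iUnion.2 ⟨k, h4 t ht⟩⟩

/-- a box whose side in the third direction contains a wall -/
theorem ZOk.icc {P : Plate} {n : Fin 3} (hi : n ≠ P.i) (hj : n ≠ P.j) {a b : V}
    (ha : P.lo ≤ a) (hb : b ≤ P.hi) (hn : a n = P.lo n ∨ b n = P.hi n) :
    ZOk P (Icc a b) := by
  refine ⟨isClosed_Icc, Icc_subset_Icc ha hb, fun y hy => ⟨n, hi, hj, ?_⟩⟩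
  have key : ∀ t, a n ≤ t → t ≤ b n → Function.update y n t ∈ Icc a b := by
    intro t h1 h2
    constructor
    · intro k
      by_cases hk : k = n
      · subst hk; rw [Function.update_self]; exact h1
      · rw [Function.update_of_ne hk]; exact hy.1 k
    · intro k
      by_cases hk : k = n
      · subst hk; rw [Function.update_self]; exact h2
      · rw [Function.update_of_ne hk]; exact hy.2 k
  rcases hn with hn | hn
  · refine ⟨P.lo n, Or.inl rfl, fun t ht => ?_⟩
    rw [← hn, uIcc_of_ge (hy.1 n)] at ht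
    exact key t ht.1 (ht.2.trans (hy.2 n))
  · refine ⟨P.hi n, Or.inr rfl, fun t ht => ?_⟩
    rw [← hn, uIcc_of_le (hy.2 n)] at ht
    exact key t ((hy.1 n).trans ht.1) ht.2

variable {Ω Λ : Set V} {P : Plate} {h : ConHomeo Ω Λ}

/-- **the preimage of `marg ∪ Z` is safe** -/
theorem safeZ {ι : Type*} (H : P.Ok Λ) (M : ι → Set V) {Z : Set V} (hZ : ZOk P Z) :
    Safe (boxData h M P.lo P.hi P.i P.j P.a P.b) (fun x => h.toFun x P.i)
      (fun x => h.toFun x P.j) (P.Y h ∪ h.invFun '' Z) := by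
  refine safe_union (Plate.safe H M) ?_
  have hZΛ : Z ⊆ Λ := hZ.sub.trans H.sub
  have hcl : IsClosed (h.invFun '' Z) :=
    ((isCompact_Icc.of_isClosed_subset hZ.closed hZ.sub).image_of_continuousOn
      (h.cont_inv.mono hZΛ)).isClosed
  have hsub : h.invFun '' Z ⊆ P.U h := image_mono hZ.sub
  have hmem : ∀ {x}, x ∈ h.invFun '' Z → h.toFun x ∈ Z := by
    rintro _ ⟨y, hy, rfl⟩
    rw [h.right_inv (hZΛ hy)]; exact hy
  refine ⟨hcl, hsub, ?_, ?_, ?_, ?_⟩
  · intro x hx
    obtain ⟨n, -, -, c, hc, hT⟩ := hZ.move _ (hmem hx)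
    exact Plate.joined H (hsub hx) hc fun t ht => ⟨_, hT t ht, rfl⟩
  · rintro k hk x ⟨hx, hxk⟩
    obtain ⟨n, hi, hj, c, hc, hT⟩ := hZ.move _ (hmem hx)
    refine Plate.joined H (hsub hx) hc fun t ht => ⟨⟨_, hT t ht, rfl⟩, ?_⟩
    show h.toFun (h.invFun _) P.i = k
    rw [h.right_inv (hZΛ (hT t ht)), Function.update_of_ne hi.symm]
    exact hxk
  · rintro k hk x ⟨hx, hxk⟩
    obtain ⟨n, hi, hj, c, hc, hT⟩ := hZ.move _ (hmem hx)
    refine Plate.joined H (hsub hx) hc fun t ht => ⟨⟨_, hT t ht, rfl⟩, ?_⟩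
    show h.toFun (h.invFun _) P.j = k
    rw [h.right_inv (hZΛ (hT t ht)), Function.update_of_ne hj.symm]
    exact hxk
  · rintro k hk l hl x ⟨hx, hxk, hxl⟩
    obtain ⟨n, hi, hj, c, hc, hT⟩ := hZ.move _ (hmem hx)
    refine Plate.joined H (hsub hx) hc fun t ht => ⟨⟨_, hT t ht, rfl⟩, ?_, ?_⟩
    · show h.toFun (h.invFun _) P.i = k
      rw [h.right_inv (hZΛ (hT t ht)), Function.update_of_ne hi.symm]
      exact hxk
    · show h.toFun (h.invFun _) P.j = l
      rw [h.right_inv (hZΛ (hT t ht)), Function.update_of_ne hj.symm]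
      exact hxl

end P073.H341
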