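import Vale.Agent.P073.H341.E3K
import Vale.Agent.P073.H341.SafeZ
import Vale.Agent.P073.H805.PlateC

/-!
# P073, H341: **[PLATE-Z]**, plates with a further safe set, and arbitrary flat pieces

Input `PlateInZ`: flat convex pieces `A t` (faces of the mesh, or strips of faces), a family of sets
`G` (which contains the pieces), plates `P c`, safe sets `Z c` in the target (`ZOk`).
`ebox`: the data of `exists_e3K_all` for one plate; `ebox_ok`.
-/

set_option linter.unusedSectionVars false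

open Set Metric Topology Filter

namespace P073.H341

open P073 P073.TR P073.H579 P073.H805

open Vale.Agent.P073.H238 (PFace)

open Vale.Agent.P073.St (V)

variable {Ω Λ : Set V} {Γ γ τ : Type}

/-- the safe set of a plate in the domain -/
def YZ (h : ConHomeo Ω Λ) (P : γ → Plate) (Z : γ → Set V) (c : γ) : Set V :=
  (P c).Y h ∪ h.invFun '' Z c

/-- **input of [PLATE-Z]**; `Act` are the listed pieces -/
structure PlateInZ (h : ConHomeo Ω Λ) (A : τ → Set V) (G : Γ → Set V) (P : γ → Plate)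
    (Z : γ → Set V) (Act : Set τ) : Prop where
  ok : ∀ c, (P c).Ok Λ
  zok : ∀ c, ZOk (P c) (Z c)
  lf : ∀ y ∈ Λ, ∃ O ∈ 𝓝 y, {c | (Icc (P c).lo (P c).hi ∩ O).Nonempty}.Finite
  dis : ∀ c d, c ≠ d → Disjoint (interior (Icc (P c).lo (P c).hi)) (Icc (P d).lo (P d).hi)
  closed : ∀ g, IsClosed (G g)
  cone : ∀ g, ∀ x ∈ Ω, LocConeAt (G g) x
  fin : ∀ x ∈ Ω, ∃ O ∈ 𝓝 x, {g | (G g ∩ O).Nonempty}.Finite
  tfin : ∀ x ∈ Ω, ∃ O ∈ 𝓝 x, {t | (A t ∩ O).Nonempty}.Finite
  piece : ∀ t ∈ Act, ∃ g, G g = A t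
  mesh : ∀ t ∈ Act, ∀ g, A t ⊆ G g ∨ Disjoint (intrinsicInterior ℝ (A t)) (G g)
  regi : ∀ c, ∀ x ∈ Ω, h.toFun x (P c).i ∈ (P c).a →
    Reg (fun y => h.toFun y (P c).i) (pFam h G P) x
  regj : ∀ c, ∀ x ∈ Ω, h.toFun x (P c).j ∈ (P c).b →
    Reg (fun y => h.toFun y (P c).j) (pFam h G P) x
  regij : ∀ c, ∀ x ∈ Ω, h.toFun x (P c).i ∈ (P c).a → h.toFun x (P c).j ∈ (P c).b →
    Reg (fun y => (h.toFun y (P c).i, h.toFun y (P c).j)) (pFam h G P) x

namespace PlateInZ

variable {h : ConHomeo Ω Λ} {A : τ → Set V} {G : Γ → Set V} {P : γ → Plate}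
  {Z : γ → Set V} {Act : Set τ}

theorem U_sub (H : PlateInZ h A G P Z Act) (c : γ) : (P c).U h ⊆ Ω := fun _ hx =>
  ((H.ok c).mem_U.1 hx).1

theorem fam_lf (H : PlateInZ h A G P Z Act) (hΩ : IsOpen Ω) :
    ∀ x ∈ Ω, ∃ O ∈ 𝓝 x, {g | (pFam h G P g ∩ O).Nonempty}.Finite := by
  intro x hx
  obtain ⟨O, hO, hf⟩ := H.fin x hx
  obtain ⟨O', hO', hf'⟩ := lf_U hΩ H.ok H.lf x hx
  refine ⟨O ∩ O', inter_mem hO hO', ((hf.image Sum.inl).union
    ((hf'.prod (finite_univ : (univ : Set Bool).Finite)).image Sum.inr)).subset ?_⟩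
  rintro (g | ⟨c, b⟩) ⟨y, hy, hyO, hyO'⟩
  · exact Or.inl ⟨g, ⟨y, hy, hyO⟩, rfl⟩
  · refine Or.inr ⟨(c, b), ⟨⟨y, ?_, hyO'⟩, mem_univ _⟩, rfl⟩
    cases b
    · exact Plate.B_sub hy
    · exact hy

/-- the pieces inside the box -/
abbrev Fac (h : ConHomeo Ω Λ) (A : τ → Set V) (P : γ → Plate) (Act : Set τ) (c : γ) : Type :=
  {t : τ // (A t ⊆ (P c).U h ∧ Disjoint (intrinsicInterior ℝ (A t)) ((P c).B h)) ∧
    (A t).Nonempty ∧ t ∈ Act}

theorem finite_idx (H : PlateInZ h A G P Z Act) (hΩ : IsOpen Ω) (c : γ) :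
    Finite (PlateIn.Idx h G P c) :=
  (finite_meet (H.fam_lf hΩ) (H.ok c).isCompact_U (H.U_sub c)).to_subtype

theorem finite_fac (H : PlateInZ h A G P Z Act) (c : γ) : Finite (Fac h A P Act c) := by
  have h1 := finite_meet H.tfin (H.ok c).isCompact_U (H.U_sub c)
  have h2 : {t | (A t ⊆ (P c).U h ∧ Disjoint (intrinsicInterior ℝ (A t)) ((P c).B h)) ∧
      (A t).Nonempty ∧ t ∈ Act}.Finite := by
    refine h1.subset ?_
    rintro t ⟨⟨ht, -⟩, ⟨x, hx⟩, -⟩
    exact ⟨x, hx, ht hx⟩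
  exact h2.to_subtype

/-- the index of a piece in the family -/
noncomputable def gi (H : PlateInZ h A G P Z Act) (c : γ) (t : Fac h A P Act c) :
    PlateIn.Idx h G P c :=
  ⟨Sum.inl (H.piece t.1 t.2.2.2).choose, by
    obtain ⟨x, hx⟩ := t.2.2.1
    refine ⟨x, ?_, t.2.1.1 hx⟩
    show x ∈ G _
    rw [(H.piece t.1 t.2.2.2).choose_spec]; exact hx⟩

theorem fm_gi (H : PlateInZ h A G P Z Act) (c : γ) (t : Fac h A P Act c) :
    PlateIn.fm h G P c (H.gi c t) = A t.1 := (H.piece t.1 t.2.2.2).choose_spec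

/-- the piece as a flat face of the data -/
noncomputable def fc (H : PlateInZ h A G P Z Act) (pf : ∀ t, PFace (A t)) (c : γ)
    (t : Fac h A P Act c) :
    Face (boxData h (PlateIn.fm h G P c) (P c).lo (P c).hi (P c).i (P c).j (P c).a (P c).b) where
  i₀ := H.gi c t
  o := (pf t.1).o
  L := (pf t.1).L
  C := (pf t.1).C
  inj := (pf t.1).inj
  convex := (pf t.1).convex
  compact := (pf t.1).compact
  cone := (pf t.1).cone
  int := (pf t.1).int
  eq := (H.fm_gi c t).trans (pf t.1).eq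
  subU := by
    show PlateIn.fm h G P c (H.gi c t) ⊆ (P c).U h
    rw [H.fm_gi]; exact t.2.1.1
  intB := fun z hz hB => by
    refine Set.disjoint_left.1 t.2.1.2 ?_ hB
    rw [(pf t.1).intrinsicInterior_eq]
    exact mem_image_of_mem _ hz

/-- the data of the exchange process in the plate -/
noncomputable def ebox (H : PlateInZ h A G P Z Act) (pf : ∀ t, PFace (A t)) (hΩ : IsOpen Ω)
    (c : γ) : EBox (E := V) h :=
  haveI := H.finite_idx hΩ c
  haveI := H.finite_fac c
  { ι := PlateIn.Idx h G P c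
    J := Fac h A P Act c
    fin := inferInstance
    fint := Fintype.ofFinite _
    M := PlateIn.fm h G P c
    lo := (P c).lo
    hi := (P c).hi
    i := (P c).i
    j := (P c).j
    a := (P c).a
    b := (P c).b
    F := H.fc pf c
    Y := YZ h P Z c }

theorem bd_fc (H : PlateInZ h A G P Z Act) (pf : ∀ t, PFace (A t)) (c : γ)
    (t : Fac h A P Act c) : (H.fc pf c t).bd = intrinsicFrontier ℝ (A t.1) :=
  (pf t.1).intrinsicFrontier_eq.symm

theorem cone_fam (H : PlateInZ h A G P Z Act) (g : Γ ⊕ (γ × Bool)) :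
    ∀ x ∈ Ω, LocConeAt (pFam h G P g) x := by
  intro x hx
  have hb : ∀ c, ConBall 3 ((P c).U h) ((P c).B h) := fun c =>
    (conBall_Icc_pi three_ne_zero (H.ok c).lt).image h.symm (H.ok c).sub
  match g with
  | Sum.inl g => exact H.cone g x hx
  | Sum.inr (c, true) => exact (hb c).locCone x
  | Sum.inr (c, false) => exact (hb c).locCone_bdry x

/-- **the hypotheses of the exchange process hold in every plate** -/
theorem ebox_ok (H : PlateInZ h A G P Z Act) (pf : ∀ t, PFace (A t)) (hΩ : IsOpen Ω) (c : γ) :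
    OkK (H.ebox pf hΩ c) := by
  have oc := H.ok c
  have hUU : ((P c).U h).Nonempty := by
    refine ⟨h.invFun (P c).lo, _, left_mem_Icc.2 fun l => (oc.lt l).le, rfl⟩
  have hBB : ((P c).B h).Nonempty := by
    refine ⟨h.invFun (P c).lo, _, mem_frontier_box.2 ⟨left_mem_Icc.2 fun l => (oc.lt l).le,
      (P c).i, Or.inl rfl⟩, rfl⟩
  have re : ∀ {F : Type} [NormedAddCommGroup F] [NormedSpace ℝ F] {w : V → F} {x : V},
      H805.Reg w (pFam h G P) x → H805.Reg w (PlateIn.fm h G P c) x := fun hr =>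
    hr.reindex fun g => ⟨g.1, rfl⟩
  have s0 := oc.s0
  refine ⟨⟨hΩ, fun g => H.cone_fam g.1, oc.lt, oc.sub, oc.ij, ?_, ?_, ?_, ?_, ?_, ?_, ?_⟩,
    ?_, ?_⟩
  · intro k hk
    have := oc.a_mem k hk
    show (P c).lo (P c).i < k ∧ k < (P c).hi (P c).i
    constructor <;> linarith
  · intro k hk
    have := oc.b_mem k hk
    show (P c).lo (P c).j < k ∧ k < (P c).hi (P c).j
    constructor <;> linarith
  · obtain ⟨x, hx⟩ := hUU
    exact ⟨⟨Sum.inr (c, true), x, hx, hx⟩, rfl⟩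
  · obtain ⟨x, hx⟩ := hBB
    exact ⟨⟨Sum.inr (c, false), x, hx, Plate.B_sub hx⟩, rfl⟩
  · exact fun x hx hk => re (H.regi c x (H.U_sub c hx) hk)
  · exact fun x hx hk => re (H.regj c x (H.U_sub c hx) hk)
  · exact fun x hx hk hl => re (H.regij c x (H.U_sub c hx) hk hl)
  · -- the mesh condition
    rintro (k : Fac h A P Act c) ⟨g, hg⟩
    have key : ∀ B : Set V, IsClosed B → Disjoint (intrinsicInterior ℝ (A k.1)) B →
        ∀ z ∈ interior (H.fc pf c k).C, ∀ᶠ y in 𝓝 ((H.fc pf c k).ch z), y ∉ B := by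
      intro B hB hd z hz
      refine hB.isOpen_compl.mem_nhds fun hzA => Set.disjoint_left.1 hd ?_ hzA
      rw [(pf k.1).intrinsicInterior_eq]
      exact mem_image_of_mem _ hz
    show PlateIn.fm h G P c (H.gi c k) ⊆ pFam h G P g ∨
      ∀ z ∈ interior (H.fc pf c k).C, ∀ᶠ y in 𝓝 ((H.fc pf c k).ch z), y ∉ pFam h G P g
    rw [H.fm_gi]
    match g, hg with
    | Sum.inl g, _ =>
      rcases H.mesh k.1 k.2.2.2 g with h1 | h1
      · exact Or.inl h1
      · exact Or.inr (key _ (H.closed g) h1)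
    | Sum.inr (d, e), _ =>
      by_cases hdc : d = c
      · subst hdc
        cases e
        · exact Or.inr (key _ (H.ok d).isCompact_B.isClosed k.2.1.2)
        · exact Or.inl k.2.1.1
      · have h1 : Disjoint (intrinsicInterior ℝ (A k.1)) ((P d).U h) := by
          rw [Set.disjoint_left]
          intro x hx hxd
          have hxU : x ∈ (P c).U h := k.2.1.1 (intrinsicInterior_subset hx)
          have hxB : x ∉ (P c).B h := Set.disjoint_left.1 k.2.1.2 hx
          obtain ⟨hxΩ, hxc⟩ := oc.mem_U.1 hxU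
          have h2 : h.toFun x ∈ interior (Icc (P c).lo (P c).hi) := by
            by_contra h3
            apply hxB
            rw [oc.mem_B, isClosed_Icc.frontier_eq]
            exact ⟨hxΩ, hxc, h3⟩
          exact Set.disjoint_left.1 (H.dis c d (Ne.symm hdc)) h2 ((H.ok d).mem_U.1 hxd).2
        right
        cases e
        · exact key _ (H.ok d).isCompact_B.isClosed (h1.mono_right Plate.B_sub)
        · exact key _ (H.ok d).isCompact_U.isClosed h1
  · exact safeZ oc _ (H.zok c)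

end PlateInZ

end P073.H341
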