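import Vale.Agent.P073.H341.PlateZ

/-!
# P073, H341: **[PLATE-Z]**, the output

`exists_platesZ`: as 805's `exists_plates`, for arbitrary flat pieces and with a further safe set in
every plate. All listed pieces satisfy `clean` (every clean disc meets the safe set); the pieces with
`TouchP` have a pattern (`inner`); sets which meet the plate only in the safe set keep their levels
and any pattern (`lev`, `keep`).
-/

set_option linter.unusedSectionVars false

open Set Metric Topology Filter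

namespace P073.H341

open P073 P073.TR P073.H579 P073.H805

open Vale.Agent.P073.H238 (PFace)

open Vale.Agent.P073.St (V)

variable {Ω Λ : Set V} {Γ γ τ : Type}

/-- the traces of the levels of `P` on a piece, in the chart -/
def trP {A : Set V} (F : PFace A) (g : V → V) (P : Plate) : Bool → Set H579.P :=
  traces F.C (fun i => bif i then (fun x => g x P.j) ∘ F.ch else (fun x => g x P.i) ∘ F.ch)
    (fun i => bif i then (P.b : Set ℝ) else P.a)

theorem mem_trP_false {A : Set V} {F : PFace A} {g : V → V} {P : Plate} {z : H579.P} :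
    z ∈ trP F g P false ↔ z ∈ F.C ∧ g (F.ch z) P.i ∈ P.a := Iff.rfl

theorem mem_trP_true {A : Set V} {F : PFace A} {g : V → V} {P : Plate} {z : H579.P} :
    z ∈ trP F g P true ↔ z ∈ F.C ∧ g (F.ch z) P.j ∈ P.b := Iff.rfl

/-- the relative interior of the piece misses the safe set, or the piece has no crossing points and
no circles -/
def TouchP (h : ConHomeo Ω Λ) (P : γ → Plate) (Z : γ → Set V) (c : γ) (A : Set V) : Prop :=
  Disjoint (intrinsicInterior ℝ A) (YZ h P Z c) ∨ Clean h.toFun (P c) A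

/-- the pattern of a piece without crossing points and circles -/
theorem hasPat_cleanP {ι : Type*} {F : ι → Set V} (hΩ : IsOpen Ω) (h : ConHomeo Ω Λ) {P : Plate}
    (hij : P.i ≠ P.j) {A : Set V} (pf : PFace A) (hA : A ⊆ Ω) (hk : ∃ m, F m = A)
    (hball : ConBall 2 A (intrinsicFrontier ℝ A))
    (ra : ∀ x ∈ A, h.toFun x P.i ∈ P.a → H805.Reg (fun y => h.toFun y P.i) F x)
    (rb : ∀ x ∈ A, h.toFun x P.j ∈ P.b → H805.Reg (fun y => h.toFun y P.j) F x)
    (hc : Clean h.toFun P A) : HasPat A h.toFun P := by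
  obtain ⟨m, hm⟩ := hk
  have H : LevReg F A (pr2 (fun x => h.toFun x P.i) fun x => h.toFun x P.j)
      (fun c => bif c then P.b else P.a) :=
    LevReg.of_homeo hΩ h hA ra rb fun x hx h1 h2 => absurd h2 (hc.1 x hx h1)
  rw [pf.intrinsicFrontier_eq] at hball
  obtain ⟨K, hK, S, cd, lev, h1⟩ := exists_facePat_off H pf hm hball
    (fun b l hl σ hσ hs => by
      have h2 := hc.2 σ hσ fun x hx => (hs hx).1
      cases b
      · exact h2.1 fun x hx => by
          have h3 : h.toFun x P.i = l := (hs hx).2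
          rw [h3]; exact hl
      · exact h2.2 fun x hx => by
          have h3 : h.toFun x P.j = l := (hs hx).2
          rw [h3]; exact hl)
    (fun x hx h1 => hc.1 x hx h1)
  rw [← pf.intrinsicFrontier_eq] at h1
  exact HasPat.of hij (FacePat.coords hij h1)

/-- the pattern of a piece on which the pair is injective -/
theorem hasPat_injP {ι : Type*} {F : ι → Set V} (hΩ : IsOpen Ω) (h : ConHomeo Ω Λ) {P : Plate}
    (hij : P.i ≠ P.j) {A : Set V} (pf : PFace A) (hA : A ⊆ Ω) (hk : ∃ m, F m = A)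
    (hball : ConBall 2 A (intrinsicFrontier ℝ A))
    (ra : ∀ x ∈ A, h.toFun x P.i ∈ P.a → H805.Reg (fun y => h.toFun y P.i) F x)
    (rb : ∀ x ∈ A, h.toFun x P.j ∈ P.b → H805.Reg (fun y => h.toFun y P.j) F x)
    (rab : ∀ x ∈ A, h.toFun x P.i ∈ P.a → h.toFun x P.j ∈ P.b →
      H805.Reg (fun y => (h.toFun y P.i, h.toFun y P.j)) F x)
    (hinj : ∀ x ∈ A, ∀ y ∈ A, h.toFun x P.i = h.toFun y P.i →
      h.toFun x P.j = h.toFun y P.j → x = y) : HasPat A h.toFun P := by
  obtain ⟨m, hm⟩ := hk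
  have H : LevReg F A (pr2 (fun x => h.toFun x P.i) fun x => h.toFun x P.j)
      (fun c => bif c then P.b else P.a) := LevReg.of_homeo hΩ h hA ra rb rab
  rw [pf.intrinsicFrontier_eq] at hball
  obtain ⟨K, hK, S, cd, lev, h1⟩ := exists_facePat_inj H pf hm hball hinj
  rw [← pf.intrinsicFrontier_eq] at h1
  exact HasPat.of hij (FacePat.coords hij h1)

/-- **output of [PLATE-Z]** -/
structure PlatesOutZ (h h' : ConHomeo Ω Λ) (A : τ → Set V) (pf : ∀ t, PFace (A t))
    (G : Γ → Set V) (P : γ → Plate) (Z : γ → Set V) (Act : Set τ) : Prop where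
  /-- nothing changes off the plates -/
  off : ∀ x ∈ Ω, (∀ c, h.toFun x ∉ interior (Icc (P c).lo (P c).hi)) → h'.toFun x = h.toFun x
  /-- the plates are preserved -/
  box : ∀ c, ∀ x ∈ Ω, h'.toFun x ∈ Icc (P c).lo (P c).hi ↔ h.toFun x ∈ Icc (P c).lo (P c).hi
  /-- the levels on the safe set are unchanged -/
  levi : ∀ c, SameLev (P c).a (YZ h P Z c) (fun x => h'.toFun x (P c).i)
    (fun x => h.toFun x (P c).i)
  levj : ∀ c, SameLev (P c).b (YZ h P Z c) (fun x => h'.toFun x (P c).j)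
    (fun x => h.toFun x (P c).j)
  /-- all levels of `c`, on the safe set and off the plates -/
  lev : ∀ c, ∀ x ∈ Ω, (x ∈ (P c).U h → x ∈ YZ h P Z c ∪ (P c).B h) →
    (∀ d, d ≠ c → x ∈ (P d).U h → x ∈ (P d).B h) → ∀ l, ∀ k ∈ (P c).lv l,
    (h'.toFun x l = k ↔ h.toFun x l = k) ∧ (h'.toFun x l < k ↔ h.toFun x l < k) ∧
      (k < h'.toFun x l ↔ k < h.toFun x l)
  /-- sets which meet the plate only in the safe set keep any pattern -/
  keep : ∀ c, ∀ S : Set V, S ⊆ Ω → S ∩ (P c).U h ⊆ YZ h P Z c ∪ (P c).B h →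
    (∀ d, d ≠ c → S ∩ (P d).U h ⊆ (P d).B h) → HasPat S h.toFun (P c) →
    HasPat S h'.toFun (P c)
  /-- every clean disc of a listed piece inside the plate meets the safe set -/
  clean : ∀ c, ∀ t ∈ Act, A t ⊆ (P c).U h → Disjoint (intrinsicInterior ℝ (A t)) ((P c).B h) →
    ∀ K, CleanDisc (pf t).C (trP (pf t) h'.toFun (P c)) K →
    ¬ Disjoint ((pf t).ch '' K) (YZ h P Z c)
  /-- listed pieces inside a plate, with `TouchP` -/
  inner : ∀ c, ∀ t ∈ Act, A t ⊆ (P c).U h → Disjoint (intrinsicInterior ℝ (A t)) ((P c).B h) →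
    ConBall 2 (A t) (intrinsicFrontier ℝ (A t)) → TouchP h P Z c (A t) →
    HasPat (A t) h'.toFun (P c)
  /-- no new crossing points or circles on sets of the family inside the plate -/
  noCirc : ∀ c g, G g ⊆ (P c).U h → Clean h.toFun (P c) (G g) → Clean h'.toFun (P c) (G g)
  /-- the sets of the family cross the levels -/
  crossi : ∀ c g, (∀ d, d ≠ c → G g ∩ (P d).U h ⊆ (P d).B h) → ∀ x ∈ G g, x ∈ Ω →
    h'.toFun x (P c).i ∈ (P c).a → H805.Crosses (G g) (fun y => h'.toFun y (P c).i) x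
  crossj : ∀ c g, (∀ d, d ≠ c → G g ∩ (P d).U h ⊆ (P d).B h) → ∀ x ∈ G g, x ∈ Ω →
    h'.toFun x (P c).j ∈ (P c).b → H805.Crosses (G g) (fun y => h'.toFun y (P c).j) x
  /-- counts -/
  count : ∀ c g, (∀ d, d ≠ c → G g ∩ (P d).U h ⊆ (P d).B h) → G g ⊆ Ω →
    (∀ x ∈ G g, h.toFun x (P c).i ∈ (P c).a → h.toFun x (P c).j ∉ (P c).b) →
    (ptsI h.toFun (P c) (G g)).Finite → (ptsJ h.toFun (P c) (G g)).Finite →
    (∀ x ∈ G g, h'.toFun x (P c).i ∈ (P c).a → h'.toFun x (P c).j ∉ (P c).b) ∧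
    (ptsI h'.toFun (P c) (G g)).Finite ∧ (ptsJ h'.toFun (P c) (G g)).Finite ∧
    (ptsI h'.toFun (P c) (G g)).ncard + (ptsJ h'.toFun (P c) (G g)).ncard ≤
      (ptsI h.toFun (P c) (G g)).ncard + (ptsJ h.toFun (P c) (G g)).ncard
  /-- regularity -/
  reg : ∀ c, ∃ u v : V → ℝ, PReg h h' G P c u v

/-- **[PLATE-Z]** -/
theorem exists_platesZ (hΩ : IsOpen Ω) (hΛ : IsOpen Λ) {h : ConHomeo Ω Λ} {A : τ → Set V}
    (pf : ∀ t, PFace (A t)) {G : Γ → Set V} {P : γ → Plate} {Z : γ → Set V} {Act : Set τ}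
    (H : PlateInZ h A G P Z Act) :
    ∃ h' : ConHomeo Ω Λ, PlatesOutZ h h' A pf G P Z Act := by
  have h3 : Module.finrank ℝ V = 3 := by simp
  obtain ⟨h', hout, -, hbox, hoff⟩ := exists_e3K_all h3 hΩ hΛ h (fun c => H.ebox pf hΩ c)
    (fun c => H.ebox_ok pf hΩ c) H.lf H.dis
  have hO : ∀ c, E3OutK h (PlateIn.fm h G P c) (P c).lo (P c).hi (P c).i (P c).j (P c).a (P c).b
      (H.fc pf c) (YZ h P Z c) h'.toFun := hout
  have hoff' : ∀ x ∈ Ω, (∀ c, h.toFun x ∉ interior (Icc (P c).lo (P c).hi)) →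
      h'.toFun x = h.toFun x := hoff
  -- a point which is in no open plate
  have mem_int : ∀ c, ∀ x ∈ Ω, h.toFun x ∈ interior (Icc (P c).lo (P c).hi) →
      x ∈ (P c).U h ∧ x ∉ (P c).B h := by
    intro c x hx hxi
    refine ⟨(H.ok c).mem_U.2 ⟨hx, interior_subset hxi⟩, fun hB => ?_⟩
    have := ((H.ok c).mem_B.1 hB).2
    rw [isClosed_Icc.frontier_eq] at this
    exact this.2 hxi
  -- equality on a set, off the plate `c`
  have eq_of : ∀ c (A : Set V), (∀ d, d ≠ c → A ∩ (P d).U h ⊆ (P d).B h) → ∀ x ∈ A, x ∈ Ω →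
      x ∉ (P c).U h \ (P c).B h → h'.toFun x = h.toFun x := by
    intro c A hA x hx hxΩ hxU
    refine hoff' x hxΩ fun d hd => ?_
    obtain ⟨h1, h2⟩ := mem_int d x hxΩ hd
    by_cases hdc : d = c
    · subst hdc; exact hxU ⟨h1, h2⟩
    · exact h2 (hA d hdc ⟨hx, h1⟩)
  -- the levels which do not change
  have hlev : ∀ c, ∀ x ∈ Ω, (x ∈ (P c).U h → x ∈ YZ h P Z c ∪ (P c).B h) →
      (∀ d, d ≠ c → x ∈ (P d).U h → x ∈ (P d).B h) → ∀ l, ∀ k ∈ (P c).lv l,
      (h'.toFun x l = k ↔ h.toFun x l = k) ∧ (h'.toFun x l < k ↔ h.toFun x l < k) ∧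
        (k < h'.toFun x l ↔ k < h.toFun x l) := by
    intro c x hxΩ hxc hxd l z hz
    by_cases hxU : x ∈ (P c).U h \ (P c).B h
    · have hxY : x ∈ YZ h P Z c := (hxc hxU.1).resolve_right hxU.2
      by_cases hl : l = (P c).i
      · subst hl
        rw [Plate.lv_i] at hz
        exact (hO c).levi z hz x hxY
      · by_cases hl' : l = (P c).j
        · subst hl'
          rw [Plate.lv_j _ (H.ok c).ij] at hz
          exact (hO c).levj z hz x hxY
        · exfalso
          simp [Plate.lv, hl, hl'] at hz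
    · rw [eq_of c {x} (fun d hd => by rintro _ ⟨rfl, hy⟩; exact hxd d hd hy) x rfl hxΩ hxU]
      exact ⟨Iff.rfl, Iff.rfl, Iff.rfl⟩
  refine ⟨h', hoff', hbox, fun c => (hO c).levi, fun c => (hO c).levj, hlev, ?_, ?_, ?_, ?_, ?_,
    ?_, ?_, ?_⟩
  · intro c S hSΩ hSc hSd hS
    exact hS.congr fun l k hk x hx => hlev c x (hSΩ hx) (fun hxU => hSc ⟨hx, hxU⟩)
      (fun d hd hxU => hSd d hd ⟨hx, hxU⟩) l k hk
  · intro c t hta ht htB K hK
    have hne : (A t).Nonempty := by
      obtain ⟨z, hz⟩ := (pf t).int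
      exact ⟨_, (pf t).ch_mem (interior_subset hz)⟩
    exact (hO c).clean (⟨t, ⟨ht, htB⟩, hne, hta⟩ : PlateInZ.Fac h A P Act c) K hK
  · intro c t hta ht htB hball hT
    have hne : (A t).Nonempty := by
      obtain ⟨z, hz⟩ := (pf t).int
      exact ⟨_, (pf t).ch_mem (interior_subset hz)⟩
    let k : PlateInZ.Fac h A P Act c := ⟨t, ⟨ht, htB⟩, hne, hta⟩
    have e1 : PlateIn.fm h G P c (H.fc pf c k).i₀ = A t := H.fm_gi c k
    have e2 : (H.fc pf c k).bd = intrinsicFrontier ℝ (A t) := H.bd_fc pf c k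
    obtain ⟨K, hK, S, cd, lev, h1⟩ := (hO c).pat k (by rw [e1, e2]; exact hball) (by
      rcases hT with h1 | h1
      · left
        rw [(pf t).intrinsicInterior_eq] at h1
        exact h1
      · right; left
        constructor
        · show Disjoint (Tu _ _ _) (Tv _ _ _)
          rw [Set.disjoint_left]
          rintro x ⟨⟨hx, -⟩, hxa⟩ ⟨-, hxb⟩
          have hx' : x ∈ PlateIn.fm h G P c (H.fc pf c k).i₀ := hx
          rw [e1] at hx'
          exact h1.1 x hx' hxa hxb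
        · intro σ hσ
          constructor
          · intro hs
            refine (h1.2 σ hσ fun x hx => ?_).1 fun x hx => (hs hx).2
            have hx' : x ∈ PlateIn.fm h G P c (H.fc pf c k).i₀ := (hs hx).1.1
            rwa [e1] at hx'
          · intro hs
            refine (h1.2 σ hσ fun x hx => ?_).2 fun x hx => (hs hx).2
            have hx' : x ∈ PlateIn.fm h G P c (H.fc pf c k).i₀ := (hs hx).1.1
            rwa [e1] at hx')
    rw [e2, e1] at h1
    refine HasPat.of (H.ok c).ij (K := K) (S := S) (col := cd) (lev := lev) ?_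
    exact FacePat.toFin h1 (H.ok c).ij (g := h'.toFun)
      (fun k _ x _ => ⟨Iff.rfl, Iff.rfl, Iff.rfl⟩) (fun k _ x _ => ⟨Iff.rfl, Iff.rfl, Iff.rfl⟩)
  · -- clean sets
    intro c g hg hcl
    by_cases hne : (G g ∩ (P c).U h).Nonempty
    · let m : PlateIn.Idx h G P c := ⟨Sum.inl g, hne⟩
      have hoff0 : Off (boxData h (PlateIn.fm h G P c) (P c).lo (P c).hi (P c).i (P c).j
          (P c).a (P c).b) m (fun x => h.toFun x (P c).i) (fun x => h.toFun x (P c).j) := by
        refine Set.disjoint_left.2 ?_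
        rintro x ⟨⟨hx, -⟩, hxa⟩ ⟨-, hxb⟩
        exact hcl.1 x hx hxa hxb
      have hcirc0 : NoCirc (boxData h (PlateIn.fm h G P c) (P c).lo (P c).hi (P c).i (P c).j
          (P c).a (P c).b) m (fun x => h.toFun x (P c).i) (fun x => h.toFun x (P c).j) := by
        intro σ hσ
        exact ⟨fun hs => (hcl.2 σ hσ fun x hx => (hs hx).1.1).1 fun x hx => (hs hx).2,
          fun hs => (hcl.2 σ hσ fun x hx => (hs hx).1.1).2 fun x hx => (hs hx).2⟩
      have k0 := (hO c).rel.off m hoff0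
      have k1 := (hO c).rel.circ m hoff0 hcirc0
      refine ⟨fun x hx hxa hxb => Set.disjoint_left.1 k0 ⟨⟨hx, hg hx⟩, hxa⟩ ⟨⟨hx, hg hx⟩, hxb⟩,
        fun σ hσ hσg => ⟨fun hs => (k1 σ hσ).1 fun x hx => ⟨⟨hσg hx, hg (hσg hx)⟩, hs x hx⟩,
          fun hs => (k1 σ hσ).2 fun x hx => ⟨⟨hσg hx, hg (hσg hx)⟩, hs x hx⟩⟩⟩
    · have hemp : ∀ x, x ∉ G g := fun x hx => hne ⟨x, hx, hg hx⟩
      refine ⟨fun x hx => absurd hx (hemp x), fun σ hσ hσg => ?_⟩
      obtain ⟨φ⟩ := hσ
      exact absurd (hσg (φ.mapsTo (x := (1, 0)) (by simp [Prod.norm_def]))) (hemp _)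
  · -- crossing
    intro c g hg x hx hxΩ hxa
    by_cases hxU : x ∈ (P c).U h
    · exact ((hO c).crossi ⟨Sum.inl g, x, hx, hxU⟩ x hx hxU hxa).mono inter_subset_left
    · have hev : ∀ᶠ y in 𝓝 x, y ∈ G g → h'.toFun y = h.toFun y := by
        filter_upwards [(H.ok c).isCompact_U.isClosed.isOpen_compl.mem_nhds hxU,
          hΩ.mem_nhds hxΩ] with y hyU hyΩ hyg
        exact eq_of c (G g) hg y hyg hyΩ fun h1 => hyU h1.1
      have hx0 : h'.toFun x = h.toFun x := eq_of c (G g) hg x hx hxΩ fun h1 => hxU h1.1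
      obtain ⟨σ, r, hb⟩ := H.regi c x hxΩ (by rw [← hx0]; exact hxa)
      have h1 := (crosses_of_box hb (m := Sum.inl g) (n := Sum.inl g) hx hx).mono
        (A' := G g) inter_subset_left
      refine h1.congr_nhds (by rw [hx0]) ?_
      filter_upwards [hev] with y hy hyg
      rw [hy hyg]
  · intro c g hg x hx hxΩ hxa
    by_cases hxU : x ∈ (P c).U h
    · exact ((hO c).crossj ⟨Sum.inl g, x, hx, hxU⟩ x hx hxU hxa).mono inter_subset_left
    · have hev : ∀ᶠ y in 𝓝 x, y ∈ G g → h'.toFun y = h.toFun y := by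
        filter_upwards [(H.ok c).isCompact_U.isClosed.isOpen_compl.mem_nhds hxU,
          hΩ.mem_nhds hxΩ] with y hyU hyΩ hyg
        exact eq_of c (G g) hg y hyg hyΩ fun h1 => hyU h1.1
      have hx0 : h'.toFun x = h.toFun x := eq_of c (G g) hg x hx hxΩ fun h1 => hxU h1.1
      obtain ⟨σ, r, hb⟩ := H.regj c x hxΩ (by rw [← hx0]; exact hxa)
      have h1 := (crosses_of_box hb (m := Sum.inl g) (n := Sum.inl g) hx hx).mono
        (A' := G g) inter_subset_left
      refine h1.congr_nhds (by rw [hx0]) ?_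
      filter_upwards [hev] with y hy hyg
      rw [hy hyg]
  · -- counts
    intro c g hg hgΩ hoffg hfI hfJ
    set A : Set V := G g with hA
    -- the parts inside and outside of the plate
    have eI : ∀ w : V → V, ptsI w (P c) A = {x | (x ∈ A ∧ x ∈ (P c).U h) ∧ w x (P c).i ∈ (P c).a} ∪
        {x | (x ∈ A ∧ x ∉ (P c).U h) ∧ w x (P c).i ∈ (P c).a} := by
      intro w; ext x
      simp only [ptsI, mem_ofPred_eq, mem_union]
      tauto
    have eJ : ∀ w : V → V, ptsJ w (P c) A = {x | (x ∈ A ∧ x ∈ (P c).U h) ∧ w x (P c).j ∈ (P c).b} ∪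
        {x | (x ∈ A ∧ x ∉ (P c).U h) ∧ w x (P c).j ∈ (P c).b} := by
      intro w; ext x
      simp only [ptsJ, mem_ofPred_eq, mem_union]
      tauto
    have hout1 : ∀ x, x ∈ A ∧ x ∉ (P c).U h → h'.toFun x = h.toFun x := fun x hx =>
      eq_of c A hg x hx.1 (hgΩ hx.1) fun h1 => hx.2 h1.1
    have oI : {x | (x ∈ A ∧ x ∉ (P c).U h) ∧ h'.toFun x (P c).i ∈ (P c).a} =
        {x | (x ∈ A ∧ x ∉ (P c).U h) ∧ h.toFun x (P c).i ∈ (P c).a} := by
      ext x
      exact and_congr_right fun hx => by rw [hout1 x hx]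
    have oJ : {x | (x ∈ A ∧ x ∉ (P c).U h) ∧ h'.toFun x (P c).j ∈ (P c).b} =
        {x | (x ∈ A ∧ x ∉ (P c).U h) ∧ h.toFun x (P c).j ∈ (P c).b} := by
      ext x
      exact and_congr_right fun hx => by rw [hout1 x hx]
    -- the statement inside the plate
    have key : (∀ x ∈ A, x ∈ (P c).U h → h'.toFun x (P c).i ∈ (P c).a →
        h'.toFun x (P c).j ∉ (P c).b) ∧
        {x | (x ∈ A ∧ x ∈ (P c).U h) ∧ h'.toFun x (P c).i ∈ (P c).a}.Finite ∧
        {x | (x ∈ A ∧ x ∈ (P c).U h) ∧ h'.toFun x (P c).j ∈ (P c).b}.Finite ∧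
        {x | (x ∈ A ∧ x ∈ (P c).U h) ∧ h'.toFun x (P c).i ∈ (P c).a}.ncard +
          {x | (x ∈ A ∧ x ∈ (P c).U h) ∧ h'.toFun x (P c).j ∈ (P c).b}.ncard ≤
        {x | (x ∈ A ∧ x ∈ (P c).U h) ∧ h.toFun x (P c).i ∈ (P c).a}.ncard +
          {x | (x ∈ A ∧ x ∈ (P c).U h) ∧ h.toFun x (P c).j ∈ (P c).b}.ncard := by
      by_cases hne : (A ∩ (P c).U h).Nonempty
      · let m : PlateIn.Idx h G P c := ⟨Sum.inl g, hne⟩
        have hoff0 : Off (boxData h (PlateIn.fm h G P c) (P c).lo (P c).hi (P c).i (P c).j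
            (P c).a (P c).b) m (fun x => h.toFun x (P c).i) (fun x => h.toFun x (P c).j) := by
          refine Set.disjoint_left.2 ?_
          rintro x ⟨⟨hx, -⟩, hxa⟩ ⟨-, hxb⟩
          exact hoffg x hx hxa hxb
        obtain ⟨k1, k2, k3⟩ := (hO c).rel.cnt m hoff0
          (hfI.subset fun x hx => ⟨hx.1.1, hx.2⟩) (hfJ.subset fun x hx => ⟨hx.1.1, hx.2⟩)
        have k0 := (hO c).rel.off m hoff0
        exact ⟨fun x hx hxU hxa hxb => Set.disjoint_left.1 k0 ⟨⟨hx, hxU⟩, hxa⟩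
          ⟨⟨hx, hxU⟩, hxb⟩, k1, k2, k3⟩
      · have e0 : ∀ p : V → Prop, {x | (x ∈ A ∧ x ∈ (P c).U h) ∧ p x} = ∅ := by
          intro p
          rw [Set.eq_empty_iff_forall_notMem]
          rintro x ⟨hx, -⟩
          exact hne ⟨x, hx⟩
        refine ⟨fun x hx hxU => absurd ⟨x, hx, hxU⟩ hne, ?_, ?_, ?_⟩
        · rw [e0]; exact finite_empty
        · rw [e0]; exact finite_empty
        · rw [e0, e0, e0, e0]
    obtain ⟨k0, k1, k2, k3⟩ := key
    have fI := hfI
    have fJ := hfJ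
    rw [eI] at fI
    rw [eJ] at fJ
    have gI := fI.subset subset_union_right
    have gJ := fJ.subset subset_union_right
    have gI' := fI.subset subset_union_left
    have gJ' := fJ.subset subset_union_left
    refine ⟨fun x hx hxa hxb => ?_, ?_, ?_, ?_⟩
    · by_cases hxU : x ∈ (P c).U h
      · exact k0 x hx hxU hxa hxb
      · have h1 := hout1 x ⟨hx, hxU⟩
        rw [h1] at hxa hxb
        exact hoffg x hx hxa hxb
    · rw [eI, oI]; exact k1.union gI
    · rw [eJ, oJ]; exact k2.union gJ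
    · have dI : ∀ p q : V → Prop, Disjoint {x | (x ∈ A ∧ x ∈ (P c).U h) ∧ p x}
          {x | (x ∈ A ∧ x ∉ (P c).U h) ∧ q x} := by
        intro p q
        rw [Set.disjoint_left]
        rintro x ⟨h1, -⟩ ⟨h2, -⟩
        exact h2.2 h1.2
      rw [eI h'.toFun, eJ h'.toFun, eI h.toFun, eJ h.toFun, oI, oJ,
        ncard_union_eq (dI _ _) k1 gI, ncard_union_eq (dI _ _) k2 gJ,
        ncard_union_eq (dI _ _) gI' gI, ncard_union_eq (dI _ _) gJ' gJ]
      omega
  · -- regularity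
    intro c
    obtain ⟨u, v, Q⟩ := (hO c).state
    obtain ⟨K, hK, hKU, hKo⟩ := Q.off
    have hKU' : ∀ x, x ∉ (P c).U h → x ∉ K := fun x hx hxK => hx (hKU hxK).1
    have hcl : ∀ m, IsClosed (pFam h G P m) := by
      rintro (g | ⟨d, b⟩)
      · exact H.closed g
      · cases b
        · exact (H.ok d).isCompact_B.isClosed
        · exact (H.ok d).isCompact_U.isClosed
    -- off the box
    have hev : ∀ x ∈ Ω, x ∉ (P c).U h → ∀ᶠ y in 𝓝 x,
        u y = h.toFun y (P c).i ∧ v y = h.toFun y (P c).j := by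
      intro x _ hx
      filter_upwards [(H.ok c).isCompact_U.isClosed.isOpen_compl.mem_nhds hx] with y hy
      exact hKo y (hKU' y hy)
    refine ⟨u, v, Q.conu, Q.contu, Q.conv, Q.contv, ?_, ?_, ?_, ?_, ?_⟩
    · rintro l hl x ⟨hxΩ, hxd⟩
      by_cases hx : x ∈ (P c).U h
      · exact Q.su l hl x hx
      · have h1 : h'.toFun x = h.toFun x := hoff' x hxΩ fun d hd => by
          by_cases hdc : d = c
          · subst hdc; exact hx (mem_int d x hxΩ hd).1
          · exact hxd d hdc hd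
        show (h'.toFun x (P c).i = l ↔ u x = l) ∧ (h'.toFun x (P c).i < l ↔ u x < l) ∧
          (l < h'.toFun x (P c).i ↔ l < u x)
        rw [h1, (hKo x (hKU' x hx)).1]; exact ⟨Iff.rfl, Iff.rfl, Iff.rfl⟩
    · rintro l hl x ⟨hxΩ, hxd⟩
      by_cases hx : x ∈ (P c).U h
      · exact Q.sv l hl x hx
      · have h1 : h'.toFun x = h.toFun x := hoff' x hxΩ fun d hd => by
          by_cases hdc : d = c
          · subst hdc; exact hx (mem_int d x hxΩ hd).1
          · exact hxd d hdc hd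
        show (h'.toFun x (P c).j = l ↔ v x = l) ∧ (h'.toFun x (P c).j < l ↔ v x < l) ∧
          (l < h'.toFun x (P c).j ↔ l < v x)
        rw [h1, (hKo x (hKU' x hx)).2]; exact ⟨Iff.rfl, Iff.rfl, Iff.rfl⟩
    · intro x hxΩ hxa
      by_cases hx : x ∈ (P c).U h
      · exact Reg.lift hx hcl (H.fam_lf hΩ x hxΩ) (Q.regu x hx hxa)
      · have h1 := hev x hxΩ hx
        refine Reg.congr_fun (H.regi c x hxΩ ?_) (h1.mono fun y hy => hy.1)
        rw [← h1.self_of_nhds.1]; exact hxa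
    · intro x hxΩ hxa
      by_cases hx : x ∈ (P c).U h
      · exact Reg.lift hx hcl (H.fam_lf hΩ x hxΩ) (Q.regv x hx hxa)
      · have h1 := hev x hxΩ hx
        refine Reg.congr_fun (H.regj c x hxΩ ?_) (h1.mono fun y hy => hy.2)
        rw [← h1.self_of_nhds.2]; exact hxa
    · intro x hxΩ hxa hxb
      by_cases hx : x ∈ (P c).U h
      · exact Reg.lift hx hcl (H.fam_lf hΩ x hxΩ) (Q.reguv x hx hxa hxb)
      · have h1 := hev x hxΩ hx
        refine Reg.congr_fun (H.regij c x hxΩ ?_ ?_) (h1.mono fun y hy => by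
          show (u y, v y) = _
          rw [hy.1, hy.2])
        · rw [← h1.self_of_nhds.1]; exact hxa
        · rw [← h1.self_of_nhds.2]; exact hxb

end P073.H341
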