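import Vale.Agent.P073.H341.Side

/-!
# P073, H341: the push of a disc across the surface of a cube
-/

open Set Metric Topology Filter

namespace P073.H341

open P073 Vale.Agent.P073.H238

/-- local connectedness of one side of a level, in a convex set -/
theorem exists_conn {P : Set V3} (hP : Convex ℝ P) {u : V3 → ℝ} {y v : V3} {ρ : ℝ} (hρ : 0 < ρ)
    (huc : ContinuousOn u (ball y ρ))
    (hflow : ∀ w, ‖w - y‖ < ρ → ∀ t, 0 ≤ t → t < ρ → w ∈ P → 0 < u w →
      w + t • v ∈ P ∧ 0 < u (w + t • v))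
    (hy0 : ∀ t, 0 < t → t < ρ → y + t • v ∈ P ∧ 0 < u (y + t • v)) {N : Set V3} (hN : N ∈ 𝓝 y) :
    ∃ η > 0, ∃ Q : Set V3, IsPreconnected Q ∧ Q ⊆ N ∧ Q ⊆ P ∧ (∀ x ∈ Q, 0 < u x) ∧
      ∀ w, ‖w - y‖ < η → w ∈ P → 0 < u w → w ∈ Q := by
  obtain ⟨ρ₁, hρ₁, hb⟩ := Metric.mem_nhds_iff.1 hN
  set ρ' := min ρ ρ₁ with hρ'
  have hρ'0 : 0 < ρ' := lt_min hρ hρ₁
  have hv0 : 0 ≤ ‖v‖ := norm_nonneg v
  set τ := min (ρ / 2) (ρ' / (4 * (‖v‖ + 1))) with hτ
  have hτ0 : 0 < τ := lt_min (by linarith) (by positivity)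
  have hτρ : τ < ρ := (min_le_left _ _).trans_lt (by linarith)
  have hτv : τ * ‖v‖ ≤ ρ' / 4 := by
    calc τ * ‖v‖ ≤ ρ' / (4 * (‖v‖ + 1)) * (‖v‖ + 1) :=
          mul_le_mul (min_le_right _ _) (by linarith) hv0 (by positivity)
      _ = ρ' / 4 := by field_simp
  set p := y + τ • v with hp
  have hpy : ‖p - y‖ ≤ ρ' / 4 := by
    rw [hp, add_sub_cancel_left, norm_smul, Real.norm_of_nonneg hτ0.le]; exact hτv
  obtain ⟨hpP, hpu⟩ := hy0 τ hτ0 hτρ
  have hpball : p ∈ ball y ρ := by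
    rw [mem_ball_iff_norm]
    have : ρ' ≤ ρ := min_le_left _ _
    linarith
  have hpc : ContinuousAt u p := huc.continuousAt (isOpen_ball.mem_nhds hpball)
  have hev : ∀ᶠ z in 𝓝 p, 0 < u z := hpc.eventually (lt_mem_nhds hpu)
  obtain ⟨η₁, hη₁, hη⟩ := Metric.eventually_nhds_iff_ball.1 hev
  set η₂ := min η₁ (ρ' / 4) with hη₂
  have hη₂0 : 0 < η₂ := lt_min hη₁ (by linarith)
  have hsubN : ∀ z, ‖z - y‖ < ρ' → z ∈ N := fun z hz => hb (by
    rw [mem_ball_iff_norm]; exact hz.trans_le (min_le_right _ _))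
  set Bp := ball p η₂ ∩ P with hBp
  have hBpc : IsPreconnected Bp := ((convex_ball p η₂).inter hP).isPreconnected
  have hpB : p ∈ Bp := ⟨mem_ball_self hη₂0, hpP⟩
  set seg : V3 → Set V3 := fun w => (fun t : ℝ => w + t • v) '' Icc 0 τ with hseg
  set W : Set V3 := {w | ‖w - y‖ < η₂ ∧ w ∈ P ∧ 0 < u w} with hW
  have hη₂' : η₂ ≤ ρ' / 4 := min_le_right _ _
  have hρρ' : ρ' ≤ ρ := min_le_left _ _
  have hsegc : ∀ w, IsPreconnected (seg w) := fun w =>
    isPreconnected_Icc.image _ (by fun_prop)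
  have hsegend : ∀ w ∈ W, w + τ • v ∈ Bp := by
    rintro w ⟨hw1, hw2, hw3⟩
    refine ⟨?_, (hflow w (by linarith) τ hτ0.le hτρ hw2 hw3).1⟩
    rw [mem_ball_iff_norm, hp, add_sub_add_right_eq_sub]
    exact hw1
  refine ⟨η₂, hη₂0, Bp ∪ ⋃ w ∈ W, seg w, ?_, ?_, ?_, ?_, ?_⟩
  · refine isPreconnected_of_forall p ?_
    rintro x (hx | hx)
    · exact ⟨Bp, subset_union_left, hpB, hx, hBpc⟩
    · obtain ⟨w, hw, hxw⟩ := mem_iUnion₂.1 hx
      refine ⟨Bp ∪ seg w, union_subset subset_union_left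
        ((subset_biUnion_of_mem (u := fun w => seg w) hw).trans subset_union_right),
        Or.inl hpB, Or.inr hxw, ?_⟩
      exact hBpc.union (w + τ • v) (hsegend w hw) ⟨τ, ⟨hτ0.le, le_rfl⟩, rfl⟩ (hsegc w)
  · rintro x (hx | hx)
    · refine hsubN x ?_
      have h1 := mem_ball_iff_norm.1 hx.1
      calc ‖x - y‖ = ‖(x - p) + (p - y)‖ := by congr 1; abel
        _ ≤ ‖x - p‖ + ‖p - y‖ := norm_add_le _ _
        _ < ρ' := by linarith
    · obtain ⟨w, hw, t, ht, rfl⟩ := mem_iUnion₂.1 hx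
      refine hsubN _ ?_
      calc ‖w + t • v - y‖ = ‖(w - y) + t • v‖ := by congr 1; abel
        _ ≤ ‖w - y‖ + ‖t • v‖ := norm_add_le _ _
        _ ≤ ‖w - y‖ + τ * ‖v‖ := by
          rw [norm_smul, Real.norm_of_nonneg ht.1]
          exact add_le_add_right (mul_le_mul_of_nonneg_right ht.2 hv0) _
        _ < ρ' := by have := hw.1; linarith
  · rintro x (hx | hx)
    · exact hx.2
    · obtain ⟨w, hw, t, ht, rfl⟩ := mem_iUnion₂.1 hx
      exact (hflow w (by have := hw.1; linarith) t ht.1 (ht.2.trans_lt hτρ) hw.2.1 hw.2.2).1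
  · rintro x (hx | hx)
    · exact hη x (ball_subset_ball (min_le_left _ _) hx.1)
    · obtain ⟨w, hw, t, ht, rfl⟩ := mem_iUnion₂.1 hx
      exact (hflow w (by have := hw.1; linarith) t ht.1 (ht.2.trans_lt hτρ) hw.2.1 hw.2.2).2
  · intro w hw hwP hwu
    refine Or.inr (mem_iUnion₂.2 ⟨w, ⟨hw, hwP, hwu⟩, 0, ⟨le_rfl, hτ0.le⟩, ?_⟩)
    simp

/-- the sides of the surface of a cube are locally connected -/
theorem exists_conn_cube {b y : V3} {r s : ℝ} (hr : 0 < r) (hs : s = 1 ∨ s = -1)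
    (hy : ‖y - b‖ = r) {N : Set V3} (hN : N ∈ 𝓝 y) :
    ∃ η > 0, ∃ Q : Set V3, IsPreconnected Q ∧ Q ⊆ N ∧ (∀ x ∈ Q, 0 < s * (‖x - b‖ - r)) ∧
      ∀ w, ‖w - y‖ < η → 0 < s * (‖w - b‖ - r) → w ∈ Q := by
  set ρ := min (r / 4) (1 / 2) with hρ
  have hρ0 : 0 < ρ := lt_min (by linarith) (by norm_num)
  have hρr : ρ ≤ r / 4 := min_le_left _ _
  have hρ1 : ρ ≤ 1 / 2 := min_le_right _ _
  have key : ∀ w : V3, ‖w - y‖ < ρ → ∀ t, 0 ≤ t → t < ρ → 0 < s * (‖w - b‖ - r) →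
      0 < s * (‖w + t • (s • (y - b)) - b‖ - r) := by
    intro w hw t ht ht' hpos
    have hwb : r - ρ < ‖w - b‖ := by
      have : ‖y - b‖ ≤ ‖w - y‖ + ‖w - b‖ := by
        calc ‖y - b‖ = ‖-(w - y) + (w - b)‖ := by congr 1; abel
          _ ≤ ‖-(w - y)‖ + ‖w - b‖ := norm_add_le _ _
          _ = _ := by rw [norm_neg]
      linarith
    rcases hs with rfl | rfl
    · rw [one_smul]
      have e : w - b + t • (y - b) = (1 + t) • (w - b) - t • (w - y) := by module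
      have h1 : ‖(1 + t) • (w - b)‖ ≤ ‖w - b + t • (y - b)‖ + ‖t • (w - y)‖ := by
        rw [e]
        calc ‖(1 + t) • (w - b)‖ = ‖((1 + t) • (w - b) - t • (w - y)) + t • (w - y)‖ := by
              congr 1; abel
          _ ≤ _ := norm_add_le _ _
      rw [norm_smul, norm_smul, Real.norm_of_nonneg ht, Real.norm_of_nonneg (by linarith)] at h1
      have e2 : w + t • (y - b) - b = w - b + t • (y - b) := by abel
      rw [e2]
      have h2 : t * ‖w - y‖ ≤ t * ‖w - b‖ := mul_le_mul_of_nonneg_left (by linarith) ht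
      nlinarith
    · have e : w + t • ((-1 : ℝ) • (y - b)) - b = (1 - t) • (w - b) + t • (w - y) := by module
      rw [e]
      have h1 : ‖(1 - t) • (w - b) + t • (w - y)‖ ≤ (1 - t) * ‖w - b‖ + t * ‖w - y‖ := by
        refine (norm_add_le _ _).trans ?_
        rw [norm_smul, norm_smul, Real.norm_of_nonneg ht, Real.norm_of_nonneg (by linarith)]
      have h2 : t * ‖w - y‖ ≤ t * ‖w - b‖ := mul_le_mul_of_nonneg_left (by linarith) ht
      nlinarith
  have key0 : ∀ t, 0 < t → t < ρ → 0 < s * (‖y + t • (s • (y - b)) - b‖ - r) := by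
    intro t ht ht'
    have e : y + t • (s • (y - b)) - b = (1 + t * s) • (y - b) := by module
    have h1 : 0 ≤ 1 + t * s := by
      rcases hs with rfl | rfl <;> linarith
    rw [e, norm_smul, Real.norm_of_nonneg h1, hy]
    rcases hs with rfl | rfl <;> nlinarith
  obtain ⟨η, hη, Q, h1, h2, -, h4, h5⟩ := exists_conn (P := univ) convex_univ
    (u := fun x => s * (‖x - b‖ - r)) (v := s • (y - b)) hρ0 (by fun_prop)
    (fun w hw t ht ht' _ hu => ⟨mem_univ _, key w hw t ht ht' hu⟩)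
    (fun t ht ht' => ⟨mem_univ _, key0 t ht ht'⟩) hN
  exact ⟨η, hη, Q, h1, h2, h4, fun w hw hu => h5 w hw (mem_univ _) hu⟩

/-- the data of a ball `Z` on the side `s` of the surface of the cube, resting on the disc `D` -/
structure OnCube (b : V3) (r s : ℝ) (F γ D Z : Set V3) : Prop where
  amb : AmbBall Z
  hF : ConBall 2 F γ
  hD : ConBall 2 D γ
  fr : frontier Z = D ∪ F
  DF : D ∩ F = γ
  DS : D ⊆ sphere b r
  side : ∀ y ∈ Z, y ∉ D → 0 < s * (‖y - b‖ - r)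

namespace OnCube

variable {b : V3} {r s : ℝ} {F γ D Z : Set V3}

theorem DZ (h : OnCube b r s F γ D Z) : D ⊆ Z := fun _ hx =>
  h.amb.isClosed.frontier_subset (h.fr ▸ Or.inl hx)

theorem FZ (h : OnCube b r s F γ D Z) : F ⊆ Z := fun _ hx =>
  h.amb.isClosed.frontier_subset (h.fr ▸ Or.inr hx)

theorem val_D (h : OnCube b r s F γ D Z) {y : V3} (hy : y ∈ D) : ‖y - b‖ = r :=
  mem_sphere_iff_norm.1 (h.DS hy)

theorem nonneg (h : OnCube b r s F γ D Z) {y : V3} (hy : y ∈ Z) : 0 ≤ s * (‖y - b‖ - r) := by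
  by_cases hD : y ∈ D
  · rw [h.val_D hD, sub_self, mul_zero]
  · exact (h.side y hy hD).le

theorem mem_D (h : OnCube b r s F γ D Z) {y : V3} (hy : y ∈ Z) (hr : ‖y - b‖ = r) : y ∈ D := by
  by_contra hD
  have := h.side y hy hD
  rw [hr, sub_self, mul_zero] at this
  exact lt_irrefl _ this

theorem clS (h : OnCube b r s F γ D Z) (hr : 0 < r) :
    IsClosed (sphere b r \ (D \ γ)) ∧ LocCone (sphere b r \ (D \ γ)) := by
  refine ⟨(H894.compl_disc (conSphere_cube b hr) h.hD h.DS).isClosed, ?_⟩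
  exact (H894.compl_disc (conSphere_cube b hr) h.hD h.DS).locCone

/-- near an inner point of `D` the side `s` is in the ball -/
theorem near (h : OnCube b r s F γ D Z) (hr : 0 < r) (hs : s = 1 ∨ s = -1) {y : V3} (hy : y ∈ D)
    (hyγ : y ∉ γ) : ∀ᶠ z in 𝓝 y, 0 ≤ s * (‖z - b‖ - r) → z ∈ Z := by
  have hyF : y ∉ F := fun h' => hyγ (h.DF ▸ ⟨hy, h'⟩)
  have hs0 : s ≠ 0 := by rcases hs with h | h <;> rw [h] <;> norm_num
  obtain ⟨η, hη, Q, h1, h2, h3, h4⟩ := exists_conn_cube hr hs (h.val_D hy)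
    (N := Fᶜ) (h.hF.isClosed.isOpen_compl.mem_nhds hyF)
  have hQd : Disjoint Q (frontier Z) := by
    rw [h.fr, disjoint_left]
    rintro x hx (hx' | hx')
    · have := h3 x hx
      rw [h.val_D hx', sub_self, mul_zero] at this
      exact lt_irrefl _ this
    · exact h2 hx hx'
  -- a point of the interior
  have hycl : y ∈ closure (interior Z) := by rw [h.amb.closure_interior]; exact h.DZ hy
  obtain ⟨z0, hz0, hz0i⟩ := mem_closure_iff.1 hycl _ isOpen_ball (mem_ball_self hη)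
  have hz0D : z0 ∉ D := fun h' => by
    have : z0 ∈ frontier Z := h.fr ▸ Or.inl h'
    exact this.2 hz0i
  have hz0Q : z0 ∈ Q := h4 z0 (mem_ball_iff_norm.1 hz0) (h.side z0 (interior_subset hz0i) hz0D)
  have hQZ : Q ⊆ interior Z := by
    rcases h.amb.subset_or_of_disjoint h1 hQd with h' | h'
    · exact h'
    · exact absurd (interior_subset hz0i) (h' hz0Q)
  have hyS : y ∉ sphere b r \ (D \ γ) := fun h' => h'.2 ⟨hy, hyγ⟩
  filter_upwards [ball_mem_nhds y hη, (h.clS hr).1.isOpen_compl.mem_nhds hyS] with z hz hzS hzs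
  rcases hzs.lt_or_eq with h5 | h5
  · exact interior_subset (hQZ (h4 z (mem_ball_iff_norm.1 hz) h5))
  · have h6 : ‖z - b‖ = r := by
      rcases mul_eq_zero.1 h5.symm with h7 | h7
      · exact absurd h7 hs0
      · linarith
    by_contra hzZ
    exact hzS ⟨mem_sphere_iff_norm.2 h6, fun h' => hzZ (h.DZ h'.1)⟩

end OnCube

end P073.H341
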