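import Vale.Agent.P073.H341.PushC

/-!
# P073, H341: the push of a disc across the surface of a cube, all clauses
-/

open Set Metric Topology Filter

namespace P073.H341

open P073 Vale.Agent.P073.H238

theorem lower_connected (b : V3) {r s : ℝ} (hr : 0 < r) (hs : s = 1 ∨ s = -1) :
    IsPreconnected {y : V3 | s * (‖y - b‖ - r) < 0} := by
  rcases hs with rfl | rfl
  · have e : {y : V3 | (1:ℝ) * (‖y - b‖ - r) < 0} = ball b r := by
      ext y
      rw [mem_ball_iff_norm, mem_ofPred_eq, one_mul, sub_neg]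
    rw [e]; exact (convex_ball b r).isPreconnected
  · have e : {y : V3 | (-1:ℝ) * (‖y - b‖ - r) < 0} = (closedBall b r)ᶜ := by
      ext y
      rw [mem_compl_iff, mem_closedBall_iff_norm, mem_ofPred_eq, not_le]
      constructor <;> intro h <;> linarith
    rw [e]; exact isPreconnected_compl_cb b hr

theorem lower_nonempty (b : V3) {r s : ℝ} (hr : 0 < r) (hs : s = 1 ∨ s = -1) :
    ∃ y : V3, s * (‖y - b‖ - r) < 0 := by
  rcases hs with rfl | rfl
  · exact ⟨b, by rw [sub_self, norm_zero]; linarith⟩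
  · refine ⟨b + fun _ => 2 * r, ?_⟩
    rw [add_sub_cancel_left, pi_norm_const, Real.norm_of_nonneg (by linarith)]
    linarith

theorem sphere_closure_lower {b y : V3} {r s : ℝ} (hr : 0 < r) (hs : s = 1 ∨ s = -1)
    (hy : ‖y - b‖ = r) : y ∈ closure {y : V3 | s * (‖y - b‖ - r) < 0} := by
  refine Metric.mem_closure_iff.2 fun ε hε => ?_
  set t := min (1 / 2) (ε / (2 * r)) with ht
  have ht0 : 0 < t := lt_min (by norm_num) (by positivity)
  have ht1 : t ≤ 1 / 2 := min_le_left _ _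
  have ht2 : t * r ≤ ε / 2 := by
    calc t * r ≤ ε / (2 * r) * r := mul_le_mul_of_nonneg_right (min_le_right _ _) hr.le
      _ = ε / 2 := by field_simp
  refine ⟨y + (-(s * t)) • (y - b), ?_, ?_⟩
  · show s * (‖y + (-(s * t)) • (y - b) - b‖ - r) < 0
    have e : y + (-(s * t)) • (y - b) - b = (1 - s * t) • (y - b) := by module
    have h1 : 0 ≤ 1 - s * t := by rcases hs with rfl | rfl <;> linarith
    rw [e, norm_smul, Real.norm_of_nonneg h1, hy]
    have h2 : 0 < t * r := mul_pos ht0 hr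
    rcases hs with rfl | rfl
    · have : 1 * ((1 - 1 * t) * r - r) = -(t * r) := by ring
      rw [this]; linarith
    · have : -1 * ((1 - -1 * t) * r - r) = -(t * r) := by ring
      rw [this]; linarith
  · rw [dist_eq_norm, show y - (y + (-(s * t)) • (y - b)) = (s * t) • (y - b) by module,
      norm_smul, hy, norm_mul, Real.norm_of_nonneg ht0.le]
    have : ‖s‖ = 1 := by rcases hs with rfl | rfl <;> simp
    rw [this, one_mul]; linarith

/-- **PUSH** -/
theorem push_core {Ω Λ K : Set V3} (h : ConHomeo Ω Λ) (hΛ : IsOpen Λ) {b : V3} {r : ℝ}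
    (hr : 0 < r) {s : ℝ} (hs : s = 1 ∨ s = -1) {E0 c : Set V3} (hE0Ω : E0 ⊆ Ω)
    (hside : ∀ x ∈ E0, ∀ᶠ y in 𝓝 x, y ∈ K → y ∉ E0 → s * (‖h.toFun y - b‖ - r) < 0)
    {Z D : Set V3} (hZ : OnCube b r s (h.toFun '' E0) (h.toFun '' c) D Z)
    {G : Set V3} (hG : IsOpen G) (hZG : Z ⊆ G) :
    ∃ Θ : ConHomeo (univ : Set V3) (univ : Set V3),
      (∃ C, IsCompact C ∧ C ⊆ G ∧ ∀ y ∉ C, Θ.toFun y = y) ∧
      (∀ x ∈ Ω, x ∈ K → ‖Θ.toFun (h.toFun x) - b‖ = r →
        h.toFun x ∉ Z ∧ ∀ᶠ z in 𝓝 (h.toFun x), Θ.toFun z = z) ∧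
      (∀ x ∈ Ω, x ∈ K → h.toFun x ∈ Z → s * (‖Θ.toFun (h.toFun x) - b‖ - r) < 0) ∧
      (∀ x ∈ Ω, x ∈ K → h.toFun x ∉ Z → 0 ≤ s * (‖h.toFun x - b‖ - r) →
        Θ.toFun (h.toFun x) = h.toFun x) ∧
      ∀ y, s * (‖y - b‖ - r) < 0 → s * (‖Θ.toFun y - b‖ - r) < 0 := by
  set Eh : Set V3 := h.toFun '' E0 with hEh
  set γ : Set V3 := h.toFun '' c with hγ
  have hss : s * s = 1 := by rcases hs with h | h <;> rw [h] <;> norm_num
  have hs0 : s ≠ 0 := by rcases hs with h | h <;> rw [h] <;> norm_num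
  have hsabs : |s| = 1 := by rcases hs with h | h <;> rw [h] <;> norm_num
  have hEhΛ : Eh ⊆ Λ := by rintro _ ⟨x, hx, rfl⟩; exact h.mapsTo (hE0Ω hx)
  have hinvE : ∀ y ∈ Eh, h.invFun y ∈ E0 := by
    rintro _ ⟨x, hx, rfl⟩; rwa [h.left_inv (hE0Ω hx)]
  have hcont0 : Continuous fun y : V3 => s * (‖y - b‖ - r) := by fun_prop
  -- the germ of `K` along `Eh`
  have hgerm : ∀ y ∈ Eh, ∀ᶠ z in 𝓝 y, h.invFun z ∈ K → h.invFun z ∉ E0 →
      s * (‖h.toFun (h.invFun z) - b‖ - r) < 0 := by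
    intro y hyE
    have hcont : ContinuousAt h.invFun y := h.cont_inv.continuousAt (hΛ.mem_nhds (hEhΛ hyE))
    exact hcont.eventually (hside _ (hinvE y hyE))
  -- the part of `K` outside the ball on the side `s`
  set B' : Set V3 := {z | z ∈ Λ ∧ h.invFun z ∈ K ∧ z ∉ Z ∧ 0 ≤ s * (‖z - b‖ - r)} with hB'
  have hB'Z : Disjoint Z (closure B') := by
    rw [Set.disjoint_left]
    intro y hyZ hyB
    by_cases hyE : y ∈ Eh
    · obtain ⟨z, hz, hz2⟩ := (mem_closure_iff_frequently.1 hyB).and_eventually (hgerm y hyE)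
        |>.exists
      have hzz : h.toFun (h.invFun z) = z := h.right_inv hz.1
      rw [hzz] at hz2
      have := hz2 hz.2.1 fun h' => hz.2.2.1 (hZ.FZ ⟨_, h', hzz⟩)
      exact absurd this (not_lt.2 hz.2.2.2)
    · by_cases hyD : y ∈ D
      · have hyκ : y ∉ γ := fun h' => hyE (hZ.hF.1 h')
        obtain ⟨z, hz, hz2⟩ := (mem_closure_iff_frequently.1 hyB).and_eventually
          (hZ.near hr hs hyD hyκ) |>.exists
        exact hz.2.2.1 (hz2 hz.2.2.2)
      · have hyU : y ∈ interior Z := by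
          by_contra h'
          have : y ∈ frontier Z := by
            rw [hZ.amb.isClosed.frontier_eq]; exact ⟨hyZ, h'⟩
          rw [hZ.fr] at this
          exact this.elim hyD hyE
        obtain ⟨z, hz, hz2⟩ := (mem_closure_iff_frequently.1 hyB).and_eventually
          (isOpen_interior.mem_nhds hyU) |>.exists
        exact hz.2.2.1 (interior_subset hz2)
  obtain ⟨y0, hy0⟩ := lower_nonempty b hr hs
  have hy0Z : y0 ∉ Z := fun h' => absurd (hZ.nonneg h') (not_le.2 hy0)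
  set W : Set V3 := G ∩ (closure B')ᶜ ∩ {y0}ᶜ with hW
  have hWo : IsOpen W := (hG.inter isClosed_closure.isOpen_compl).inter isOpen_compl_singleton
  have hZW : Z ⊆ W := fun y hy => ⟨⟨hZG hy, Set.disjoint_left.1 hB'Z hy⟩,
    fun h' => hy0Z (mem_singleton_iff.1 h' ▸ hy)⟩
  obtain ⟨L, hLc, hZL, hLW⟩ := exists_compact_between hZ.amb.isCompact hWo hZW
  obtain ⟨clS, lcS⟩ := hZ.clS hr
  obtain ⟨Θ1, e1, e2, e4⟩ := push_rel (b := Z) (d := Eh) (e := D) (κ := γ)
    (A := sphere b r \ (D \ γ)) hZ.amb hZ.hF hZ.hD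
    (by rw [inter_comm]; exact hZ.DF) (by rw [union_comm]; exact hZ.fr.symm) clS lcS
    (by
      rintro x ⟨⟨h1, h2⟩, h3⟩
      by_contra h4
      exact h2 ⟨hZ.mem_D h3 (mem_sphere_iff_norm.1 h1), h4⟩) isOpen_interior hZL
  have e1' : ∀ x ∉ L, Θ1.toFun x = x := fun x hx => e1 x fun h' => hx (interior_subset h')
  have e2' : ∀ x, ‖x - b‖ = r → x ∉ D → Θ1.toFun x = x := fun x hx hxD =>
    e2 x ⟨mem_sphere_iff_norm.2 hx, fun h' => hxD h'.1⟩
  -- points below stay below
  set A : Set V3 := {y : V3 | s * (‖y - b‖ - r) < 0} with hA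
  have hAo : IsOpen A := isOpen_lt hcont0 continuous_const
  have hXo : IsOpen {y : V3 | 0 < s * (‖y - b‖ - r)} := isOpen_lt continuous_const hcont0
  have hdisj : Disjoint A {y : V3 | 0 < s * (‖y - b‖ - r)} := by
    rw [Set.disjoint_left]; intro y h1 h2
    exact lt_asymm (show s * (‖y - b‖ - r) < 0 from h1) h2
  have hcover : ∀ T : Set V3, (∀ y ∈ T, ‖Θ1.toFun y - b‖ ≠ r) →
      Θ1.toFun '' T ⊆ A ∪ {y : V3 | 0 < s * (‖y - b‖ - r)} := by
    rintro T hT _ ⟨y, hy, rfl⟩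
    have h2 : s * (‖Θ1.toFun y - b‖ - r) ≠ 0 := mul_ne_zero hs0 (sub_ne_zero.2 (hT y hy))
    rcases lt_or_gt_of_ne h2 with h3 | h3
    · exact Or.inl h3
    · exact Or.inr h3
  -- points mapped to the sphere
  have honS : ∀ y, ‖Θ1.toFun y - b‖ = r → y ∈ Eh ∨ (‖y - b‖ = r ∧ y ∉ D) := by
    intro y hy
    by_cases hyD : Θ1.toFun y ∈ D
    · left
      rw [← e4] at hyD
      obtain ⟨z, hz, hzy⟩ := hyD
      exact Θ1.injective hzy ▸ hz
    · right
      have h2 : Θ1.toFun y = y := Θ1.injective (e2' _ hy hyD)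
      rw [h2] at hyD hy
      exact ⟨hy, hyD⟩
  have hAne : ∀ y ∈ A, ‖Θ1.toFun y - b‖ ≠ r := by
    intro y hy hyP
    have h3 : s * (‖y - b‖ - r) < 0 := hy
    rcases honS y hyP with h | ⟨h, -⟩
    · exact absurd (hZ.nonneg (hZ.FZ h)) (not_le.2 h3)
    · rw [h, sub_self, mul_zero] at h3
      exact lt_irrefl _ h3
  have hAmap : ∀ y ∈ A, Θ1.toFun y ∈ A := by
    have hpre : IsPreconnected (Θ1.toFun '' A) :=
      (lower_connected b hr hs).image _ Θ1.continuous.continuousOn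
    have hy0L : Θ1.toFun y0 = y0 := e1' y0 fun h' => (hLW h').2 rfl
    rcases hpre.subset_or_subset hAo hXo hdisj (hcover A hAne) with h1 | h1
    · exact fun y hy => h1 (mem_image_of_mem _ hy)
    · exfalso
      have h2 : (0:ℝ) < s * (‖Θ1.toFun y0 - b‖ - r) := h1 (mem_image_of_mem _ hy0)
      rw [hy0L] at h2
      exact lt_asymm h2 hy0
  have hcl : ∀ y ∈ closure A, Θ1.toFun y ∈ closure A := by
    intro y hy
    exact closure_mono (s := Θ1.toFun '' A) (by rintro _ ⟨z, hz, rfl⟩; exact hAmap z hz)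
      (image_closure_subset_closure_image Θ1.continuous (mem_image_of_mem _ hy))
  have hclA : closure A ⊆ {y : V3 | s * (‖y - b‖ - r) ≤ 0} :=
    closure_minimal (fun y hy => (show s * (‖y - b‖ - r) < 0 from hy).le)
      (isClosed_le hcont0 continuous_const)
  -- the ball goes below
  have hbmap : ∀ y ∈ Z, s * (‖Θ1.toFun y - b‖ - r) ≤ 0 := by
    have hUne : ∀ y ∈ interior Z, ‖Θ1.toFun y - b‖ ≠ r := by
      intro y hy hyP
      rcases honS y hyP with h' | ⟨h', h''⟩
      · have : y ∈ frontier Z := hZ.fr ▸ Or.inr h'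
        exact this.2 hy
      · exact h'' (hZ.mem_D (interior_subset hy) h')
    obtain ⟨d, hdD, hdκ⟩ := hZ.hD.open_nonempty
    have hdE : d ∉ Eh := fun h' => hdκ (hZ.DF ▸ ⟨hdD, h'⟩)
    have hd1 : Θ1.toFun d ∈ A := by
      have h1 : s * (‖Θ1.toFun d - b‖ - r) ≤ 0 :=
        hclA (hcl d (sphere_closure_lower hr hs (hZ.val_D hdD)))
      rcases h1.lt_or_eq with h2 | h2
      · exact h2
      · exfalso
        have h3 : ‖Θ1.toFun d - b‖ = r := by
          rcases mul_eq_zero.1 h2 with h4 | h4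
          · exact absurd h4 hs0
          · linarith
        rcases honS d h3 with h' | ⟨-, h'⟩
        · exact hdE h'
        · exact h' hdD
    have hdcl : d ∈ closure (interior Z) := by rw [hZ.amb.closure_interior]; exact hZ.DZ hdD
    obtain ⟨u, hu1, hu2⟩ : ∃ u ∈ Θ1.toFun ⁻¹' A, u ∈ interior Z :=
      mem_closure_iff.1 hdcl _ (hAo.preimage Θ1.continuous) hd1
    have hUA : Θ1.toFun '' interior Z ⊆ A := by
      rcases (hZ.amb.isPreconnected_interior.image _ Θ1.continuous.continuousOn).subset_or_subset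
        hAo hXo hdisj (hcover _ hUne) with h1 | h1
      · exact h1
      · exfalso
        have h2 : (0:ℝ) < s * (‖Θ1.toFun u - b‖ - r) := h1 (mem_image_of_mem _ hu2)
        exact lt_asymm h2 hu1
    intro y hy
    have hycl : y ∈ closure (interior Z) := by rw [hZ.amb.closure_interior]; exact hy
    exact hclA (closure_mono hUA
      (image_closure_subset_closure_image Θ1.continuous (mem_image_of_mem _ hycl)))
  -- the bad set
  set B : Set V3 := {z | z ∈ Λ ∧ h.invFun z ∈ K ∧ z ∉ Eh ∧ ¬ s * (‖z - b‖ - r) < 0} with hB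
  have hBE : Disjoint Eh (closure B) := by
    rw [Set.disjoint_left]
    intro y hyE hyB
    obtain ⟨z, hz, hz2⟩ := (mem_closure_iff_frequently.1 hyB).and_eventually (hgerm y hyE) |>.exists
    have hzz : h.toFun (h.invFun z) = z := h.right_inv hz.1
    rw [hzz] at hz2
    exact hz.2.2.2 (hz2 hz.2.1 fun h' => hz.2.2.1 ⟨_, h', hzz⟩)
  set N : Set V3 := W ∩ (Θ1.toFun '' closure B)ᶜ with hN
  have hNo : IsOpen N := hWo.inter (Θ1.toHomeomorph.isClosedMap _ isClosed_closure).isOpen_compl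
  have hDN : D ⊆ N := by
    intro y hy
    refine ⟨hZW (hZ.DZ hy), ?_⟩
    rintro ⟨z, hz, hzy⟩
    rw [← e4] at hy
    obtain ⟨w, hw, hwy⟩ := hy
    have : w = z := Θ1.injective (hwy.trans hzy.symm)
    exact Set.disjoint_left.1 hBE hw (this ▸ hz)
  obtain ⟨χ, K0, hK0, hχc, hχcon, hχ0, hχ1, hχD, ⟨Cχ, hCχ, hCχN, hχC⟩, hχL⟩ :=
    exists_conCut hZ.hD.isCompact hNo hDN
  obtain ⟨δ, hδ0, hrad⟩ := exists_radial b hr hK0 hχc hχcon hχ0 hχL
  obtain ⟨σ, hσ, hσ0⟩ := hrad (s * δ) (by rw [abs_mul, hsabs, one_mul, abs_of_pos hδ0])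
  set m : V3 → ℝ := fun z => min (χ z) (rk r ‖z - b‖) with hm
  have hm0 : ∀ z, 0 ≤ m z := fun z => le_min (hχ0 z) (rk_nonneg _ _)
  have hσs : ∀ z, s * (‖σ.toFun z - b‖ - r) = s * (‖z - b‖ - r) - δ * m z := by
    intro z
    rw [hσ z]
    have : s * (‖z - b‖ - s * δ * m z - r) = s * (‖z - b‖ - r) - (s * s) * δ * m z := by ring
    rw [hss, one_mul] at this
    exact this
  set Θ : ConHomeo (univ : Set V3) (univ : Set V3) := Θ1.trans σ with hΘ
  have hΘa : ∀ y, Θ.toFun y = σ.toFun (Θ1.toFun y) := fun _ => rfl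
  set C : Set V3 := L ∪ Cχ with hC
  have hCW : C ⊆ W := union_subset hLW (hCχN.trans inter_subset_left)
  have hCc : IsCompact C := hLc.union hCχ
  have hΘC : ∀ y ∉ C, Θ.toFun y = y := by
    intro y hy
    rw [hΘa, e1' y fun h' => hy (Or.inl h'), hσ0 y (hχC y fun h' => hy (Or.inr h'))]
  have hnear : ∀ y ∉ C, ∀ᶠ z in 𝓝 y, Θ.toFun z = z := by
    intro y hy
    filter_upwards [hCc.isClosed.isOpen_compl.mem_nhds hy] with z hz
    exact hΘC z hz
  have hB'C : ∀ y ∈ B', y ∉ C := fun y hy h' => (hCW h').1.2 (subset_closure hy)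
  -- the trace
  have htrace : ∀ x ∈ Ω, x ∈ K → ‖Θ.toFun (h.toFun x) - b‖ = r →
      h.toFun x ∉ Z ∧ ∀ᶠ z in 𝓝 (h.toFun x), Θ.toFun z = z := by
    intro x hx hxK hxr
    set y := h.toFun x with hy
    have hyΛ : y ∈ Λ := h.mapsTo hx
    have hyinv : h.invFun y = x := h.left_inv hx
    set z := Θ1.toFun y with hz
    rw [hΘa] at hxr
    have h0 := hσs z
    rw [hxr, sub_self, mul_zero] at h0
    by_cases hχz : χ z = 0
    · rw [hσ0 z hχz] at hxr
      have h1 : z ∉ D := fun h' => by rw [hχD _ h'] at hχz; exact one_ne_zero hχz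
      have h2 : z = y := Θ1.injective (e2' _ hxr h1)
      rw [h2] at hxr h1
      have h3 : y ∉ Z := fun h' => h1 (hZ.mem_D h' hxr)
      have h4 : y ∈ B' := ⟨hyΛ, by rw [hyinv]; exact hxK, h3, by rw [hxr, sub_self, mul_zero]⟩
      exact ⟨h3, hnear y (hB'C y h4)⟩
    · exfalso
      have hχpos : 0 < χ z := lt_of_le_of_ne (hχ0 z) (Ne.symm hχz)
      have hmpos : 0 < m z := by
        rcases (hm0 z).lt_or_eq with h1 | h1
        · exact h1
        · exfalso
          rw [← h1, mul_zero, sub_zero] at h0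
          have h2 : ‖z - b‖ = r := by
            rcases mul_eq_zero.1 h0.symm with h3 | h3
            · exact absurd h3 hs0
            · linarith
          have h3 : m z = min (χ z) 1 := by rw [hm]; simp only; rw [rk_one hr h2.ge]
          have h4 : 0 < min (χ z) 1 := lt_min hχpos one_pos
          rw [← h3, ← h1] at h4
          exact lt_irrefl _ h4
      have h1 : 0 < s * (‖z - b‖ - r) := by
        have : s * (‖z - b‖ - r) = δ * m z := by linarith
        rw [this]; exact mul_pos hδ0 hmpos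
      have h2 : z ∈ N := hCχN (by by_contra h'; exact hχz (hχC _ h'))
      have h3 : y ∉ B := fun h' => h2.2 (mem_image_of_mem _ (subset_closure h'))
      by_cases h6 : y ∈ Eh
      · have h7 : z ∈ D := by rw [← e4]; exact mem_image_of_mem _ h6
        rw [hZ.val_D h7, sub_self, mul_zero] at h1
        exact lt_irrefl _ h1
      · have h7 : y ∈ A := by
          by_contra h8
          exact h3 ⟨hyΛ, by rw [hyinv]; exact hxK, h6, h8⟩
        exact lt_asymm h1 (hAmap y h7)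
  refine ⟨Θ, ⟨C, hCc, fun y hy => (hCW hy).1.1, hΘC⟩, htrace, ?_, ?_, ?_⟩
  · intro x hx hxK hxZ
    have h1 : s * (‖Θ.toFun (h.toFun x) - b‖ - r) ≤ 0 := by
      rw [hΘa, hσs]
      have := hbmap _ hxZ
      have := mul_nonneg hδ0.le (hm0 (Θ1.toFun (h.toFun x)))
      linarith
    rcases h1.lt_or_eq with h2 | h2
    · exact h2
    · exfalso
      have h3 : ‖Θ.toFun (h.toFun x) - b‖ = r := by
        rcases mul_eq_zero.1 h2 with h4 | h4
        · exact absurd h4 hs0
        · linarith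
      exact (htrace x hx hxK h3).1 hxZ
  · intro x hx hxK hxZ hxs
    apply hΘC
    exact hB'C _ ⟨h.mapsTo hx, by rw [h.left_inv hx]; exact hxK, hxZ, hxs⟩
  · intro y hy
    rw [hΘa, hσs]
    have h1 : s * (‖Θ1.toFun y - b‖ - r) < 0 := hAmap y hy
    have := mul_nonneg hδ0.le (hm0 (Θ1.toFun y))
    linarith

end P073.H341
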