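import Vale.Agent.P073.H341.Uncond

/-!
# P073, H341: quadrants of a ball cut by two sheets, geometry of a bigon
-/

set_option linter.unusedSectionVars false

open Set Metric Topology Filter

namespace P073.H341

open P073 P073.H339

variable {E : Type*} [NormedAddCommGroup E] [NormedSpace ℝ E]

theorem _root_.P073.ConBall.bdry_sub {n : ℕ} {C B : Set E} (h : ConBall n C B) : B ⊆ C := h.1

/-- **the two halves of a ball cut by the zero set of a function** -/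
theorem exists_half {m : ℕ} (hP : CutP m E) {C B S : Set E} {u : E → ℝ}
    (hC : ConBall (m + 1) C B) (hu : ContinuousOn u C) (hSe : ∀ x, x ∈ S ↔ x ∈ C ∧ u x = 0)
    (hS : ConBall m S (S ∩ B)) (hpos : ∃ x ∈ C, 0 < u x) (hneg : ∃ x ∈ C, u x < 0) :
    Cut m C B S {x | x ∈ B ∧ 0 ≤ u x} {x | x ∈ B ∧ u x ≤ 0}
      {x | x ∈ C ∧ 0 ≤ u x} {x | x ∈ C ∧ u x ≤ 0} := by
  obtain ⟨B₁, B₂, C₁, C₂, hc⟩ := hP C B S hC hS fun x hx => ((hSe x).1 hx).1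
  have sgn : ∀ {B₁ B₂ C₁ C₂ : Set E}, Cut m C B S B₁ B₂ C₁ C₂ →
      (∀ x ∈ C₁, 0 ≤ u x) ∨ (∀ x ∈ C₁, u x ≤ 0) := by
    intro B₁ B₂ C₁ C₂ hc
    have hcont : ContinuousOn u (C₁ \ S) := hu.mono (Set.sdiff_subset.trans hc.C₁_sub)
    by_contra hcon
    push Not at hcon
    obtain ⟨⟨x, hx, hx0⟩, y, hy, hy0⟩ := hcon
    exact sign_const hc.preconn hcont
      (fun z hz hz0 => hz.2 ((hSe z).2 ⟨hc.C₁_sub hz.1, hz0⟩))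
      ⟨hy, fun h => hy0.ne' ((hSe y).1 h).2⟩ ⟨hx, fun h => hx0.ne ((hSe x).1 h).2⟩ hy0 hx0
  have main : ∀ {B₁ B₂ C₁ C₂ : Set E}, Cut m C B S B₁ B₂ C₁ C₂ →
      (∀ x ∈ C₁, 0 ≤ u x) → (∀ x ∈ C₂, u x ≤ 0) →
      Cut m C B S {x | x ∈ B ∧ 0 ≤ u x} {x | x ∈ B ∧ u x ≤ 0}
        {x | x ∈ C ∧ 0 ≤ u x} {x | x ∈ C ∧ u x ≤ 0} := by
    intro B₁ B₂ C₁ C₂ hc h1 h2
    have e1 : {x | x ∈ C ∧ 0 ≤ u x} = C₁ := by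
      ext x
      refine ⟨fun hx => ?_, fun hx => ⟨hc.C₁_sub hx, h1 x hx⟩⟩
      by_cases hxS : x ∈ S
      · exact hc.D_sub hxS
      · rcases hc.mem_cases hx.1 hxS with h | h
        · exact h.1
        · exact absurd ((hSe x).2 ⟨hx.1, le_antisymm (h2 x h.1) hx.2⟩) hxS
    have e2 : {x | x ∈ C ∧ u x ≤ 0} = C₂ := by
      ext x
      refine ⟨fun hx => ?_, fun hx => ⟨hc.symm.C₁_sub hx, h2 x hx⟩⟩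
      by_cases hxS : x ∈ S
      · exact hc.symm.D_sub hxS
      · rcases hc.mem_cases hx.1 hxS with h | h
        · exact absurd ((hSe x).2 ⟨hx.1, le_antisymm hx.2 (h1 x h.1)⟩) hxS
        · exact h.1
    have f1 : {x | x ∈ B ∧ 0 ≤ u x} = B₁ := by
      rw [← hc.C₁_inter_B, ← e1]
      ext x
      exact ⟨fun hx => ⟨⟨hC.1 hx.1, hx.2⟩, hx.1⟩, fun hx => ⟨hx.2, hx.1.2⟩⟩
    have f2 : {x | x ∈ B ∧ u x ≤ 0} = B₂ := by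
      rw [← hc.symm.C₁_inter_B, ← e2]
      ext x
      exact ⟨fun hx => ⟨⟨hC.1 hx.1, hx.2⟩, hx.1⟩, fun hx => ⟨hx.2, hx.1.2⟩⟩
    rw [e1, e2, f1, f2]
    exact hc
  obtain ⟨p, hp, hp0⟩ := hpos
  obtain ⟨q, hq, hq0⟩ := hneg
  rcases sgn hc with h1 | h1 <;> rcases sgn hc.symm with h2 | h2
  · rw [← hc.hCu] at hq
    exact absurd hq0 (not_lt.2 (hq.elim (h1 q) (h2 q)))
  · exact main hc h1 h2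
  · exact main hc.symm h2 h1
  · rw [← hc.hCu] at hp
    exact absurd hp0 (not_lt.2 (hp.elim (h1 p) (h2 p)))


/-- two crossing sheets in a ball, given as zero sets of functions -/
structure Pair (C B : Set E) (u v : E → ℝ) : Prop where
  hC : ConBall 3 C B
  hu : ContinuousOn u C
  hv : ContinuousOn v C
  hS : ConBall 2 {x | x ∈ C ∧ u x = 0} ({x | x ∈ C ∧ u x = 0} ∩ B)
  hT : ConBall 2 {x | x ∈ C ∧ v x = 0} ({x | x ∈ C ∧ v x = 0} ∩ B)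
  hl : ConBall 1 {x | x ∈ C ∧ u x = 0 ∧ v x = 0} ({x | x ∈ C ∧ u x = 0 ∧ v x = 0} ∩ B)
  up : ∃ x ∈ C, v x = 0 ∧ 0 < u x
  un : ∃ x ∈ C, v x = 0 ∧ u x < 0
  vp : ∃ x ∈ C, u x = 0 ∧ 0 < v x
  vn : ∃ x ∈ C, u x = 0 ∧ v x < 0

namespace Pair

variable {C B : Set E} {u v : E → ℝ}

theorem swap (h : Pair C B u v) : Pair C B v u where
  hC := h.hC
  hu := h.hv
  hv := h.hu
  hS := h.hT
  hT := h.hS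
  hl := by
    have : {x | x ∈ C ∧ v x = 0 ∧ u x = 0} = {x | x ∈ C ∧ u x = 0 ∧ v x = 0} := by
      ext x; simp only [mem_ofPred_eq]; tauto
    rw [this]; exact h.hl
  up := h.vp
  un := h.vn
  vp := h.up
  vn := h.un

/-- the half sheet -/
theorem half_sheet (h : Pair C B u v) :
    Cut 1 {x | x ∈ C ∧ u x = 0} ({x | x ∈ C ∧ u x = 0} ∩ B) {x | x ∈ C ∧ u x = 0 ∧ v x = 0}
      {x | x ∈ {x | x ∈ C ∧ u x = 0} ∩ B ∧ 0 ≤ v x} {x | x ∈ {x | x ∈ C ∧ u x = 0} ∩ B ∧ v x ≤ 0}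
      {x | x ∈ {x | x ∈ C ∧ u x = 0} ∧ 0 ≤ v x} {x | x ∈ {x | x ∈ C ∧ u x = 0} ∧ v x ≤ 0} := by
  refine exists_half cutP_one h.hS (h.hv.mono fun x hx => hx.1) ?_ ?_ ?_ ?_
  · intro x; simp only [mem_ofPred_eq]; tauto
  · have e : {x | x ∈ C ∧ u x = 0 ∧ v x = 0} ∩ ({x | x ∈ C ∧ u x = 0} ∩ B) =
        {x | x ∈ C ∧ u x = 0 ∧ v x = 0} ∩ B := by
      ext x; simp only [mem_inter_iff, mem_ofPred_eq]; tauto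
    rw [e]; exact h.hl
  · obtain ⟨x, hx, hx0, hx1⟩ := h.vp; exact ⟨x, ⟨hx, hx0⟩, hx1⟩
  · obtain ⟨x, hx, hx0, hx1⟩ := h.vn; exact ⟨x, ⟨hx, hx0⟩, hx1⟩

theorem half (h : Pair C B u v) : Cut 2 C B {x | x ∈ C ∧ u x = 0} {x | x ∈ B ∧ 0 ≤ u x}
    {x | x ∈ B ∧ u x ≤ 0} {x | x ∈ C ∧ 0 ≤ u x} {x | x ∈ C ∧ u x ≤ 0} := by
  refine exists_half cutP_two' h.hC h.hu (fun x => Iff.rfl) h.hS ?_ ?_
  · obtain ⟨x, hx, -, hx1⟩ := h.up; exact ⟨x, hx, hx1⟩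
  · obtain ⟨x, hx, -, hx1⟩ := h.un; exact ⟨x, hx, hx1⟩

/-- the quadrant -/
theorem quad (h : Pair C B u v) : Cut 2 {x | x ∈ C ∧ 0 ≤ u x} ({x | x ∈ B ∧ 0 ≤ u x} ∪
    {x | x ∈ C ∧ u x = 0}) {x | x ∈ {x | x ∈ C ∧ v x = 0} ∧ 0 ≤ u x}
    {x | x ∈ ({x | x ∈ B ∧ 0 ≤ u x} ∪ {x | x ∈ C ∧ u x = 0}) ∧ 0 ≤ v x}
    {x | x ∈ ({x | x ∈ B ∧ 0 ≤ u x} ∪ {x | x ∈ C ∧ u x = 0}) ∧ v x ≤ 0}
    {x | x ∈ {x | x ∈ C ∧ 0 ≤ u x} ∧ 0 ≤ v x} {x | x ∈ {x | x ∈ C ∧ 0 ≤ u x} ∧ v x ≤ 0} := by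
  refine exists_half cutP_two' h.half.hC₁ (h.hv.mono fun x hx => hx.1) ?_ ?_ ?_ ?_
  · intro x; simp only [mem_ofPred_eq]; tauto
  · have e : {x | x ∈ {x | x ∈ C ∧ v x = 0} ∧ 0 ≤ u x} ∩
        ({x | x ∈ B ∧ 0 ≤ u x} ∪ {x | x ∈ C ∧ u x = 0}) =
        {x | x ∈ {x | x ∈ C ∧ v x = 0} ∩ B ∧ 0 ≤ u x} ∪ {x | x ∈ C ∧ v x = 0 ∧ u x = 0} := by
      ext x
      simp only [mem_inter_iff, mem_union, mem_ofPred_eq]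
      constructor
      · rintro ⟨⟨⟨h1, h2⟩, h3⟩, h4 | h4⟩
        · exact Or.inl ⟨⟨⟨h1, h2⟩, h4.1⟩, h3⟩
        · exact Or.inr ⟨h1, h2, h4.2⟩
      · rintro (⟨⟨⟨h1, h2⟩, h4⟩, h3⟩ | ⟨h1, h2, h3⟩)
        · exact ⟨⟨⟨h1, h2⟩, h3⟩, Or.inl ⟨h4, h3⟩⟩
        · exact ⟨⟨⟨h1, h2⟩, h3.ge⟩, Or.inr ⟨h1, h3⟩⟩
    rw [e]; exact h.swap.half_sheet.hC₁
  · obtain ⟨x, hx, hx0, hx1⟩ := h.vp; exact ⟨x, ⟨hx, hx0.ge⟩, hx1⟩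
  · obtain ⟨x, hx, hx0, hx1⟩ := h.vn; exact ⟨x, ⟨hx, hx0.ge⟩, hx1⟩

/-- the outer face of the quadrant is a disc -/
theorem outer (h : Pair C B u v) :
    ∃ R : Set E, ConBall 2 {x | x ∈ {x | x ∈ B ∧ 0 ≤ u x} ∧ 0 ≤ v x} R := by
  have hc : Cut 1 {x | x ∈ B ∧ 0 ≤ u x} ({x | x ∈ C ∧ u x = 0} ∩ B)
      {x | x ∈ {x | x ∈ C ∧ v x = 0} ∩ B ∧ 0 ≤ u x}
      {x | x ∈ ({x | x ∈ C ∧ u x = 0} ∩ B) ∧ 0 ≤ v x}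
      {x | x ∈ ({x | x ∈ C ∧ u x = 0} ∩ B) ∧ v x ≤ 0}
      {x | x ∈ {x | x ∈ B ∧ 0 ≤ u x} ∧ 0 ≤ v x} {x | x ∈ {x | x ∈ B ∧ 0 ≤ u x} ∧ v x ≤ 0} := by
    refine exists_half cutP_one h.half.hB₁ (h.hv.mono fun x hx => h.hC.1 hx.1) ?_ ?_ ?_ ?_
    · intro x
      simp only [mem_inter_iff, mem_ofPred_eq]
      constructor
      · rintro ⟨⟨⟨h1, h2⟩, h3⟩, h4⟩; exact ⟨⟨h3, h4⟩, h2⟩
      · rintro ⟨⟨h3, h4⟩, h2⟩; exact ⟨⟨⟨h.hC.1 h3, h2⟩, h3⟩, h4⟩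
    · have e : {x | x ∈ {x | x ∈ C ∧ v x = 0} ∩ B ∧ 0 ≤ u x} ∩ ({x | x ∈ C ∧ u x = 0} ∩ B) =
          {x | x ∈ C ∧ v x = 0 ∧ u x = 0} ∩ ({x | x ∈ C ∧ v x = 0} ∩ B) := by
        ext x
        simp only [mem_inter_iff, mem_ofPred_eq]
        constructor
        · rintro ⟨⟨⟨⟨h1, h2⟩, h3⟩, h4⟩, ⟨h5, h6⟩, h7⟩; exact ⟨⟨h1, h2, h6⟩, ⟨h1, h2⟩, h3⟩
        · rintro ⟨⟨h1, h2, h6⟩, ⟨-, -⟩, h3⟩; exact ⟨⟨⟨⟨h1, h2⟩, h3⟩, h6.ge⟩, ⟨h1, h6⟩, h3⟩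
      rw [e]; exact h.swap.half_sheet.hB₁
    · obtain ⟨x, ⟨hx1, hx2⟩, hx3⟩ := h.half_sheet.neB
      refine ⟨x, ⟨hx1.2, hx1.1.2.ge⟩, lt_of_le_of_ne hx2 fun h0 => hx3 ⟨hx1.1.1, hx1.1.2, h0.symm⟩⟩
    · obtain ⟨x, ⟨hx1, hx2⟩, hx3⟩ := h.half_sheet.symm.neB
      refine ⟨x, ⟨hx1.2, hx1.1.2.ge⟩, lt_of_le_of_ne hx2 fun h0 => hx3 ⟨hx1.1.1, hx1.1.2, h0⟩⟩
  exact ⟨_, hc.hC₁⟩

end Pair

end P073.H341
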