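import Vale.Agent.P073.H238.Rem3

/-!
# P073, H341: radial shift of the boundary of a cube
-/

open Set Metric Topology Filter

namespace P073.H341

open P073

/-- points of space -/
abbrev V3 := Fin 3 → ℝ

/-- the radial profile: `0` for `t ≤ r/2`, `1` for `t ≥ r` -/
noncomputable def rk (r t : ℝ) : ℝ := max 0 (min 1 (2 * r⁻¹ * t - 1))

theorem rk_nonneg (r t : ℝ) : 0 ≤ rk r t := le_max_left _ _

theorem rk_le_one (r t : ℝ) : rk r t ≤ 1 := max_le zero_le_one (min_le_left _ _)

theorem rk_zero {r t : ℝ} (hr : 0 < r) (ht : t ≤ r / 2) : rk r t = 0 := by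
  unfold rk
  apply max_eq_left
  refine (min_le_right _ _).trans ?_
  have h1 : r⁻¹ * t ≤ r⁻¹ * (r / 2) := mul_le_mul_of_nonneg_left ht (inv_pos.2 hr).le
  have h2 : r⁻¹ * (r / 2) = 1 / 2 := by field_simp
  linarith

theorem rk_one {r t : ℝ} (hr : 0 < r) (ht : r ≤ t) : rk r t = 1 := by
  unfold rk
  have h1 : r⁻¹ * r ≤ r⁻¹ * t := mul_le_mul_of_nonneg_left ht (inv_pos.2 hr).le
  rw [inv_mul_cancel₀ hr.ne'] at h1
  rw [min_eq_left (by linarith), max_eq_right zero_le_one]

theorem abs_rk_sub (r t u : ℝ) : |rk r t - rk r u| ≤ 2 * |r⁻¹| * |t - u| := by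
  unfold rk
  have a1 : |max 0 (min 1 (2 * r⁻¹ * t - 1)) - max 0 (min 1 (2 * r⁻¹ * u - 1))| ≤
      |min 1 (2 * r⁻¹ * t - 1) - min 1 (2 * r⁻¹ * u - 1)| := by
    refine (abs_max_sub_max_le_max _ _ _ _).trans ?_
    simp
  have a2 : |min 1 (2 * r⁻¹ * t - 1) - min 1 (2 * r⁻¹ * u - 1)| ≤
      |(2 * r⁻¹ * t - 1) - (2 * r⁻¹ * u - 1)| := by
    refine (abs_min_sub_min_le_max _ _ _ _).trans ?_
    simp
  refine a1.trans (a2.trans ?_)
  have : (2 * r⁻¹ * t - 1) - (2 * r⁻¹ * u - 1) = 2 * r⁻¹ * (t - u) := by ring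
  rw [this, abs_mul, abs_mul, abs_of_pos (two_pos : (0:ℝ) < 2)]

/-- one coordinate of the shift vector -/
noncomputable def rw1 (r c t : ℝ) : ℝ := min c (rk r t) - min c (rk r (-t))

theorem abs_rw1_sub (r c c' t t' : ℝ) :
    |rw1 r c t - rw1 r c' t'| ≤ 2 * |c - c'| + 4 * |r⁻¹| * |t - t'| := by
  unfold rw1
  have a1 : |min c (rk r t) - min c' (rk r t')| ≤ |c - c'| + 2 * |r⁻¹| * |t - t'| := by
    refine (abs_min_sub_min_le_max _ _ _ _).trans ?_
    refine (max_le_add_of_nonneg (abs_nonneg _) (abs_nonneg _)).trans ?_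
    exact add_le_add_right (abs_rk_sub r t t') _
  have a2 : |min c (rk r (-t)) - min c' (rk r (-t'))| ≤ |c - c'| + 2 * |r⁻¹| * |t - t'| := by
    refine (abs_min_sub_min_le_max _ _ _ _).trans ?_
    refine (max_le_add_of_nonneg (abs_nonneg _) (abs_nonneg _)).trans ?_
    have := abs_rk_sub r (-t) (-t')
    rw [show -t - -t' = -(t - t') by ring, abs_neg] at this
    exact add_le_add_right this _
  have e : (min c (rk r t) - min c (rk r (-t))) - (min c' (rk r t') - min c' (rk r (-t'))) =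
      (min c (rk r t) - min c' (rk r t')) - (min c (rk r (-t)) - min c' (rk r (-t'))) := by ring
  rw [e]
  refine (abs_sub _ _).trans ?_
  linarith

/-- the size of a shifted coordinate -/
theorem abs_sub_rw1 {r c a t : ℝ} (hr : 0 < r) (hc : 0 ≤ c) (ha : |a| ≤ r / 2) :
    |t - a * rw1 r c t| = |t| - a * min c (rk r |t|) := by
  have hmain : ∀ t : ℝ, 0 ≤ t → |t - a * rw1 r c t| = t - a * min c (rk r t) := by
    intro t ht
    have h1 : rk r (-t) = 0 := rk_zero hr (by linarith)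
    have h2 : rw1 r c t = min c (rk r t) := by
      unfold rw1; rw [h1, min_eq_right hc, sub_zero]
    rw [h2]
    apply abs_of_nonneg
    by_cases h3 : t ≤ r / 2
    · rw [rk_zero hr h3, min_eq_right hc, mul_zero, sub_zero]; exact ht
    · push Not at h3
      have h4 : 0 ≤ min c (rk r t) := le_min hc (rk_nonneg _ _)
      have h5 : min c (rk r t) ≤ 1 := (min_le_right _ _).trans (rk_le_one _ _)
      have h6 : a * min c (rk r t) ≤ |a| * 1 := by
        calc a * min c (rk r t) ≤ |a| * min c (rk r t) :=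
              mul_le_mul_of_nonneg_right (le_abs_self a) h4
          _ ≤ |a| * 1 := mul_le_mul_of_nonneg_left h5 (abs_nonneg a)
      linarith
  rcases le_total 0 t with ht | ht
  · rw [hmain t ht, abs_of_nonneg ht]
  · have h1 := hmain (-t) (by linarith)
    have h2 : rw1 r c (-t) = - rw1 r c t := by unfold rw1; rw [neg_neg]; ring
    rw [h2, show -t - a * -rw1 r c t = -(t - a * rw1 r c t) by ring, abs_neg] at h1
    rw [h1, abs_of_nonpos ht]

/-- the shifted radius is monotone -/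
theorem rad_mono {r c a : ℝ} (ha : |a| * (2 * |r⁻¹|) ≤ 1) {t u : ℝ} (htu : t ≤ u) :
    t - a * min c (rk r t) ≤ u - a * min c (rk r u) := by
  have h1 : |min c (rk r u) - min c (rk r t)| ≤ 2 * |r⁻¹| * |u - t| := by
    refine (abs_min_sub_min_le_max _ _ _ _).trans ?_
    rw [sub_self, abs_zero, max_eq_right (abs_nonneg _)]
    exact abs_rk_sub r u t
  have h2 : |a * (min c (rk r u) - min c (rk r t))| ≤ |u - t| := by
    rw [abs_mul]
    calc |a| * |min c (rk r u) - min c (rk r t)| ≤ |a| * (2 * |r⁻¹| * |u - t|) :=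
          mul_le_mul_of_nonneg_left h1 (abs_nonneg a)
      _ = (|a| * (2 * |r⁻¹|)) * |u - t| := by ring
      _ ≤ 1 * |u - t| := mul_le_mul_of_nonneg_right ha (abs_nonneg _)
      _ = |u - t| := one_mul _
  rw [abs_of_nonneg (sub_nonneg.2 htu)] at h2
  have h3 := (abs_le.1 h2).2
  have e : a * (min c (rk r u) - min c (rk r t)) = a * min c (rk r u) - a * min c (rk r t) := by
    ring
  rw [e] at h3
  linarith

theorem exists_abs_eq_norm (y : V3) : ∃ i, |y i| = ‖y‖ := by
  obtain ⟨i, -, hi⟩ := Finset.exists_mem_eq_sup' (s := (Finset.univ : Finset (Fin 3)))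
    Finset.univ_nonempty (fun i => |y i|)
  refine ⟨i, le_antisymm (norm_le_pi_norm y i) ?_⟩
  rw [pi_norm_le_iff_of_nonneg (abs_nonneg _)]
  intro j
  rw [← hi]
  exact Finset.le_sup' (fun i => |y i|) (Finset.mem_univ j)

/-- **radial shift**: the radius `‖y - b‖` is changed to
`‖y - b‖ - a * min (χ y) (rk r ‖y - b‖)`. -/
theorem exists_radial (b : V3) {r : ℝ} (hr : 0 < r) {χ : V3 → ℝ} {K : ℝ} (hK : 0 ≤ K)
    (hc : Continuous χ) (hcon : ConicalOn χ univ) (h0 : ∀ x, 0 ≤ χ x)
    (hL : ∀ x y, |χ x - χ y| ≤ K * ‖x - y‖) :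
    ∃ δ > 0, ∀ a : ℝ, |a| ≤ δ → ∃ σ : ConHomeo (univ : Set V3) (univ : Set V3),
      (∀ y, ‖σ.toFun y - b‖ = ‖y - b‖ - a * min (χ y) (rk r ‖y - b‖)) ∧
      ∀ y, χ y = 0 → σ.toFun y = y := by
  set M : ℝ := 2 * K + 4 * |r⁻¹| with hM
  have hM0 : 0 < M := by
    have : 0 < |r⁻¹| := abs_pos.2 (inv_ne_zero hr.ne')
    positivity
  set δ : ℝ := min (r / 2) (1 / (2 * M)) with hδ
  have hδ0 : 0 < δ := lt_min (by linarith) (by positivity)
  refine ⟨δ, hδ0, fun a ha => ?_⟩
  have ha1 : |a| ≤ r / 2 := ha.trans (min_le_left _ _)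
  have ha2 : |a| * M ≤ 1 / 2 := by
    calc |a| * M ≤ 1 / (2 * M) * M := mul_le_mul_of_nonneg_right (ha.trans (min_le_right _ _)) hM0.le
      _ = 1 / 2 := by field_simp
  have ha3 : |a| * (2 * |r⁻¹|) ≤ 1 := by
    have h1 : |a| * (2 * |r⁻¹|) ≤ |a| * M := by
      apply mul_le_mul_of_nonneg_left _ (abs_nonneg a)
      have := abs_nonneg r⁻¹
      linarith
    linarith
  set g : V3 → V3 := fun y i => y i - a * rw1 r (χ y) (y i - b i) with hg
  have hgc : Continuous g := by
    refine continuous_pi fun i => ?_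
    have e : (fun y : V3 => g y i) = fun y => y i - a * (min (χ y) (max 0 (min 1
        (2 * r⁻¹ * (y i - b i) - 1))) - min (χ y) (max 0 (min 1 (2 * r⁻¹ * (-(y i - b i)) - 1)))) :=
      rfl
    rw [e]
    fun_prop
  have hwcon : ∀ i : Fin 3, ConicalOn (fun y : V3 => rw1 r (χ y) (y i - b i)) univ := by
    intro i
    have h1 : ConicalOn (fun y : V3 => y i) univ :=
      conicalOn_linear (E := V3) (LinearMap.proj (φ := fun _ : Fin 3 => ℝ) i) isOpen_univ.conicalSet
    have hu : ConicalSet (univ : Set V3) := isOpen_univ.conicalSet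
    have h2 : ConicalOn (fun y : V3 => 2 * r⁻¹ * (y i - b i) - 1) univ :=
      (((h1.sub (conicalOn_const (b i) hu)).const_smul (2 * r⁻¹)).sub (conicalOn_const 1 hu))
    have h3 : ConicalOn (fun y : V3 => 2 * r⁻¹ * (-(y i - b i)) - 1) univ :=
      (((h1.sub (conicalOn_const (b i) hu)).neg.const_smul (2 * r⁻¹)).sub (conicalOn_const 1 hu))
    have h4 : ∀ f : V3 → ℝ, ConicalOn f univ → Continuous f →
        ConicalOn (fun y => min (χ y) (max 0 (min 1 (f y)))) univ := by
      intro f hf hfc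
      refine hcon.rmin ((conicalOn_const (0:ℝ) hu).rmax ((conicalOn_const (1:ℝ) hu).rmin hf
        (by fun_prop) (by fun_prop)) (by fun_prop) (by fun_prop)) (by fun_prop) (by fun_prop)
    exact (h4 _ h2 (by fun_prop)).sub (h4 _ h3 (by fun_prop))
  have hgcon : ConicalOn g univ := by
    have hs : ∀ i : Fin 3, ConicalOn (fun y : V3 => (LinearMap.single ℝ (fun _ : Fin 3 => ℝ) i)
        (rw1 r (χ y) (y i - b i))) univ := fun i => (hwcon i).linear_comp _
    have h1 := (((hs 0).add (hs 1)).add (hs 2)).const_smul (-a)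
    have h2 := (conicalOn_id (E := V3) isOpen_univ.conicalSet).add h1
    refine h2.congr fun y _ => ?_
    funext i
    fin_cases i <;>
    · simp only [hg, Pi.add_apply, Pi.smul_apply, LinearMap.coe_single, smul_eq_mul]
      simp
      ring
  have hdiff : ∀ x y, ‖(g x - x) - (g y - y)‖ ≤ (|a| * M) * ‖x - y‖ := by
    intro x y
    rw [pi_norm_le_iff_of_nonneg (by positivity)]
    intro i
    have e : ((g x - x) - (g y - y)) i =
        -(a * (rw1 r (χ x) (x i - b i) - rw1 r (χ y) (y i - b i))) := by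
      simp only [hg, Pi.sub_apply]; ring
    rw [e, norm_neg, Real.norm_eq_abs, abs_mul, mul_assoc]
    refine mul_le_mul_of_nonneg_left ?_ (abs_nonneg a)
    refine (abs_rw1_sub r (χ x) (χ y) _ _).trans ?_
    have h1 := hL x y
    have h2 : |x i - b i - (y i - b i)| ≤ ‖x - y‖ := by
      rw [sub_sub_sub_cancel_right]
      exact norm_le_pi_norm (x - y) i
    have h3 : 4 * |r⁻¹| * |x i - b i - (y i - b i)| ≤ 4 * |r⁻¹| * ‖x - y‖ :=
      mul_le_mul_of_nonneg_left h2 (by positivity)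
    rw [hM]
    linarith
  have hexp : ∀ x y, (1 - |a| * M) * ‖x - y‖ ≤ ‖g x - g y‖ := by
    intro x y
    have h1 : x - y = (g x - g y) - ((g x - x) - (g y - y)) := by abel
    have h2 : ‖x - y‖ ≤ ‖g x - g y‖ + ‖(g x - x) - (g y - y)‖ := by
      calc ‖x - y‖ = ‖(g x - g y) - ((g x - x) - (g y - y))‖ := by rw [← h1]
        _ ≤ _ := norm_sub_le _ _
    nlinarith [hdiff x y]
  have hsurj : Function.Surjective g :=
    Vale.Agent.P073.H196.surjective_of_near (T := fun y => y) (c := 1) (k := |a| * M) one_pos (by linarith)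
      (fun x y => by rw [one_mul]) (fun y => ⟨y, rfl⟩) hdiff
  refine ⟨Vale.Agent.P073.H196.conHomeoOf hgcon hgc (by linarith : 0 < 1 - |a| * M) hexp hsurj, fun y => ?_,
    fun y hy => ?_⟩
  · show ‖g y - b‖ = _
    have hi : ∀ i, |(g y - b) i| = |(y - b) i| - a * min (χ y) (rk r |(y - b) i|) := by
      intro i
      have := abs_sub_rw1 (t := y i - b i) hr (h0 y) ha1
      rw [← Pi.sub_apply] at this
      rw [← this]
      congr 1
      simp only [hg, Pi.sub_apply]
      ring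
    obtain ⟨j, hj⟩ := exists_abs_eq_norm (y - b)
    apply le_antisymm
    · rw [pi_norm_le_iff_of_nonneg]
      · intro i
        rw [Real.norm_eq_abs, hi i]
        exact rad_mono ha3 (norm_le_pi_norm (y - b) i)
      · rw [← hj, ← hi j]; exact abs_nonneg _
    · rw [← hj, ← hi j]
      exact norm_le_pi_norm (g y - b) j
  · show g y = y
    funext i
    have h1 : rw1 r (χ y) (y i - b i) = 0 := by
      unfold rw1
      rw [hy, min_eq_left (rk_nonneg _ _), min_eq_left (rk_nonneg _ _), sub_zero]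
    simp only [hg, h1, mul_zero, sub_zero]

end P073.H341
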