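import Vale.Agent.P073.H341.Bigon
import Vale.Agent.P073.SCH.LocConeImage

/-!
# P073, H341: replacing a cell of a sheet; identification of the cut off region
-/

set_option linter.unusedSectionVars false

open Set Metric Topology Filter

namespace P073.H341

open P073 P073.H339

variable {E : Type*} [NormedAddCommGroup E] [NormedSpace ℝ E]

/-- **replacing a cell `D` of the ball `S` by a cell `D'` with the same boundary** -/
theorem ball_replace {n : ℕ} {S R D γ D' : Set E} (hS : ConBall n S R) (hD : ConBall n D γ)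
    (hDS : D ⊆ S) (hDR : Disjoint D R) (hcl : IsClosed (S \ (D \ γ))) (hD' : ConBall n D' γ)
    (hi : D' ∩ S ⊆ γ) : ConBall n ((S \ (D \ γ)) ∪ D') R := by
  have hγ : ConicalSet γ := hD.conicalSet_bdry
  obtain ⟨ψ, hψ, -⟩ := hD.exists_extend hD' (ConHomeo.refl hγ)
  have hX : ConicalSet (S \ (D \ γ)) := by
    have h1 : LocCone (D \ γ) := (ConBall.locCone hD).inter (ConBall.locCone_bdry hD).compl
    exact ((ConBall.locCone hS).inter h1.compl).conicalSet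
  have hXD : (S \ (D \ γ)) ∩ D = γ := by
    ext x
    constructor
    · rintro ⟨⟨-, h2⟩, h3⟩
      by_contra h4
      exact h2 ⟨h3, h4⟩
    · intro hx
      exact ⟨⟨hDS (hD.1 hx), fun h => h.2 hx⟩, hD.1 hx⟩
  have hag : EqOn (ConHomeo.refl hX).toFun ψ.toFun ((S \ (D \ γ)) ∩ D) := by
    rw [hXD]
    intro x hx
    exact (hψ hx).symm
  have himg : (S \ (D \ γ)) ∩ D' ⊆ (ConHomeo.refl hX).toFun '' ((S \ (D \ γ)) ∩ D) := by
    rw [hXD]
    rintro x ⟨hx, hx'⟩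
    exact ⟨x, hi ⟨hx', hx.1⟩, rfl⟩
  let Ψ := ConHomeo.glue (ConHomeo.refl hX) ψ hcl hD.isClosed hcl hD'.isClosed hag himg
  have g1 : EqOn Ψ.toFun (fun x => x) (S \ (D \ γ)) := ConHomeo.glue_left _ _ _ _ _ _ _ _
  have hun : (S \ (D \ γ)) ∪ D = S := by
    ext x
    constructor
    · rintro (h | h)
      · exact h.1
      · exact hDS h
    · intro h
      by_cases hx : x ∈ D
      · exact Or.inr hx
      · exact Or.inl ⟨h, fun h' => hx h'.1⟩
  have hRX : R ⊆ S \ (D \ γ) := fun x hx =>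
    ⟨hS.1 hx, fun h' => Set.disjoint_left.1 hDR h'.1 hx⟩
  have hk := hS.image Ψ (by rw [hun])
  have e1 : Ψ.toFun '' S = (S \ (D \ γ)) ∪ D' :=
    (congrArg (fun Y => Ψ.toFun '' Y) hun.symm).trans Ψ.image_eq
  have e2 : Ψ.toFun '' R = R := by
    rw [(g1.mono hRX).image_eq, image_id']
  rwa [e1, e2] at hk

/-- **the region cut off by the bigon is `{u, v, f ≥ 0}` near it** -/
theorem BG.region {C B : Set E} {u v : E → ℝ} {X α β : Set E} {p q : E} {Z Z' l₀ : Set E}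
    (hP : Pair C B u v) (h : BG C B u v X α β p q Z Z' l₀) {N : Set E} {f : E → ℝ}
    (hN : IsClosed N) (hNC : N ⊆ C) (hNB : Disjoint N B) (hf : ContinuousOn f N)
    (hX : X = {x | x ∈ N ∧ 0 ≤ u x ∧ 0 ≤ v x ∧ f x = 0})
    (hint : {x | x ∈ N ∧ 0 ≤ u x ∧ 0 ≤ v x ∧ 0 ≤ f x} ⊆ interior N)
    (hne : ∃ x ∈ N, 0 ≤ u x ∧ 0 ≤ v x ∧ 0 < f x) :
    Z = {x | x ∈ N ∧ 0 ≤ u x ∧ 0 ≤ v x ∧ 0 ≤ f x} := by
  set P : Set E := {x | x ∈ N ∧ 0 ≤ u x ∧ 0 ≤ v x ∧ 0 ≤ f x} with hPdef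
  have hXP : X ⊆ P := by
    rw [hX]; exact fun x hx => ⟨hx.1, hx.2.1, hx.2.2.1, hx.2.2.2.ge⟩
  have hPX : ∀ {x}, x ∈ P → x ∉ X → 0 < f x := by
    intro x hx hxX
    refine lt_of_le_of_ne hx.2.2.2 fun h0 => hxX ?_
    rw [hX]; exact ⟨hx.1, hx.2.1, hx.2.2.1, h0.symm⟩
  have hPcl : IsClosed P := by
    have h1 : IsClosed {x | x ∈ N ∧ 0 ≤ u x} :=
      (hP.hu.mono hNC).preimage_isClosed_of_isClosed hN isClosed_Ici
    have h2 : IsClosed {x | x ∈ N ∧ 0 ≤ v x} :=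
      (hP.hv.mono hNC).preimage_isClosed_of_isClosed hN isClosed_Ici
    have h3 : IsClosed {x | x ∈ N ∧ 0 ≤ f x} :=
      hf.preimage_isClosed_of_isClosed hN isClosed_Ici
    have : P = {x | x ∈ N ∧ 0 ≤ u x} ∩ ({x | x ∈ N ∧ 0 ≤ v x} ∩ {x | x ∈ N ∧ 0 ≤ f x}) := by
      ext x; simp only [hPdef, mem_inter_iff, mem_ofPred_eq]; tauto
    rw [this]; exact h1.inter (h2.inter h3)
  -- a set open in `Q \ X`
  obtain ⟨O, hO, hOe⟩ : ∃ O : Set E, IsOpen O ∧ O = {x | x ∈ interior N ∧ 0 < f x} :=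
    ⟨_, (hf.mono interior_subset).isOpen_inter_preimage isOpen_interior isOpen_Ioi, rfl⟩
  have side : ∀ {K : Set E}, IsPreconnected K → K ⊆ {x | x ∈ C ∧ 0 ≤ u x ∧ 0 ≤ v x} →
      Disjoint K X → K ⊆ P ∨ Disjoint K P := by
    intro K hK hKQ hKX
    have hcov : K ⊆ O ∪ Pᶜ := by
      intro x hx
      by_cases hxP : x ∈ P
      · left
        rw [hOe]
        exact ⟨hint hxP, hPX hxP (Set.disjoint_left.1 hKX hx)⟩
      · exact Or.inr hxP
    have hdis : K ∩ (O ∩ Pᶜ) = ∅ := by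
      rw [Set.eq_empty_iff_forall_notMem]
      rintro x ⟨hx, hxO, hxP⟩
      rw [hOe] at hxO
      exact hxP ⟨interior_subset hxO.1, (hKQ hx).2.1, (hKQ hx).2.2, hxO.2.le⟩
    rcases (isPreconnected_iff_subset_of_disjoint.1 hK) O Pᶜ hO hPcl.isOpen_compl hcov hdis with
      h1 | h1
    · left
      intro x hx
      have hxO := h1 hx
      rw [hOe] at hxO
      exact ⟨interior_subset hxO.1, (hKQ hx).2.1, (hKQ hx).2.2, hxO.2.le⟩
    · exact Or.inr (Set.disjoint_left.2 fun x hx hxP => h1 hx hxP)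
  have hZQ : ∀ x, x ∈ Z → x ∈ C ∧ 0 ≤ u x ∧ 0 ≤ v x := fun x hx => by
    have : x ∈ Z ∪ Z' := Or.inl hx
    rw [h.un] at this; exact this
  have hZ'Q : ∀ x, x ∈ Z' → x ∈ C ∧ 0 ≤ u x ∧ 0 ≤ v x := fun x hx => by
    have : x ∈ Z ∪ Z' := Or.inr hx
    rw [h.un] at this; exact this
  have hd : ∀ Y : Set E, Disjoint (Y \ X) X := fun Y => Set.disjoint_left.2 fun x hx => hx.2
  -- the other side does not meet `P`
  obtain ⟨R', hXR', -, -, hZ'⟩ := h.hZ'
  have c' : IsPreconnected (Z' \ X) :=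
    GB200.preconn_between hZ' (fun x hx => ⟨hx.1, fun h' => hx.2 (hXR' h')⟩) Set.sdiff_subset
  have c : IsPreconnected (Z \ X) :=
    GB200.preconn_between h.hZ (fun x hx => ⟨hx.1, fun h' => hx.2 (Or.inr h')⟩) Set.sdiff_subset
  have k' : Disjoint (Z' \ X) P := by
    rcases side c' (fun x hx => hZ'Q x hx.1) (hd _) with h1 | h1
    · exfalso
      obtain ⟨R, hR⟩ := hP.outer
      obtain ⟨x, hx⟩ := hR.nonempty'
      have hxQ : x ∈ Z ∪ Z' := by
        rw [h.un]; exact ⟨hP.hC.1 hx.1.1, hx.1.2, hx.2⟩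
      have hxZ : x ∉ Z := fun hxZ => Set.disjoint_left.1 h.hZB hxZ hx.1.1
      have hxZ' : x ∈ Z' := hxQ.resolve_left hxZ
      have hxX : x ∉ X := fun hxX => hxZ (h.int.symm.subset hxX).1
      exact Set.disjoint_left.1 hNB (h1 ⟨hxZ', hxX⟩).1 hx.1.1
    · exact h1
  have k : Z \ X ⊆ P := by
    rcases side c (fun x hx => hZQ x hx.1) (hd _) with h1 | h1
    · exact h1
    · exfalso
      obtain ⟨x, hxN, hxu, hxv, hxf⟩ := hne
      have hxP : x ∈ P := ⟨hxN, hxu, hxv, hxf.le⟩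
      have hxX : x ∉ X := fun hxX => by rw [hX] at hxX; exact hxf.ne' hxX.2.2.2
      have hxQ : x ∈ Z ∪ Z' := by rw [h.un]; exact ⟨hNC hxN, hxu, hxv⟩
      rcases hxQ with hx | hx
      · exact Set.disjoint_left.1 h1 ⟨hx, hxX⟩ hxP
      · exact Set.disjoint_left.1 k' ⟨hx, hxX⟩ hxP
  apply Subset.antisymm
  · intro x hx
    by_cases hxX : x ∈ X
    · exact hXP hxX
    · exact k ⟨hx, hxX⟩
  · intro x hx
    by_cases hxX : x ∈ X
    · exact (h.int.symm.subset hxX).1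
    · have hxQ : x ∈ Z ∪ Z' := by rw [h.un]; exact ⟨hNC hx.1, hx.2.1, hx.2.2.1⟩
      rcases hxQ with h1 | h1
      · exact h1
      · exact absurd hx (Set.disjoint_left.1 k' ⟨h1, hxX⟩)

end P073.H341
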