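import Vale.Agent.P073.H341.PushD
import Vale.Agent.P073.H341.Lift
import Vale.Agent.P073.H805.FB

/-!
# P073, H341: retraction, preparations: discs in a plane, germs, the side without `N`
-/

open Set Metric Topology Filter

namespace P073.H341

open P073 Vale.Agent.P073.H238

/-- a plane -/
def Pln (φ : V3 →L[ℝ] ℝ) (k : ℝ) : Set V3 := {x | φ x = k}

theorem convex_Pln (φ : V3 →L[ℝ] ℝ) (k : ℝ) : Convex ℝ (Pln φ k) := by
  intro x hx y hy a b _ _ hab
  have hx' : φ x = k := hx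
  have hy' : φ y = k := hy
  show φ (a • x + b • y) = k
  rw [map_add, map_smul, map_smul, hx', hy', smul_eq_mul, smul_eq_mul, ← add_mul, hab, one_mul]

theorem isClosed_Pln (φ : V3 →L[ℝ] ℝ) (k : ℝ) : IsClosed (Pln φ k) :=
  isClosed_eq φ.continuous continuous_const

theorem finrank_ker {φ : V3 →L[ℝ] ℝ} {n : V3} (hn : φ n = 1) :
    Module.finrank ℝ (LinearMap.ker φ.toLinearMap) = 2 := by
  have h1 := φ.toLinearMap.finrank_range_add_finrank_ker
  have h2 : LinearMap.range φ.toLinearMap = ⊤ := by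
    rw [LinearMap.range_eq_top]
    intro t
    exact ⟨t • n, by show φ (t • n) = t; rw [map_smul, hn, smul_eq_mul, mul_one]⟩
  rw [h2, finrank_top, Module.finrank_self] at h1
  have h3 : Module.finrank ℝ V3 = 3 := by simp
  omega

/-- a chart of a plane -/
theorem exists_planeChart {φ : V3 →L[ℝ] ℝ} {n : V3} (hn : φ n = 1) (k : ℝ) :
    ∃ χ : ConHomeo (Pln φ k) (univ : Set (Fin 2 → ℝ)), Continuous χ.toFun := by
  have e : (LinearMap.ker φ.toLinearMap) ≃L[ℝ] (Fin 2 → ℝ) :=
    ContinuousLinearEquiv.ofFinrankEq (by rw [finrank_ker hn]; simp)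
  let p : V3 →ₗ[ℝ] (LinearMap.ker φ.toLinearMap) :=
    { toFun := fun x => ⟨x - φ x • n, by
        show φ (x - φ x • n) = 0
        rw [map_sub, map_smul, hn, smul_eq_mul, mul_one, sub_self]⟩
      map_add' := fun x y => by
        apply Subtype.ext
        show (x + y) - φ (x + y) • n = (x - φ x • n) + (y - φ y • n)
        rw [map_add]; module
      map_smul' := fun a x => by
        apply Subtype.ext
        show a • x - φ (a • x) • n = a • (x - φ x • n)
        rw [map_smul]; module }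
  let π : V3 →ₗ[ℝ] (Fin 2 → ℝ) := e.toLinearEquiv.toLinearMap.comp p
  let j : (Fin 2 → ℝ) →ₗ[ℝ] V3 :=
    (LinearMap.ker φ.toLinearMap).subtype.comp e.symm.toLinearEquiv.toLinearMap
  have hφj : ∀ w, φ (j w) = 0 := fun w => (e.symm w).2
  have hπ : ∀ x, π x = e (p x) := fun _ => rfl
  have hj : ∀ w, j w = ((e.symm w : LinearMap.ker φ.toLinearMap) : V3) := fun _ => rfl
  have hPc : ConicalSet (Pln φ k) := (convex_Pln φ k).conicalSet
  refine ⟨{ toFun := fun x => π x
            invFun := fun w => j w + k • n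
            mapsTo := mapsTo_univ _ _
            mapsTo_inv := ?_
            left_inv := ?_
            right_inv := ?_
            cont := π.continuous_of_finiteDimensional.continuousOn
            cont_inv := (j.continuous_of_finiteDimensional.add continuous_const).continuousOn
            conical := conicalOn_linear π hPc }, π.continuous_of_finiteDimensional⟩
  · intro w _
    show φ (j w + k • n) = k
    rw [map_add, map_smul, hφj, hn, zero_add, smul_eq_mul, mul_one]
  · intro x hx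
    have hx' : φ x = k := hx
    show j (π x) + k • n = x
    rw [hj, hπ, e.symm_apply_apply]
    show (x - φ x • n) + k • n = x
    rw [hx', sub_add_cancel]
  · intro w _
    show π (j w + k • n) = w
    rw [hπ]
    have : p (j w + k • n) = e.symm w := by
      apply Subtype.ext
      show (j w + k • n) - φ (j w + k • n) • n = _
      rw [map_add, map_smul, hφj, hn, zero_add, smul_eq_mul, mul_one, add_sub_cancel_right, hj]
    rw [this, e.apply_symm_apply]

/-- the open disc is relatively open in the plane -/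
theorem rel_open {φ : V3 →L[ℝ] ℝ} {n : V3} (hn : φ n = 1) {k : ℝ} {C B : Set V3}
    (h : ConBall 2 C B) (hC : C ⊆ Pln φ k) :
    IsClosed (Pln φ k \ (C \ B)) ∧ ∃ U, IsOpen U ∧ C \ B = Pln φ k ∩ U := by
  obtain ⟨χ, hχ⟩ := exists_planeChart hn k
  have h1 : IsOpen (χ.toFun '' C \ χ.toFun '' B) := (h.image χ hC).isOpen_diff
  have h2 : C \ B = Pln φ k ∩ χ.toFun ⁻¹' (χ.toFun '' C \ χ.toFun '' B) := by
    ext x
    constructor
    · rintro ⟨hx, hxB⟩
      refine ⟨hC hx, mem_image_of_mem _ hx, ?_⟩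
      rintro ⟨y, hy, he⟩
      exact hxB (χ.injOn (hC (h.1 hy)) (hC hx) he ▸ hy)
    · rintro ⟨hxP, ⟨y, hy, he⟩, hxB⟩
      have : y = x := χ.injOn (hC hy) hxP he
      subst this
      exact ⟨hy, fun hB => hxB (mem_image_of_mem _ hB)⟩
  have h3 := h1.preimage hχ
  refine ⟨?_, _, h3, h2⟩
  rw [h2, sdiff_self_inter]
  exact (isClosed_Pln φ k).sdiff h3

/-- **germs along the boundary of a clean disc** -/
theorem side_germ {P : Set V3} (hP : Convex ℝ P) {E0 c : Set V3} (hE : ConBall 2 E0 c)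
    (hEP : E0 ⊆ P) (hcl : IsClosed (P \ (E0 \ c))) {u : V3 → ℝ} {O : Set V3} (hO : IsOpen O)
    (hEO : E0 ⊆ O) (hu : ContinuousOn u O) (hpos : ∀ x ∈ E0, x ∉ c → 0 < u x)
    (hc : ∀ x ∈ c, u x = 0) (hreg : ∀ x ∈ c, H805.Reg u (fun _ : Unit => P) x) :
    ∀ x ∈ E0, ∀ᶠ y in 𝓝 x, y ∈ P → y ∉ E0 → u y < 0 := by
  intro x hx
  by_cases hxc : x ∈ c
  swap
  · have hxn : x ∉ P \ (E0 \ c) := fun h => h.2 ⟨hx, hxc⟩
    filter_upwards [hcl.isOpen_compl.mem_nhds hxn] with y hy hyP hyE
    exact absurd ⟨hyP, fun h => hyE h.1⟩ hy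
  obtain ⟨σ, r₀, hb⟩ := hreg x hxc
  have hr₀ := hb.pos
  obtain ⟨ρ₁, hρ₁, hball⟩ := Metric.isOpen_iff.1 hO x (hEO hx)
  set ρ := min r₀ ρ₁ with hρ
  have hρ0 : 0 < ρ := lt_min hr₀ hρ₁
  set v : V3 := σ 1 with hv
  have hσ : ∀ t : ℝ, σ t = t • v := fun t => by
    rw [hv, ← map_smul, smul_eq_mul, mul_one]
  have key : ∀ w : V3, ‖w - x‖ < ρ → ∀ t : ℝ, 0 ≤ t → t < ρ →
      u (w + t • v) = u w + t ∧ (w + t • v ∈ P ↔ w ∈ P) := by
    intro w hw t ht ht'
    have h1 : ‖w - x‖ < r₀ := hw.trans_le (min_le_left _ _)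
    have h2 : ‖t‖ < r₀ := by
      rw [Real.norm_of_nonneg ht]; exact ht'.trans_le (min_le_left _ _)
    have e1 : x + (w - x) + σ t = w + t • v := by rw [hσ]; abel
    have e2 : x + (w - x) = w := by abel
    have h3 := hb.add (w - x) t h1 h2
    have h4 := hb.iff () (w - x) t h1 h2
    rw [e1, e2] at h3 h4
    exact ⟨h3, h4⟩
  have hux : u x = 0 := hc x hxc
  obtain ⟨η, hη, Q, q1, -, q3, q4, q5⟩ := exists_conn (y := x) (v := v) hP hρ0
    (hu.mono fun z hz => hball (ball_subset_ball (min_le_right _ _) hz))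
    (fun w hw t ht ht' hwP hwu => by
      obtain ⟨k1, k2⟩ := key w hw t ht ht'
      exact ⟨k2.2 hwP, by rw [k1]; linarith⟩)
    (fun t ht ht' => by
      obtain ⟨k1, k2⟩ := key x (by rw [sub_self, norm_zero]; exact hρ0) t ht.le ht'
      exact ⟨k2.2 (hEP hx), by rw [k1, hux]; linarith⟩) (N := univ) univ_mem
  -- `Q` is in the disc
  have hQE : Q ⊆ E0 := by
    have h1 : x ∈ closure (E0 \ c) := hE.open_isPreconnected.2 hx
    obtain ⟨y, hy, hyE⟩ := mem_closure_iff.1 h1 _ isOpen_ball (mem_ball_self hη)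
    have hyQ : y ∈ Q := q5 y (mem_ball_iff_norm.1 hy) (hEP hyE.1) (hpos y hyE.1 hyE.2)
    refine subset_of_relOpen q1 q3 hE.isClosed hcl ?_ ⟨y, hyQ, hyE.1⟩
    rw [disjoint_left]
    intro z hz hzc
    have := q4 z hz
    rw [hc z hzc] at this
    exact lt_irrefl _ this
  have hQcl : closure Q ⊆ E0 := closure_minimal hQE hE.isClosed
  set η' := min (η / 2) ρ with hη'
  have hη'0 : 0 < η' := lt_min (by linarith) hρ0
  filter_upwards [ball_mem_nhds x hη'0] with y hy hyP hyE
  have hy' : ‖y - x‖ < η' := mem_ball_iff_norm.1 hy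
  by_contra hcon
  rw [not_lt] at hcon
  apply hyE
  rcases hcon.lt_or_eq with h1 | h1
  · refine hQE (q5 y ?_ hyP h1)
    have : η' ≤ η / 2 := min_le_left _ _
    linarith
  · -- approach by points of `Q`
    apply hQcl
    have hv0 : 0 ≤ ‖v‖ := norm_nonneg v
    refine Metric.mem_closure_iff.2 fun ε hε => ?_
    set t := min (ρ / 2) (min (η / 2) (ε / 2) / (‖v‖ + 1)) with ht
    have hm0 : 0 < min (η / 2) (ε / 2) := lt_min (by linarith) (by linarith)
    have ht0 : 0 < t := lt_min (by linarith) (by positivity)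
    have ht1 : t < ρ := (min_le_left _ _).trans_lt (by linarith)
    have ht2 : t * ‖v‖ < min (η / 2) (ε / 2) ∨ t * ‖v‖ ≤ min (η / 2) (ε / 2) := by
      right
      calc t * ‖v‖ ≤ min (η / 2) (ε / 2) / (‖v‖ + 1) * (‖v‖ + 1) :=
            mul_le_mul (min_le_right _ _) (by linarith) hv0 (by positivity)
        _ = min (η / 2) (ε / 2) := by field_simp
    have ht3 : t * ‖v‖ ≤ min (η / 2) (ε / 2) := ht2.elim le_of_lt id
    obtain ⟨k1, k2⟩ := key y (hy'.trans_le (min_le_right _ _)) t ht0.le ht1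
    refine ⟨y + t • v, q5 _ ?_ (k2.2 hyP) (by rw [k1, ← h1]; linarith), ?_⟩
    · calc ‖y + t • v - x‖ = ‖(y - x) + t • v‖ := by congr 1; abel
        _ ≤ ‖y - x‖ + ‖t • v‖ := norm_add_le _ _
        _ = ‖y - x‖ + t * ‖v‖ := by rw [norm_smul, Real.norm_of_nonneg ht0.le]
        _ < η := by
          have a1 : η' ≤ η / 2 := min_le_left _ _
          have a2 := ht3.trans (min_le_left _ _)
          linarith
    · rw [dist_eq_norm, show y - (y + t • v) = -(t • v) by abel, norm_neg, norm_smul,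
        Real.norm_of_nonneg ht0.le]
      have a2 := ht3.trans (min_le_right _ _)
      linarith

/-- **the side without `N`** -/
theorem far_side {Ω Λ : Set V3} (hΛ : IsOpen Λ) (h : ConHomeo Ω Λ) {Z : Set V3} (hZ : AmbBall Z)
    (hfr : frontier Z ⊆ Λ) (hfrne : (frontier Z).Nonempty) {N L : Set V3} (hN : IsPreconnected N)
    (hNΩ : N ⊆ Ω) (hL : IsCompact L) (hLΩ : L ⊆ Ω) (hfar : Ω \ L ⊆ N)
    (hNZ : ∀ x ∈ N, h.toFun x ∉ frontier Z) (hout : ∃ y ∈ Λ, y ∉ Z) :
    Z ⊆ Λ ∧ ∀ x ∈ N, h.toFun x ∉ Z := by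
  have hLc : IsCompact (h.toFun '' L) := hL.image_of_continuousOn (h.cont.mono hLΩ)
  have hLΛ : h.toFun '' L ⊆ Λ := by rintro _ ⟨x, hx, rfl⟩; exact h.mapsTo (hLΩ hx)
  have hNp : IsPreconnected (h.toFun '' N) := hN.image _ (h.cont.mono hNΩ)
  have hNd : Disjoint (h.toFun '' N) (frontier Z) := by
    rw [disjoint_left]; rintro _ ⟨x, hx, rfl⟩; exact hNZ x hx
  have hback : ∀ y ∈ Λ, y ∉ h.toFun '' L → y ∈ h.toFun '' N := by
    intro y hy hyL
    have h1 := h.mapsTo_inv hy
    refine ⟨h.invFun y, hfar ⟨h1, fun h2 => hyL ⟨_, h2, h.right_inv hy⟩⟩, h.right_inv hy⟩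
  rcases hZ.subset_or_of_disjoint hNp hNd with h1 | h1
  · exfalso
    have key : ∀ y ∈ Λ \ Z, y ∈ h.toFun '' L := by
      rintro y ⟨hy, hyZ⟩
      by_contra h2
      exact hyZ (interior_subset (h1 (hback y hy h2)))
    obtain ⟨y0, hy0, hy0Z⟩ := hout
    rcases hZ.isPreconnected_compl.subset_or_subset (u := Λ \ Z) (v := (h.toFun '' L)ᶜ)
      (hΛ.sdiff hZ.isClosed) hLc.isClosed.isOpen_compl (by
        rw [disjoint_left]; intro y hy hy'; exact hy' (key y hy)) (by
        intro y hy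
        by_cases h2 : y ∈ Λ
        · exact Or.inl ⟨h2, hy⟩
        · exact Or.inr fun h3 => h2 (hLΛ h3)) with h2 | h2
    · exact hZ.not_isBounded_compl (hLc.isBounded.subset fun y hy => key y (h2 hy))
    · exact h2 (show y0 ∈ Zᶜ from hy0Z) (key y0 ⟨hy0, hy0Z⟩)
  · refine ⟨?_, fun x hx hxZ => h1 (mem_image_of_mem _ hx) hxZ⟩
    have key : ∀ y ∈ interior Z ∩ Λ, y ∈ h.toFun '' L := by
      rintro y ⟨hy, hyΛ⟩
      by_contra h2
      exact h1 (hback y hyΛ h2) (interior_subset hy)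
    have hsub : interior Z ⊆ h.toFun '' L := by
      obtain ⟨p, hp⟩ := hfrne
      have hpcl : p ∈ closure (interior Z) := by
        rw [hZ.closure_interior]; exact hZ.isClosed.frontier_subset hp
      obtain ⟨y, hyΛ, hyi⟩ := mem_closure_iff.1 hpcl _ hΛ (hfr hp)
      rcases hZ.isPreconnected_interior.subset_or_subset (u := interior Z ∩ Λ)
        (v := (h.toFun '' L)ᶜ) (isOpen_interior.inter hΛ) hLc.isClosed.isOpen_compl (by
          rw [disjoint_left]; intro y hy hy'; exact hy' (key y hy)) (by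
          intro y hy
          by_cases h2 : y ∈ Λ
          · exact Or.inl ⟨hy, h2⟩
          · exact Or.inr fun h3 => h2 (hLΛ h3)) with h2 | h2
      · exact fun y hy => key y (h2 hy)
      · exact absurd (key y ⟨hyi, hyΛ⟩) (h2 hyi)
    rw [← hZ.closure_interior]
    exact (closure_minimal hsub hLc.isClosed).trans hLΛ

end P073.H341
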