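import Vale.Agent.P073.H726.RetractAll
import Vale.Agent.P073.H341.RetC

/-!
# P073, H341: all the retractions (helper726's `retract_all`), without hypothesis
-/

open Set Metric Topology Filter

namespace P073.H341

open P073 Vale.Agent.P073.H726 Vale.Agent.P073.H726.RA
open Vale.Agent.P073.St (V)

variable {Ω Λ : Set V} {I J : Type*} {q E κ O : I → Set V} {φ : I → V →L[ℝ] ℝ} {c : I → ℝ}
  {b : J → V} {ρ' : J → ℝ} {N : J → Set V}

/-- one retraction -/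
theorem step (hΩ : IsOpen Ω) (hΛ : IsOpen Λ) {h : V → V}
    (D : Data Ω Λ h q E κ O φ c b ρ' N) {R : Set I} {r : J → ℝ} {g : ConHomeo Ω Λ}
    (S : RA.State (Ω := Ω) (Λ := Λ) h q E κ b ρ' N R r g) (i₀ : I) :
    ∃ r' g', State (Ω := Ω) (Λ := Λ) h q E κ b ρ' N (insert i₀ R) r' g' := by
  obtain ⟨j₀, hj₀⟩ := S.circ i₀
  set r' : J → ℝ := fun j => (r j + ρ' j) / 2 with hr'
  have hr1 : ∀ j, r j < r' j := fun j => by have := S.lt j; simp only [hr']; linarith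
  have hr2 : ∀ j, r' j < ρ' j := fun j => by have := S.lt j; simp only [hr']; linarith
  have hsub : ∀ j, closedBall (b j) (r' j) ⊆ closedBall (b j) (ρ' j) := fun j =>
    closedBall_subset_closedBall (hr2 j).le
  have hNE : Disjoint (N j₀) (E i₀) := by
    rw [disjoint_left]
    intro x hxN hxE
    by_cases hxκ : x ∈ κ i₀
    · refine S.avoid j₀ x hxN (ball_subset_closedBall (ball_subset_ball (S.lt j₀).le (hj₀ x hxκ)))
    · exact disjoint_left.1 (D.NE i₀ j₀) hxN ⟨hxE, hxκ⟩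
  have hav : ∀ x ∈ N j₀, g.toFun x ∉ closedBall (b j₀) (r' j₀) := fun x hx hc =>
    S.avoid j₀ x hx (hsub j₀ hc)
  obtain ⟨L, hLΩ, hL, hLN⟩ := D.far j₀
  obtain ⟨Θ, M, -, h1⟩ := retract (k := c i₀) hΛ g (D.Oo i₀) (D.OΩ i₀) (D.one i₀)
    (D.Oq i₀) (D.ball i₀) (D.EO i₀) (D.flat i₀) (D.qE i₀ i₀).symm
    (S.pos j₀) (hr1 j₀) ((hsub j₀).trans (D.BΛ j₀)) hj₀ (D.Nc j₀) (D.NΩ j₀) hNE (D.Nq i₀ j₀) hav
    hL hLΩ hLN
  obtain ⟨C, hC, hCΛ, hCs⟩ := M.supp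
  have h2 := M.mv
  have h3 : ∀ A ⊆ Ω, IsPreconnected A → (A ∩ N j₀).Nonempty → Disjoint A (E i₀) →
      (∀ z ∈ A, g.toFun z ∉ closedBall (b j₀) (r' j₀)) → Disjoint A (q i₀) →
      ∀ x ∈ A, Θ.toFun (g.toFun x) = g.toFun x := fun A a1 a2 a3 a4 a5 a6 =>
    M.fix A a1 a2 a4 a6 a5 a3
  have h4 : ∀ A ⊆ Ω, IsPreconnected A → Disjoint A (E i₀) →
      (∀ z ∈ A, g.toFun z ∉ closedBall (b j₀) (r' j₀)) → Disjoint A (q i₀) →
      (∀ x ∈ A, Θ.toFun (g.toFun x) = g.toFun x) ∨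
        ∀ x ∈ A, Θ.toFun (g.toFun x) ∈ Metric.ball (b j₀) (r' j₀) := fun A a1 a2 a3 a4 a5 =>
    M.all A a1 a2 a3 a5 a4
  have hb1 : ∀ j, Metric.ball (b j) (r j) ⊆ Metric.ball (b j) (r' j) := fun j =>
    ball_subset_ball (hr1 j).le
  have hb2 : ∀ j, Metric.ball (b j) (r' j) ⊆ closedBall (b j) (ρ' j) := fun j =>
    ball_subset_closedBall.trans (hsub j)
  -- connected sets which are in one small cube
  have key : ∀ A ⊆ Ω, IsPreconnected A → Disjoint A (E i₀) → Disjoint A (q i₀) →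
      (∃ j, ∀ x ∈ A, g.toFun x ∈ Metric.ball (b j) (r j)) →
      ∃ j, ∀ x ∈ A, Θ.toFun (g.toFun x) ∈ Metric.ball (b j) (r' j) := by
    rintro A hAΩ hA hAE hAq ⟨j, hj⟩
    by_cases hjj : j = j₀
    · subst hjj
      refine ⟨j, fun x hx => ?_⟩
      rcases h2 x (hAΩ hx) (disjoint_left.1 hAq hx) with h5 | h5
      · rw [h5]; exact hb1 _ (hj x hx)
      · exact h5
    · rcases h4 A hAΩ hA hAE (fun z hz hzc => disjoint_left.1 (D.disj j j₀ hjj)
        (hb2 j (hb1 j (hj z hz))) (hsub j₀ hzc)) hAq with h5 | h5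
      · exact ⟨j, fun x hx => by rw [h5 x hx]; exact hb1 _ (hj x hx)⟩
      · exact ⟨j₀, h5⟩
  refine ⟨r', comp g Θ hCΛ hCs hΛ, fun j => (S.pos j).trans (hr1 j), hr2, fun i => ?_,
    fun i hi => ?_, fun x hx hxq => ?_, fun j x hx => ?_, ?_⟩
  · -- circles
    rcases eq_or_ne i i₀ with rfl | hii
    · exact ⟨j₀, fun x hx => h1 x ((D.ball i).1 hx)⟩
    · have hκE : κ i ⊆ E i := (D.ball i).1
      refine key (κ i) (hκE.trans ((D.EO i).trans (D.OΩ i))) (isPreconnected_bdry (D.ball i))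
        ((D.EE i i₀ hii).mono_left hκE) ((D.qE i₀ i).symm.mono_left hκE) (S.circ i)
  · -- retracted discs
    rcases eq_or_ne i i₀ with rfl | hii
    · exact ⟨j₀, fun x hx => h1 x hx⟩
    · exact key (E i) ((D.EO i).trans (D.OΩ i)) (isPreconnected_ball (D.ball i)) (D.EE i i₀ hii)
        (D.qE i₀ i).symm (S.done i (hi.resolve_left hii))
  · -- the dichotomy
    rw [comp_apply]
    rcases h2 x hx (hxq i₀) with h5 | h5
    · rw [h5]
      rcases S.near x hx hxq with h6 | ⟨j, hj⟩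
      · exact Or.inl h6
      · exact Or.inr ⟨j, hb1 j hj⟩
    · exact Or.inr ⟨j₀, h5⟩
  · -- the sets `N j`
    rw [comp_apply]
    by_cases hjj : j = j₀
    · subst hjj
      rw [h3 (N j) (D.NΩ j) (D.Nc j) ⟨x, hx, hx⟩ hNE hav (D.Nq i₀ j) x hx]
      exact S.avoid j x hx
    · rcases h2 x (D.NΩ j hx) (disjoint_left.1 (D.Nq i₀ j) hx) with h5 | h5
      · rw [h5]; exact S.avoid j x hx
      · exact fun hc => disjoint_left.1 (D.disj j j₀ hjj) hc (hb2 j₀ h5)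
  · -- the support
    obtain ⟨C', hC'Λ, hC', hs⟩ := S.supp
    refine ⟨C' ∪ C, union_subset hC'Λ hCΛ, hC'.union hC, fun x hx hxC => ?_⟩
    rw [comp_apply]
    have h5 := hs x hx fun hc => hxC (Or.inl hc)
    rw [h5]
    exact hCs _ fun hc => hxC (Or.inr hc)

/-- **[P2e-ALL] All the retractions.** -/
theorem retract_all [Finite I] (hΩ : IsOpen Ω) (hΛ : IsOpen Λ)
    (h : ConHomeo Ω Λ) (D : Data Ω Λ h.toFun q E κ O φ c b ρ' N) {ρ : J → ℝ}
    (hρ : ∀ j, 0 < ρ j) (hρ' : ∀ j, ρ j < ρ' j)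
    (hκ : ∀ i, ∃ j, ∀ x ∈ κ i, h.toFun x ∈ Metric.ball (b j) (ρ j)) :
    ∃ h' : ConHomeo Ω Λ,
      (∀ i, ∃ j, ∀ x ∈ E i, h'.toFun x ∈ Metric.ball (b j) (ρ' j)) ∧
      (∀ x ∈ Ω, (∀ i, x ∉ q i) → h'.toFun x = h.toFun x ∨
        ∃ j, h'.toFun x ∈ Metric.ball (b j) (ρ' j)) ∧
      (∀ j, ∀ x ∈ N j, h'.toFun x ∉ closedBall (b j) (ρ' j)) ∧
      ∃ C ⊆ Λ, IsCompact C ∧ ∀ x ∈ Ω, h.toFun x ∉ C → h'.toFun x = h.toFun x := by
  have key : ∀ R : Set I, R.Finite →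
      ∃ r g, State (Ω := Ω) (Λ := Λ) h.toFun q E κ b ρ' N R r g := by
    intro R hR
    induction R, hR using Set.Finite.induction_on with
    | empty =>
      exact ⟨ρ, h, ⟨hρ, hρ', hκ, fun i hi => absurd hi (notMem_empty i),
        fun x _ _ => Or.inl rfl, D.NB, ∅, empty_subset _, isCompact_empty, fun x _ _ => rfl⟩⟩
    | @insert i R _ _ ih =>
      obtain ⟨r, g, S⟩ := ih
      exact step hΩ hΛ D S i
  obtain ⟨r, g, S⟩ := key univ finite_univ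
  refine ⟨g, fun i => ?_, fun x hx hxq => ?_, S.avoid, S.supp⟩
  · obtain ⟨j, hj⟩ := S.done i (mem_univ i)
    exact ⟨j, fun x hx => ball_subset_ball (S.lt j).le (hj x hx)⟩
  · rcases S.near x hx hxq with h1 | ⟨j, hj⟩
    · exact Or.inl h1
    · exact Or.inr ⟨j, ball_subset_ball (S.lt j).le hj⟩

end P073.H341
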