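import Vale.Agent.P073.H341.RetA

/-!
# P073, H341: retraction, one clean circle
-/

open Set Metric Topology Filter

namespace P073.H341

open P073 Vale.Agent.P073.H238

/-- what a retraction does outside `q` -/
structure Mv (Ω Λ q N E : Set V3) (b : V3) (ρ' : ℝ) (h : V3 → V3)
    (Θ : ConHomeo (univ : Set V3) (univ : Set V3)) : Prop where
  supp : ∃ C, IsCompact C ∧ C ⊆ Λ ∧ ∀ y ∉ C, Θ.toFun y = y
  mv : ∀ x ∈ Ω, x ∉ q → Θ.toFun (h x) = h x ∨ Θ.toFun (h x) ∈ ball b ρ'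
  all : ∀ A ⊆ Ω, IsPreconnected A → Disjoint A E → Disjoint A q →
    (∀ x ∈ A, h x ∉ closedBall b ρ') →
    (∀ x ∈ A, Θ.toFun (h x) = h x) ∨ ∀ x ∈ A, Θ.toFun (h x) ∈ ball b ρ'
  fix : ∀ A ⊆ Ω, IsPreconnected A → Disjoint A E → Disjoint A q →
    (∀ x ∈ A, h x ∉ closedBall b ρ') → (A ∩ N).Nonempty → ∀ x ∈ A, Θ.toFun (h x) = h x

/-- a map with compact support preserves the support -/
theorem mapsTo_supp {Θ : ConHomeo (univ : Set V3) (univ : Set V3)} {C : Set V3}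
    (h : ∀ y ∉ C, Θ.toFun y = y) {y : V3} (hy : y ∈ C) : Θ.toFun y ∈ C := by
  by_contra h'
  exact h' (by rw [Θ.injective (h _ h')]; exact hy)

theorem clean_step {Ω Λ q O : Set V3} (hΛ : IsOpen Λ) (h : ConHomeo Ω Λ) (hO : IsOpen O)
    (hOΩ : O ⊆ Ω) {φ : V3 →L[ℝ] ℝ} {n : V3} (hn : φ n = 1) {k : ℝ}
    (hOq : ∀ x ∈ O, x ∉ q → φ x = k) {E0 c κ N L : Set V3} (hE : ConBall 2 E0 c)
    (hEO : E0 ⊆ O) (hEP : E0 ⊆ Pln φ k) (hEq : Disjoint E0 q) {b : V3} {ρ r ρ' : ℝ} (hρ : 0 < ρ)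
    (hr : ρ < r) (hr' : r < ρ') (hB : closedBall b ρ' ⊆ Λ)
    (hc : ∀ x ∈ E0, (‖h.toFun x - b‖ = r ↔ x ∈ c))
    (hreg : ∀ x ∈ c, H805.Reg (fun y => ‖h.toFun y - b‖) (fun _ : Unit => Pln φ k) x)
    (hκc : IsCompact κ) (hκp : IsPreconnected κ) (hκΩ : κ ⊆ Ω) (hκE : Disjoint κ E0)
    (hκb : ∀ x ∈ κ, h.toFun x ∈ ball b ρ) (hN : IsPreconnected N) (hNΩ : N ⊆ Ω)
    (hNE : Disjoint N E0) (hNb : ∀ x ∈ N, h.toFun x ∉ closedBall b ρ') (hL : IsCompact L)
    (hLΩ : L ⊆ Ω) (hfar : Ω \ L ⊆ N) :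
    ∃ Θ : ConHomeo (univ : Set V3) (univ : Set V3), Mv Ω Λ q N E0 b ρ' h.toFun Θ ∧
      (∀ x ∈ κ, Θ.toFun (h.toFun x) = h.toFun x) ∧
      (∀ x ∈ c, ‖Θ.toFun (h.toFun x) - b‖ ≠ r) ∧
      (∀ x ∈ Ω, x ∉ q → ‖Θ.toFun (h.toFun x) - b‖ = r → ‖h.toFun x - b‖ = r) ∧
      ∀ c' ⊆ Ω, Disjoint c' q → Disjoint c' c → IsPreconnected c' →
        (∀ x ∈ c', ‖h.toFun x - b‖ = r) → (∀ x ∈ c', ‖Θ.toFun (h.toFun x) - b‖ ≠ r) ∨
          ∀ x ∈ c', ∀ᶠ z in 𝓝 (h.toFun x), Θ.toFun z = z := by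
  have hr0 : 0 < r := hρ.trans hr
  have hE0Ω : E0 ⊆ Ω := hEO.trans hOΩ
  have hcE : c ⊆ E0 := hE.1
  have huc : ContinuousOn (fun y => ‖h.toFun y - b‖) Ω := (h.cont.sub continuousOn_const).norm
  -- the sign
  obtain ⟨s, hs, hpos⟩ : ∃ s : ℝ, (s = 1 ∨ s = -1) ∧
      ∀ x ∈ E0, x ∉ c → 0 < s * (‖h.toFun x - b‖ - r) := by
    have h1 : IsPreconnected ((fun y => ‖h.toFun y - b‖) '' (E0 \ c)) :=
      hE.open_isPreconnected.1.image _ (huc.mono (sdiff_subset.trans hE0Ω))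
    rcases h1.subset_or_subset (u := Ioi r) (v := Iio r) isOpen_Ioi isOpen_Iio (by
      rw [disjoint_left]; intro y h1 h2; exact lt_asymm (mem_Ioi.1 h1) (mem_Iio.1 h2)) (by
      rintro _ ⟨x, ⟨hx, hxc⟩, rfl⟩
      rcases lt_trichotomy ‖h.toFun x - b‖ r with h2 | h2 | h2
      · exact Or.inr h2
      · exact absurd ((hc x hx).1 h2) hxc
      · exact Or.inl h2) with h2 | h2
    · refine ⟨1, Or.inl rfl, fun x hx hxc => ?_⟩
      have : r < ‖h.toFun x - b‖ := h2 ⟨x, ⟨hx, hxc⟩, rfl⟩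
      linarith
    · refine ⟨-1, Or.inr rfl, fun x hx hxc => ?_⟩
      have : ‖h.toFun x - b‖ < r := h2 ⟨x, ⟨hx, hxc⟩, rfl⟩
      linarith
  -- the germs of `K`
  obtain ⟨hcl, -⟩ := rel_open hn hE hEP
  have hside0 := side_germ (convex_Pln φ k) hE hEP hcl (u := fun y => s * (‖h.toFun y - b‖ - r))
    hO hEO (continuousOn_sign (huc.mono hOΩ) s r) hpos
    (fun x hx => by
      show s * (‖h.toFun x - b‖ - r) = 0
      rw [(hc x (hcE hx)).2 hx, sub_self, mul_zero])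
    (fun x hx => by
      obtain ⟨σ, r₀, hb⟩ := hreg x hx
      exact ⟨_, _, flowBox_sign hb hs r⟩)
  have hside : ∀ x ∈ E0, ∀ᶠ y in 𝓝 x, y ∈ qᶜ → y ∉ E0 → s * (‖h.toFun y - b‖ - r) < 0 := by
    intro x hx
    filter_upwards [hside0 x hx, hO.mem_nhds (hEO hx)] with y hy hyO hyK hyE
    exact hy (hOq y hyO hyK) hyE
  -- the disc in the target
  set F : Set V3 := h.toFun '' E0 with hF
  set γ : Set V3 := h.toFun '' c with hγ
  have hFb : ConBall 2 F γ := hE.image h hE0Ω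
  have hγF : ∀ y ∈ F, (‖y - b‖ = r ↔ y ∈ γ) := by
    rintro _ ⟨x, hx, rfl⟩
    rw [hc x hx]
    constructor
    · exact fun hx' => mem_image_of_mem _ hx'
    · rintro ⟨z, hz, he⟩
      exact h.injOn (hE0Ω (hcE hz)) (hE0Ω hx) he ▸ hz
  have hFnn : ∀ y ∈ F, 0 ≤ s * (‖y - b‖ - r) := by
    rintro _ ⟨x, hx, rfl⟩
    by_cases hxc : x ∈ c
    · rw [(hc x hx).2 hxc, sub_self, mul_zero]
    · exact (hpos x hx hxc).le
  have hFΛ : F ⊆ Λ := by rintro _ ⟨x, hx, rfl⟩; exact h.mapsTo (hE0Ω hx)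
  have hκF : Disjoint (h.toFun '' κ) F := by
    rw [disjoint_left]
    rintro _ ⟨x, hx, rfl⟩ ⟨z, hz, he⟩
    exact disjoint_left.1 hκE hx (h.injOn (hE0Ω hz) (hκΩ hx) he ▸ hz)
  have hκcomp : IsCompact (h.toFun '' κ) := hκc.image_of_continuousOn (h.cont.mono hκΩ)
  have hκpre : IsPreconnected (h.toFun '' κ) := hκp.image _ (h.cont.mono hκΩ)
  have hκball : h.toFun '' κ ⊆ ball b ρ := by rintro _ ⟨x, hx, rfl⟩; exact hκb x hx
  have hSΛ : sphere b r ⊆ Λ :=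
    (sphere_subset_closedBall.trans (closedBall_subset_closedBall hr'.le)).trans hB
  -- the ball `Z` and the open set `G`
  obtain ⟨Z, D, G, hZ, hGo, hZG, hGΛ, hGκ, hG1, hZN⟩ : ∃ Z D G : Set V3,
      OnCube b r s F γ D Z ∧ IsOpen G ∧ Z ⊆ G ∧ G ⊆ Λ ∧ Disjoint (h.toFun '' κ) G ∧
      (s = 1 ∨ (Z ⊆ closedBall b r ∧ G ⊆ ball b ρ')) ∧ ∀ x ∈ N, h.toFun x ∉ Z := by
    rcases hs with rfl | rfl
    · obtain ⟨Z, D, a1, a2, a3, a4, a5, a6⟩ := exists_side_out hr0 hFb hγF (fun x hx => by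
        have := hFnn x hx; linarith)
      have hZ : OnCube b r 1 F γ D Z := ⟨a1, hFb, a2, a3, a4, a5, fun y hy hyD => by
        by_contra hcon
        refine hyD (a6 ▸ ⟨hy, ?_⟩)
        rw [mem_closedBall_iff_norm]; linarith⟩
      have hfrΛ : frontier Z ⊆ Λ := by
        rw [a3]; exact union_subset (a5.trans hSΛ) hFΛ
      obtain ⟨j1, j2⟩ := far_side hΛ h a1 hfrΛ (by
          rw [a3]
          obtain ⟨x, hx⟩ := hE.open_nonempty
          exact ⟨h.toFun x, Or.inr (mem_image_of_mem _ hx.1)⟩) hN hNΩ hL hLΩ hfar (by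
          intro x hx hxf
          rw [a3] at hxf
          rcases hxf with h1 | ⟨z, hz, he⟩
          · refine hNb x hx ?_
            exact closedBall_subset_closedBall hr'.le (sphere_subset_closedBall (a5 h1))
          · exact disjoint_left.1 hNE hx (h.injOn (hE0Ω hz) (hNΩ hx) he ▸ hz)) (by
          refine ⟨b, hB (mem_closedBall_self (hr0.trans hr').le), fun hb => ?_⟩
          have h1 : b ∈ D := a6 ▸ ⟨hb, mem_closedBall_self hr0.le⟩
          have h2 := hZ.val_D h1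
          rw [sub_self, norm_zero] at h2
          exact hr0.ne h2)
      refine ⟨Z, D, Λ ∩ (closedBall b ρ)ᶜ, hZ, hΛ.inter isClosed_closedBall.isOpen_compl, ?_,
        inter_subset_left, ?_, Or.inl rfl, j2⟩
      · intro y hy
        refine ⟨j1 hy, fun h' => ?_⟩
        have h1 := hZ.nonneg hy
        rw [mem_closedBall_iff_norm] at h'
        linarith
      · rw [disjoint_left]
        intro y hy hy'
        exact hy'.2 (ball_subset_closedBall (hκball hy))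
    · obtain ⟨Z, D, a1, a2, a3, a4, a5, a6, a7, a8⟩ := exists_side_in hr0 hFb hγF (fun x hx => by
        have := hFnn x hx; linarith) hκpre hκF (hκball.trans (ball_subset_ball hr.le))
      have hZ : OnCube b r (-1) F γ D Z := ⟨a1, hFb, a2, a3, a4, a5, fun y hy hyD => by
        have h1 := mem_closedBall_iff_norm.1 (a6 hy)
        rcases h1.lt_or_eq with h2 | h2
        · linarith
        · exact absurd (a7 ▸ ⟨hy, mem_sphere_iff_norm.2 h2⟩) hyD⟩
      have hsub : closedBall b r ⊆ ball b ρ' := closedBall_subset_ball hr'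
      refine ⟨Z, D, ball b ρ' ∩ (h.toFun '' κ)ᶜ, hZ,
        isOpen_ball.inter hκcomp.isClosed.isOpen_compl, ?_, ?_, ?_, Or.inr ⟨a6,
        inter_subset_left⟩, ?_⟩
      · exact fun y hy => ⟨hsub (a6 hy), fun h' => disjoint_left.1 a8 h' hy⟩
      · exact inter_subset_left.trans (ball_subset_closedBall.trans hB)
      · rw [disjoint_left]; intro y hy hy'; exact hy'.2 hy
      · intro x hx hxZ
        exact hNb x hx (ball_subset_closedBall (hsub (a6 hxZ)))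
  obtain ⟨Θ, ⟨C, hC, hCG, hΘC⟩, p1, p2, p3, p4⟩ := push_core h hΛ (K := qᶜ) hr0 hs hE0Ω hside hZ
    hGo hZG
  have hγD : ∀ y ∈ frontier Z, y ∈ closedBall b ρ' ∨ y ∈ F := by
    intro y hy
    rw [hZ.fr] at hy
    rcases hy with hy | hy
    · exact Or.inl (closedBall_subset_closedBall hr'.le (sphere_subset_closedBall (hZ.DS hy)))
    · exact Or.inr hy
  -- points of `K` off `Z` and off the big cube are fixed
  have hfixout : ∀ x ∈ Ω, x ∉ q → h.toFun x ∉ Z → h.toFun x ∉ closedBall b ρ' →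
      Θ.toFun (h.toFun x) = h.toFun x := by
    intro x hx hxq hxZ hxb
    rcases hG1 with rfl | ⟨-, hG2⟩
    · refine p3 x hx hxq hxZ ?_
      rw [mem_closedBall_iff_norm, not_le] at hxb
      linarith
    · exact hΘC _ fun h' => hxb (ball_subset_closedBall (hG2 (hCG h')))
  have hside2 : ∀ A ⊆ Ω, IsPreconnected A → Disjoint A E0 → Disjoint A q →
      (∀ x ∈ A, h.toFun x ∉ closedBall b ρ') →
      h.toFun '' A ⊆ interior Z ∨ h.toFun '' A ⊆ Zᶜ := by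
    intro A hAΩ hA hAE hAq hAb
    refine hZ.amb.subset_or_of_disjoint (hA.image _ (h.cont.mono hAΩ)) ?_
    rw [disjoint_left]
    rintro _ ⟨x, hx, rfl⟩ hxf
    rcases hγD _ hxf with h1 | ⟨z, hz, he⟩
    · exact hAb x hx h1
    · exact disjoint_left.1 hAE hx (h.injOn (hE0Ω hz) (hAΩ hx) he ▸ hz)
  refine ⟨Θ, ⟨⟨C, hC, hCG.trans hGΛ, hΘC⟩, ?_, ?_, ?_⟩, ?_, ?_, ?_, ?_⟩
  · intro x hx hxq
    by_cases hxC : h.toFun x ∈ C
    swap
    · exact Or.inl (hΘC _ hxC)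
    rcases hG1 with rfl | ⟨-, hG2⟩
    · by_cases hxZ : h.toFun x ∈ Z
      · right
        have := p2 x hx hxq hxZ
        rw [mem_ball_iff_norm]; linarith
      · by_cases hxs : 0 ≤ 1 * (‖h.toFun x - b‖ - r)
        · exact Or.inl (p3 x hx hxq hxZ hxs)
        · right
          have := p4 _ (not_le.1 hxs)
          rw [mem_ball_iff_norm]; linarith
    · exact Or.inr (hG2 (hCG (mapsTo_supp hΘC hxC)))
  · intro A hAΩ hA hAE hAq hAb
    rcases hside2 A hAΩ hA hAE hAq hAb with h1 | h1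
    · right
      intro x hx
      have hxZ : h.toFun x ∈ Z := interior_subset (h1 (mem_image_of_mem _ hx))
      rcases hG1 with rfl | ⟨hG2, -⟩
      · have := p2 x (hAΩ hx) (disjoint_left.1 hAq hx) hxZ
        rw [mem_ball_iff_norm]; linarith
      · exact absurd (closedBall_subset_closedBall hr'.le (hG2 hxZ)) (hAb x hx)
    · left
      intro x hx
      exact hfixout x (hAΩ hx) (disjoint_left.1 hAq hx) (h1 (mem_image_of_mem _ hx)) (hAb x hx)
  · rintro A hAΩ hA hAE hAq hAb ⟨p, hpA, hpN⟩ x hx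
    refine hfixout x (hAΩ hx) (disjoint_left.1 hAq hx) ?_ (hAb x hx)
    rcases hside2 A hAΩ hA hAE hAq hAb with h1 | h1
    · exact absurd (interior_subset (h1 (mem_image_of_mem _ hpA))) (hZN p hpN)
    · exact h1 (mem_image_of_mem _ hx)
  · intro x hx
    exact hΘC _ fun h' => disjoint_left.1 hGκ (mem_image_of_mem _ hx) (hCG h')
  · intro x hx hxr
    have hxE := hcE hx
    exact (p1 x (hE0Ω hxE) (disjoint_left.1 hEq hxE) hxr).1 (hZ.FZ (mem_image_of_mem _ hxE))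
  · intro x hx hxq hxr
    have h1 := (p1 x hx hxq hxr).2.self_of_nhds
    rwa [h1] at hxr
  · intro c' hc'Ω hc'q hc'c hc' hc'r
    have himg : h.toFun '' c' ⊆ sphere b r := by
      rintro _ ⟨x, hx, rfl⟩; exact mem_sphere_iff_norm.2 (hc'r x hx)
    have hdis : Disjoint (h.toFun '' c') γ := by
      rw [disjoint_left]
      rintro _ ⟨x, hx, rfl⟩ ⟨z, hz, he⟩
      exact disjoint_left.1 hc'c hx (h.injOn (hE0Ω (hcE hz)) (hc'Ω hx) he ▸ hz)
    by_cases hne : (h.toFun '' c' ∩ D).Nonempty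
    · left
      have hsub : h.toFun '' c' ⊆ D := subset_of_relOpen (hc'.image _ (h.cont.mono hc'Ω)) himg
        hZ.hD.isClosed (hZ.clS hr0).1 hdis hne
      intro x hx hxr
      exact (p1 x (hc'Ω hx) (disjoint_left.1 hc'q hx) hxr).1
        (hZ.DZ (hsub (mem_image_of_mem _ hx)))
    · right
      intro x hx
      have hxD : h.toFun x ∉ D := fun h' => hne ⟨_, mem_image_of_mem _ hx, h'⟩
      have hxZ : h.toFun x ∉ Z := fun h' => hxD (hZ.mem_D h' (hc'r x hx))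
      have hxq := disjoint_left.1 hc'q hx
      have hfix := p3 x (hc'Ω hx) hxq hxZ (by rw [hc'r x hx, sub_self, mul_zero])
      exact (p1 x (hc'Ω hx) hxq (by rw [hfix]; exact hc'r x hx)).2

end P073.H341
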