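import Vale.Agent.P073.H341.Bigon
import Vale.Agent.P073.H936.Prod
import Vale.Agent.P073.H805.FB

/-!
# P073, H341: parallel sheets
-/

set_option linter.unusedSectionVars false

open Set Metric Topology Filter

namespace P073.H341

open P073 P073.H339 P073.TR P073.H805 P073.H936

variable {E : Type*} [NormedAddCommGroup E] [NormedSpace ℝ E] {ι : Type*}

/-- the family of test sets -/
def tst (U B : Set E) (u : E → ℝ) : Fin 4 → Set E := ![U, B, {x | 0 < u x}, {x | u x < 0}]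

theorem reg_tst {M : ι → Set E} {U B : Set E} {u v : E → ℝ} {x : E}
    (iU : ∃ i, M i = U) (iB : ∃ i, M i = B) (hu : ContinuousAt u x)
    (rv : Reg v M x) (ruv : u x = 0 → Reg (fun y => (u y, v y)) M x) :
    Reg v (tst U B u) x := by
  by_cases h0 : u x = 0
  · obtain ⟨σ, r, h⟩ := ruv h0
    have hs' : ∀ s : ℝ, ‖s‖ < r → ‖((0:ℝ), s)‖ < r := fun s hs => by
      rw [Prod.norm_def]; simpa [h.pos] using hs
    refine ⟨σ ∘ₗ LinearMap.inr ℝ ℝ ℝ, r, h.pos, fun w s hw hs => ?_, fun k w s hw hs => ?_⟩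
    · have := h.add w (0, s) hw (hs' s hs)
      exact congrArg Prod.snd this
    · have hadd := h.add w (0, s) hw (hs' s hs)
      have hu' : u (x + w + σ (0, s)) = u (x + w) := by
        have := congrArg Prod.fst hadd
        simpa using this
      have e : (σ ∘ₗ LinearMap.inr ℝ ℝ ℝ) s = σ (0, s) := rfl
      rw [e]
      fin_cases k
      · obtain ⟨i, hi⟩ := iU
        have := h.iff i w (0, s) hw (hs' s hs)
        rw [hi] at this; exact this
      · obtain ⟨i, hi⟩ := iB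
        have := h.iff i w (0, s) hw (hs' s hs)
        rw [hi] at this; exact this
      · show 0 < u (x + w + σ (0, s)) ↔ 0 < u (x + w)
        rw [hu']
      · show u (x + w + σ (0, s)) < 0 ↔ u (x + w) < 0
        rw [hu']
  · refine rv.congr (EventuallyEq.refl _ _) fun k => ?_
    fin_cases k
    · obtain ⟨i, hi⟩ := iU
      exact Or.inl ⟨i, Eventually.of_forall fun y => by rw [hi]; exact Iff.rfl⟩
    · obtain ⟨i, hi⟩ := iB
      exact Or.inl ⟨i, Eventually.of_forall fun y => by rw [hi]; exact Iff.rfl⟩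
    · right
      rcases lt_or_gt_of_ne h0 with h | h
      · exact Or.inr ((hu.eventually (gt_mem_nhds h)).mono fun y hy hy' => lt_asymm hy hy')
      · exact Or.inl (hu.eventually (lt_mem_nhds h))
    · right
      rcases lt_or_gt_of_ne h0 with h | h
      · exact Or.inl (hu.eventually (gt_mem_nhds h))
      · exact Or.inr ((hu.eventually (lt_mem_nhds h)).mono fun y hy hy' => lt_asymm hy hy')

/-- **the pair with a parallel sheet** -/
theorem Pair.exists_shift [FiniteDimensional ℝ E] {M : ι → Set E} {W U B : Set E} {u v : E → ℝ}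
    (h : Pair U B u v) (iU : ∃ i, M i = U) (iB : ∃ i, M i = B) (hW : IsOpen W) (hUW : U ⊆ W)
    (ucont : ContinuousOn u W) (vcont : ContinuousOn v W) (vcon : ConicalOn v W)
    (rv : ∀ x ∈ U, v x = 0 → Reg v M x)
    (ruv : ∀ x ∈ U, u x = 0 → v x = 0 → Reg (fun y => (u y, v y)) M x) :
    ∃ ε₀ > 0, ∀ ε, 0 ≤ ε → ε ≤ ε₀ → Pair U B u (fun x => v x + ε) := by
  have hUc : IsCompact U := h.hC.isCompact
  obtain ⟨η₀, c, hη₀, hc, H⟩ := prod_band (u := v) (M := tst U B u) (t := 0) (W := W) hUc 0 rfl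
    (vcont.mono hUW) (vcon.mono h.hC.conicalSet hUW) hW (fun x hx => hUW hx.1)
    (fun x hx => reg_tst iU iB (ucont.continuousAt (hW.mem_nhds (hUW hx.1))) (rv x hx.1 hx.2)
      fun h0 => ruv x hx.1 h0 hx.2)
  obtain ⟨xn, hxn, hxn0, hxn1⟩ := h.vn
  refine ⟨min η₀ (-v xn / 2), lt_min hη₀ (by linarith), fun ε hε hεε => ?_⟩
  rcases hε.eq_or_lt with h0 | hε
  · rw [← h0]; simpa using h
  obtain ⟨Γ, g1, g2, g3, g4, g5⟩ := H ε hε (hεε.trans (min_le_left _ _))
  have hm1 : (-1:ℝ) ∈ Icc (-1:ℝ) 1 := ⟨le_refl _, by norm_num⟩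
  -- the slice at level `-ε`
  have img : ∀ X ⊆ lev U v 0, ∀ P : Set E, (∀ z ∈ lev U v 0, (Γ.toFun (z, -1) ∈ P ↔ z ∈ P)) →
      X = lev U v 0 ∩ P → Γ.toFun '' (X ×ˢ {(-1:ℝ)}) = {x | x ∈ U ∧ v x + ε = 0} ∩ P := by
    intro X hX P hP hXP
    ext x
    constructor
    · rintro ⟨⟨z, s⟩, ⟨hz, hs⟩, rfl⟩
      have hs' : s = -1 := hs
      subst hs'
      have hz' : z ∈ lev U v 0 := hX hz
      refine ⟨⟨?_, ?_⟩, ?_⟩
      · exact (Γ.mapsTo (show (z, (-1:ℝ)) ∈ _ from ⟨hz', hm1⟩)).1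
      · rw [g1 z hz' _ hm1]; ring
      · rw [hP z hz']
        have hz2 : z ∈ X := hz
        rw [hXP] at hz2; exact hz2.2
    · rintro ⟨⟨hxU, hx0⟩, hxP⟩
      have hb : x ∈ band U v 0 ε := ⟨hxU, by
        have : v x - 0 = -ε := by linarith
        rw [this, abs_neg, abs_of_pos hε]⟩
      have h1 := Γ.mapsTo_inv hb
      have h2 := Γ.right_inv hb
      obtain ⟨hz, hs⟩ := h1
      have h3 := g1 _ hz _ hs
      have e : ((Γ.invFun x).1, (Γ.invFun x).2) = Γ.invFun x := rfl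
      rw [e, h2] at h3
      have hs1 : (Γ.invFun x).2 = -1 := by
        have : ε * (Γ.invFun x).2 = -ε := by linarith
        have h4 : ε * ((Γ.invFun x).2 + 1) = 0 := by linarith
        rcases mul_eq_zero.1 h4 with h5 | h5
        · exact absurd h5 hε.ne'
        · linarith
      refine ⟨Γ.invFun x, ⟨?_, hs1⟩, h2⟩
      rw [hXP]
      refine ⟨hz, ?_⟩
      rw [← hP _ hz]
      have e' : ((Γ.invFun x).1, (-1:ℝ)) = Γ.invFun x := by rw [← e]; exact Prod.ext rfl hs1.symm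
      have e3 : Γ.toFun ((Γ.invFun x).1, -1) = x := by rw [e', h2]
      rw [e3]; exact hxP
  have ball : ∀ {n : ℕ} (X R : Set E), X ⊆ lev U v 0 → ConBall n X R →
      ConBall n (Γ.toFun '' (X ×ˢ {(-1:ℝ)})) (Γ.toFun '' (R ×ˢ {(-1:ℝ)})) := by
    intro n X R hX hb
    refine (conBall_slice hb (-1)).image Γ ?_
    rintro ⟨z, s⟩ ⟨hz, hs⟩
    have hs' : s = -1 := hs
    subst hs'
    exact ⟨hX hz, hm1⟩
  have pU : ∀ z ∈ lev U v 0, (Γ.toFun (z, -1) ∈ B ↔ z ∈ B) := fun z hz => g3 1 z hz _ hm1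
  have pp : ∀ z ∈ lev U v 0, (0 < u (Γ.toFun (z, -1)) ↔ 0 < u z) := fun z hz =>
    g3 2 z hz _ hm1
  have pn : ∀ z ∈ lev U v 0, (u (Γ.toFun (z, -1)) < 0 ↔ u z < 0) := fun z hz =>
    g3 3 z hz _ hm1
  have p0 : ∀ z ∈ lev U v 0, (u (Γ.toFun (z, -1)) = 0 ↔ u z = 0) := fun z hz => by
    have h1 := pp z hz
    have h2 := pn z hz
    constructor
    · intro h0
      rw [h0] at h1 h2
      exact le_antisymm (not_lt.1 fun hh => lt_irrefl _ (h1.2 hh))
        (not_lt.1 fun hh => lt_irrefl _ (h2.2 hh))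
    · intro h0
      rw [h0] at h1 h2
      exact le_antisymm (not_lt.1 fun hh => lt_irrefl _ (h1.1 hh))
        (not_lt.1 fun hh => lt_irrefl _ (h2.1 hh))
  have eT : {x | x ∈ U ∧ v x = 0} = lev U v 0 := rfl
  refine ⟨h.hC, h.hu, h.hv.add continuousOn_const, h.hS, ?_, ?_, ?_, ?_, ?_, ?_⟩
  · have h1 := ball _ _ Subset.rfl (eT ▸ h.hT)
    rw [img _ Subset.rfl univ (fun _ _ => by simp) (inter_univ _).symm,
      img (lev U v 0 ∩ B) inter_subset_left B pU rfl, inter_univ] at h1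
    exact h1
  · have hsub : {x | x ∈ U ∧ u x = 0 ∧ v x = 0} ⊆ lev U v 0 := fun x hx => ⟨hx.1, hx.2.2⟩
    have h1 := ball _ _ hsub h.hl
    rw [img _ hsub {x | u x = 0} p0 (by
        ext x; simp only [lev, mem_inter_iff, mem_ofPred_eq]; tauto),
      img _ (inter_subset_left.trans hsub) ({x | u x = 0} ∩ B) (fun z hz =>
        and_congr (p0 z hz) (pU z hz)) (by
        ext x; simp only [lev, mem_inter_iff, mem_ofPred_eq]; tauto)] at h1
    have e1 : {x | x ∈ U ∧ v x + ε = 0} ∩ {x | u x = 0} =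
        {x | x ∈ U ∧ u x = 0 ∧ v x + ε = 0} := by
      ext x; simp only [mem_inter_iff, mem_ofPred_eq]; tauto
    have e2 : {x | x ∈ U ∧ v x + ε = 0} ∩ ({x | u x = 0} ∩ B) =
        {x | x ∈ U ∧ u x = 0 ∧ v x + ε = 0} ∩ B := by
      ext x; simp only [mem_inter_iff, mem_ofPred_eq]; tauto
    rw [e1, e2] at h1
    exact h1
  · obtain ⟨x, hx, hx0, hx1⟩ := h.up
    have hz : x ∈ lev U v 0 := ⟨hx, hx0⟩
    refine ⟨Γ.toFun (x, -1), (Γ.mapsTo (show (x, (-1:ℝ)) ∈ _ from ⟨hz, hm1⟩)).1, ?_,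
      (pp x hz).2 hx1⟩
    have := g1 x hz _ hm1
    simp only [this]; ring
  · obtain ⟨x, hx, hx0, hx1⟩ := h.un
    have hz : x ∈ lev U v 0 := ⟨hx, hx0⟩
    refine ⟨Γ.toFun (x, -1), (Γ.mapsTo (show (x, (-1:ℝ)) ∈ _ from ⟨hz, hm1⟩)).1, ?_,
      (pn x hz).2 hx1⟩
    have := g1 x hz _ hm1
    simp only [this]; ring
  · obtain ⟨x, hx, hx0, hx1⟩ := h.vp
    exact ⟨x, hx, hx0, by show 0 < v x + ε; linarith⟩
  · refine ⟨xn, hxn, hxn0, ?_⟩
    have : ε ≤ -v xn / 2 := hεε.trans (min_le_right _ _)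
    show v xn + ε < 0
    linarith

end P073.H341
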