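import Vale.Agent.P073.H341.Rad
import Vale.Agent.P073.ALX.Alexander
import Vale.Agent.P073.H894.Box
import Vale.Agent.P073.H894.Add

/-!
# P073, H341: the two sides of a disc in a cube or outside a cube
-/

open Set Metric Topology Filter

namespace P073.H341

open P073

/-- the affine map `y ↦ p + ρ • y` -/
noncomputable def affV3 (p : V3) {ρ : ℝ} (hρ : ρ ≠ 0) :
    ConHomeo (univ : Set V3) (univ : Set V3) where
  toFun y := p + ρ • y
  invFun y := ρ⁻¹ • (y - p)
  mapsTo := mapsTo_univ _ _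
  mapsTo_inv := mapsTo_univ _ _
  left_inv y _ := by
    simp only [add_sub_cancel_left, smul_smul, inv_mul_cancel₀ hρ, one_smul]
  right_inv y _ := by
    simp only [smul_smul, mul_inv_cancel₀ hρ, one_smul]; abel
  cont := Continuous.continuousOn (by fun_prop)
  cont_inv := Continuous.continuousOn (by fun_prop)
  conical := (conicalOn_const p isOpen_univ.conicalSet).add
    ((conicalOn_id isOpen_univ.conicalSet).const_smul ρ)

theorem ambBall_closedBall (b : V3) {r : ℝ} (hr : 0 < r) : AmbBall (closedBall b r) := by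
  refine ⟨affV3 b hr.ne', ?_⟩
  ext y
  rw [ConHomeo.mem_image_iff]
  show r⁻¹ • (y - b) ∈ closedBall (0 : V3) 1 ↔ y ∈ closedBall b r
  rw [mem_closedBall_zero_iff, mem_closedBall_iff_norm, norm_smul, norm_inv, Real.norm_eq_abs,
    abs_of_pos hr, inv_mul_le_iff₀ hr, mul_one]

theorem conSphere_cube (b : V3) {r : ℝ} (hr : 0 < r) : ConSphere 2 (sphere b r) := by
  have h1 : ConSphere 2 (sphere (0 : V3) 1) :=
    ⟨ConHomeo.refl (frontier_cube ▸ (locCone_closedBall_pi 3 1).frontier.conicalSet)⟩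
  have h2 := h1.image (affV3 b hr.ne') (subset_univ _)
  have e : (affV3 b hr.ne').toFun '' sphere (0 : V3) 1 = sphere b r := by
    ext y
    rw [ConHomeo.mem_image_iff]
    show r⁻¹ • (y - b) ∈ sphere (0 : V3) 1 ↔ y ∈ sphere b r
    rw [mem_sphere_zero_iff_norm, mem_sphere_iff_norm, norm_smul, norm_inv, Real.norm_eq_abs,
      abs_of_pos hr, inv_mul_eq_iff_eq_mul₀ hr.ne', mul_one]
  rwa [e] at h2

theorem isPreconnected_compl_cb (b : V3) {r : ℝ} (hr : 0 < r) : IsPreconnected (closedBall b r)ᶜ :=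
  (ambBall_closedBall b hr).isPreconnected_compl

theorem exists_ambBall {F D γ : Set V3} (hF : ConBall 2 F γ) (hD : ConBall 2 D γ)
    (hDF : D ∩ F = γ) : ∃ Z, AmbBall Z ∧ frontier Z = D ∪ F := by
  have h1 : StdSph (D ∪ F) := ALX.specAlex (D ∪ F) (H894.conSphere_of_discs hD hF hDF)
  exact h1.exists_ball

/-- an unbounded connected set off the boundary is outside -/
theorem AmbBall.subset_compl {Z A : Set V3} (hZ : AmbBall Z) (hA : IsPreconnected A)
    (hd : Disjoint A (frontier Z)) (hub : ¬ Bornology.IsBounded A) : A ⊆ Zᶜ := by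
  rcases hZ.subset_or_of_disjoint hA hd with h | h
  · exact absurd (hZ.isCompact.isBounded.subset (h.trans interior_subset)) hub
  · exact h

/-- an ambient ball whose frontier is in another one -/
theorem AmbBall.subset_of_frontier {Z Y : Set V3} (hZ : AmbBall Z) (hY : AmbBall Y)
    (h : frontier Z ⊆ Y) : Z ⊆ Y := by
  have h1 := AmbBall.subset_compl hZ hY.isPreconnected_compl
    (disjoint_left.2 fun x hx hx' => hx (h hx')) hY.not_isBounded_compl
  intro x hx
  by_contra hxY
  exact h1 hxY hx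

section sides

variable {b : V3} {r : ℝ} {F γ : Set V3}

theorem disc_data (hr : 0 < r) (hF : ConBall 2 F γ) (hγ : ∀ x ∈ F, (‖x - b‖ = r ↔ x ∈ γ)) :
    ∃ D₁ D₂ : Set V3, ConBall 2 D₁ γ ∧ ConBall 2 D₂ γ ∧ D₁ ∪ D₂ = sphere b r ∧ D₁ ∩ D₂ = γ ∧
      D₁ ∩ F = γ ∧ D₂ ∩ F = γ := by
  have hγS : γ ⊆ sphere b r := fun x hx => by
    rw [mem_sphere_iff_norm]; exact (hγ x (hF.1 hx)).2 hx
  obtain ⟨D₁, D₂, b1, b2, bu, bi⟩ := H894.exists_two_discs (conSphere_cube b hr)
    hF.conSphere hγS
  have key : ∀ D : Set V3, D ⊆ sphere b r → γ ⊆ D → D ∩ F = γ := by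
    intro D hD hγD
    apply Subset.antisymm
    · rintro x ⟨hx, hxF⟩
      exact (hγ x hxF).1 (mem_sphere_iff_norm.1 (hD hx))
    · exact fun x hx => ⟨hγD hx, hF.1 hx⟩
  exact ⟨D₁, D₂, b1, b2, bu, bi, key D₁ (bu ▸ subset_union_left) b1.1,
    key D₂ (bu ▸ subset_union_right) b2.1⟩

/-- **a disc outside a cube** bounds, with one disc of the surface of the cube, a ball outside -/
theorem exists_side_out (hr : 0 < r) (hF : ConBall 2 F γ)
    (hγ : ∀ x ∈ F, (‖x - b‖ = r ↔ x ∈ γ)) (hout : ∀ x ∈ F, r ≤ ‖x - b‖) :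
    ∃ Z D, AmbBall Z ∧ ConBall 2 D γ ∧ frontier Z = D ∪ F ∧ D ∩ F = γ ∧
      D ⊆ sphere b r ∧ Z ∩ closedBall b r = D := by
  obtain ⟨D₁, D₂, b1, b2, bu, bi, i1, i2⟩ := disc_data hr hF hγ
  obtain ⟨Z₁, a1, f1⟩ := exists_ambBall hF b1 i1
  obtain ⟨Z₂, a2, f2⟩ := exists_ambBall hF b2 i2
  have s1 : D₁ ⊆ sphere b r := bu ▸ subset_union_left
  have s2 : D₂ ⊆ sphere b r := bu ▸ subset_union_right
  have hFb : Disjoint (ball b r) F := disjoint_left.2 fun x hx hxF => by
    rw [mem_ball_iff_norm] at hx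
    exact absurd (hout x hxF) (not_le.2 hx)
  have hSb : Disjoint (ball b r) (sphere b r) := disjoint_left.2 fun x hx hx' => by
    rw [mem_ball] at hx; rw [mem_sphere] at hx'
    exact hx.ne hx'
  have hbp : IsPreconnected (ball b r) := (convex_ball b r).isPreconnected
  have hclb : closure (ball b r) = closedBall b r := closure_ball b hr.ne'
  -- conclusion if the open cube is outside `Z`
  have fin : ∀ Z D : Set V3, AmbBall Z → ConBall 2 D γ → frontier Z = D ∪ F → D ∩ F = γ →
      D ⊆ sphere b r → ball b r ⊆ Zᶜ → ∃ Z D, AmbBall Z ∧ ConBall 2 D γ ∧ frontier Z = D ∪ F ∧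
      D ∩ F = γ ∧ D ⊆ sphere b r ∧ Z ∩ closedBall b r = D := by
    intro Z D hZ hD hfr hDF hDS hb
    refine ⟨Z, D, hZ, hD, hfr, hDF, hDS, ?_⟩
    apply Subset.antisymm
    · rintro x ⟨hxZ, hxb⟩
      have hx1 : x ∉ ball b r := fun h => hb h hxZ
      have hxS : x ∈ sphere b r := by
        rw [mem_sphere]; rw [mem_closedBall] at hxb; rw [mem_ball, not_lt] at hx1
        exact le_antisymm hxb hx1
      have hxf : x ∈ frontier Z := by
        rw [hZ.isClosed.frontier_eq]
        refine ⟨hxZ, fun hxi => ?_⟩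
        rw [← hclb] at hxb
        obtain ⟨y, hy, hyb⟩ := mem_closure_iff.1 hxb _ isOpen_interior hxi
        exact hb hyb (interior_subset hy)
      rw [hfr] at hxf
      rcases hxf with h | h
      · exact h
      · exact hD.1 ((hγ x h).1 (mem_sphere_iff_norm.1 hxS))
    · intro x hx
      refine ⟨hZ.isClosed.frontier_subset (hfr ▸ Or.inl hx), sphere_subset_closedBall (hDS hx)⟩
  have d1 : Disjoint (ball b r) (frontier Z₁) := by
    rw [f1]; exact disjoint_union_right.2 ⟨hSb.mono_right s1, hFb⟩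
  have d2 : Disjoint (ball b r) (frontier Z₂) := by
    rw [f2]; exact disjoint_union_right.2 ⟨hSb.mono_right s2, hFb⟩
  rcases a1.subset_or_of_disjoint hbp d1 with h1 | h1
  · rcases a2.subset_or_of_disjoint hbp d2 with h2 | h2
    · exfalso
      have c1 : closedBall b r ⊆ Z₁ := by
        rw [← hclb]; exact closure_minimal (h1.trans interior_subset) a1.isClosed
      have c2 : closedBall b r ⊆ Z₂ := by
        rw [← hclb]; exact closure_minimal (h2.trans interior_subset) a2.isClosed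
      have e21 : Z₂ ⊆ Z₁ := AmbBall.subset_of_frontier a2 a1 (by
        rw [f2]; exact union_subset (s2.trans (sphere_subset_closedBall.trans c1))
          (fun x hx => a1.isClosed.frontier_subset (f1 ▸ Or.inr hx)))
      have e12 : Z₁ ⊆ Z₂ := AmbBall.subset_of_frontier a1 a2 (by
        rw [f1]; exact union_subset (s1.trans (sphere_subset_closedBall.trans c2))
          (fun x hx => a2.isClosed.frontier_subset (f2 ▸ Or.inr hx)))
      have e : D₁ ∪ F = D₂ ∪ F := by rw [← f1, ← f2, e12.antisymm e21]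
      obtain ⟨x, hx, hxγ⟩ := b2.open_nonempty
      have hx' : x ∈ D₁ ∪ F := by rw [e]; exact Or.inl hx
      rcases hx' with h | h
      · exact hxγ (bi ▸ ⟨h, hx⟩)
      · exact hxγ (i2 ▸ ⟨hx, h⟩)
    · exact fin Z₂ D₂ a2 b2 f2 i2 s2 h2
  · exact fin Z₁ D₁ a1 b1 f1 i1 s1 h1

/-- **a disc in a cube** bounds, with one disc of the surface of the cube, a ball which does not
contain a given connected set of the open cube -/
theorem exists_side_in (hr : 0 < r) (hF : ConBall 2 F γ)
    (hγ : ∀ x ∈ F, (‖x - b‖ = r ↔ x ∈ γ)) (hin : ∀ x ∈ F, ‖x - b‖ ≤ r) {m : Set V3}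
    (hm : IsPreconnected m) (hmF : Disjoint m F) (hmb : m ⊆ ball b r) :
    ∃ Z D, AmbBall Z ∧ ConBall 2 D γ ∧ frontier Z = D ∪ F ∧ D ∩ F = γ ∧
      D ⊆ sphere b r ∧ Z ⊆ closedBall b r ∧ Z ∩ sphere b r = D ∧ Disjoint m Z := by
  obtain ⟨D₁, D₂, b1, b2, bu, bi, i1, i2⟩ := disc_data hr hF hγ
  obtain ⟨Z₁, a1, f1⟩ := exists_ambBall hF b1 i1
  obtain ⟨Z₂, a2, f2⟩ := exists_ambBall hF b2 i2
  have s1 : D₁ ⊆ sphere b r := bu ▸ subset_union_left
  have s2 : D₂ ⊆ sphere b r := bu ▸ subset_union_right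
  have hFc : F ⊆ closedBall b r := fun x hx => mem_closedBall_iff_norm.2 (hin x hx)
  have hAB := ambBall_closedBall b hr
  have hms : Disjoint m (sphere b r) := disjoint_left.2 fun x hx hx' => by
    have := hmb hx
    rw [mem_ball] at this; rw [mem_sphere] at hx'
    exact this.ne hx'
  -- both balls are in the cube and meet the surface in the disc
  have inC : ∀ Z D : Set V3, AmbBall Z → ConBall 2 D γ → frontier Z = D ∪ F →
      D ⊆ sphere b r → Z ⊆ closedBall b r ∧ Z ∩ sphere b r = D := by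
    intro Z D hZ hD hfr hDS
    have hsub : Z ⊆ closedBall b r := AmbBall.subset_of_frontier hZ hAB (by
      rw [hfr]; exact union_subset (hDS.trans sphere_subset_closedBall) hFc)
    refine ⟨hsub, ?_⟩
    apply Subset.antisymm
    · rintro x ⟨hxZ, hxS⟩
      have hxf : x ∈ frontier Z := by
        rw [hZ.isClosed.frontier_eq]
        refine ⟨hxZ, fun hxi => ?_⟩
        have h1 : x ∈ interior (closedBall b r) := interior_mono hsub hxi
        rw [interior_closedBall _ hr.ne', mem_ball] at h1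
        rw [mem_sphere] at hxS
        exact h1.ne hxS
      rw [hfr] at hxf
      rcases hxf with h | h
      · exact h
      · exact hD.1 ((hγ x h).1 (mem_sphere_iff_norm.1 hxS))
    · intro x hx
      exact ⟨hZ.isClosed.frontier_subset (hfr ▸ Or.inl hx), hDS hx⟩
  obtain ⟨t1, u1⟩ := inC Z₁ D₁ a1 b1 f1 s1
  obtain ⟨t2, u2⟩ := inC Z₂ D₂ a2 b2 f2 s2
  have d1 : Disjoint m (frontier Z₁) := by
    rw [f1]; exact disjoint_union_right.2 ⟨hms.mono_right s1, hmF⟩
  have d2 : Disjoint m (frontier Z₂) := by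
    rw [f2]; exact disjoint_union_right.2 ⟨hms.mono_right s2, hmF⟩
  rcases a1.subset_or_of_disjoint hm d1 with h1 | h1
  · rcases a2.subset_or_of_disjoint hm d2 with h2 | h2
    · rcases m.eq_empty_or_nonempty with hme | ⟨p, hp⟩
      · exact ⟨Z₁, D₁, a1, b1, f1, i1, s1, t1, u1, by rw [hme]; exact disjoint_bot_left⟩
      exfalso
      have hd : Disjoint (interior Z₁) (frontier Z₂) := by
        rw [disjoint_left, f2]
        rintro x hx (hx2 | hx2)
        · have h3 : x ∈ interior (closedBall b r) := interior_mono t1 hx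
          rw [interior_closedBall _ hr.ne', mem_ball] at h3
          have h4 := s2 hx2
          rw [mem_sphere] at h4
          exact h3.ne h4
        · have h3 : x ∈ frontier Z₁ := f1 ▸ Or.inr hx2
          exact h3.2 hx
      rcases a2.subset_or_of_disjoint a1.isPreconnected_interior hd with h3 | h3
      · have h4 : Z₁ ⊆ Z₂ := by
          rw [← a1.closure_interior]
          exact closure_minimal (h3.trans interior_subset) a2.isClosed
        obtain ⟨x, hx, hxγ⟩ := b1.open_nonempty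
        have h5 : x ∈ Z₂ ∩ sphere b r :=
          ⟨h4 (a1.isClosed.frontier_subset (f1 ▸ Or.inl hx)), s1 hx⟩
        rw [u2] at h5
        exact hxγ (bi ▸ ⟨hx, h5⟩)
      · exact h3 (h1 hp) (interior_subset (h2 hp))
    · exact ⟨Z₂, D₂, a2, b2, f2, i2, s2, t2, u2, disjoint_left.2 fun x hx hx' => h2 hx hx'⟩
  · exact ⟨Z₁, D₁, a1, b1, f1, i1, s1, t1, u1, disjoint_left.2 fun x hx hx' => h1 hx hx'⟩

end sides

end P073.H341
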