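import Vale.Agent.P073.H341.StepMain

/-!
# P073, H341: **[Y-EDGE]** the exchange process with faces which touch the safe set

A listed face may meet the safe set `Y` if its relative interior misses `Y`, or if it has no
crossings and no circles, or if it is inside `Y` and its traces are good.
-/

set_option linter.unusedSectionVars false

open Set Metric Topology Filter

namespace P073.H341

open P073 P073.TR P073.H339 P073.H579 P073.H805

variable {E : Type*} [NormedAddCommGroup E] [NormedSpace ℝ E] [FiniteDimensional ℝ E]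
  {ι J : Type*} {D : Data E ι}

/-- **one step**, nothing changes on `Y`; only the relative interior of the face misses `Y` -/
def StepI {D : Data E ι} {J : Type*} [Fintype J] (F : J → Face D) (Y : Set E) : Prop :=
  ∀ u v, State D u v → Safe D u v Y → ∀ j K, CleanDisc (F j).C ((F j).tr u v) K →
    Disjoint ((F j).ch '' interior (F j).C) Y →
    ∃ u' v', State D u' v' ∧ Rel D u v u' v' ∧ Less F u' v' u v ∧ EqOn u' u Y ∧ EqOn v' v Y

/-- the steps exist -/
theorem stepI [Finite ι] [Fintype J] (h3 : Module.finrank ℝ E = 3) (hD : D.Ok) (F : J → Face D)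
    (hF : MeshOk F) (Y : Set E) : StepI F Y :=
  fun _ _ h hY j _ hK hj => step_of_geo hD h (geoOut h3 hD F hF h hY j hK
    (hj.mono_left (image_mono hK.int)))

/-- the listed face `F` may touch the safe set `Y` -/
def Touch (F : Face D) (u v : E → ℝ) (Y : Set E) : Prop :=
  Disjoint (F.ch '' interior F.C) Y ∨ (Off D F.i₀ u v ∧ NoCirc D F.i₀ u v) ∨
    (F.ch '' F.C ⊆ Y ∧ H579.Good (F.tr u v))

/-- the traces do not change on `Y` -/
theorem tr_congr {F : Face D} {u v u' v' : E → ℝ} {Y : Set E} (hY : F.ch '' F.C ⊆ Y)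
    (hu : EqOn u' u Y) (hv : EqOn v' v Y) : F.tr u' v' = F.tr u v := by
  funext b
  cases b
  · ext z
    rw [Face.mem_tr_false, Face.mem_tr_false]
    exact and_congr_right fun hz => by rw [hu (hY ⟨z, hz, rfl⟩)]
  · ext z
    rw [Face.mem_tr_true, Face.mem_tr_true]
    exact and_congr_right fun hz => by rw [hv (hY ⟨z, hz, rfl⟩)]

/-- **(E3) with (LOC)**: nothing changes on `Y` -/
theorem exists_good_stateI [Finite ι] [Fintype J] (h3 : Module.finrank ℝ E = 3) (hD : D.Ok)
    (F : J → Face D) (hF : MeshOk F) {Y : Set E} {u v : E → ℝ} (h : State D u v)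
    (hY : Safe D u v Y) (hT : ∀ j, Touch (F j) u v Y) :
    ∃ u' v', State D u' v' ∧ Rel D u v u' v' ∧ (∀ j, H579.Good ((F j).tr u' v')) ∧
      EqOn u' u Y ∧ EqOn v' v Y := by
  have hstep := stepI h3 hD F hF Y
  have key : ∀ n m : ℕ, ∀ u v : E → ℝ, State D u v → Safe D u v Y →
      (∀ j, Touch (F j) u v Y) → nX F u v = n → nC F u v = m →
      ∃ u' v', State D u' v' ∧ Rel D u v u' v' ∧ (∀ j, H579.Good ((F j).tr u' v')) ∧
      EqOn u' u Y ∧ EqOn v' v Y := by
    intro n
    induction n using Nat.strong_induction_on with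
    | _ n ihn =>
      intro m
      induction m using Nat.strong_induction_on with
      | _ m ihm =>
        intro u v h hY hT hn hm
        by_cases hg : ∀ j, H579.Good ((F j).tr u v)
        · exact ⟨u, v, h, Rel.refl D u v, hg, fun _ _ => rfl, fun _ _ => rfl⟩
        · push Not at hg
          obtain ⟨j, hj⟩ := hg
          obtain ⟨K, hK⟩ := (good_or_cleanDisc (h.web hD (F j))).resolve_left hj
          have hdis : Disjoint ((F j).ch '' interior (F j).C) Y := by
            rcases hT j with h1 | ⟨h1, h2⟩ | ⟨-, h1⟩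
            · exact h1
            · exact absurd hK (not_cleanDisc (F j) h1 h2 K)
            · exact absurd h1 hj
          obtain ⟨u', v', h1, h2, h3, h4, h5⟩ := hstep u v h hY j K hK hdis
          have hY' : Safe D u' v' Y := hY.congr h4 h5
          have hT' : ∀ j, Touch (F j) u' v' Y := fun j => by
            rcases hT j with k1 | ⟨k1, k2⟩ | ⟨k1, k2⟩
            · exact Or.inl k1
            · exact Or.inr (Or.inl ⟨h2.off _ k1, h2.circ _ k1 k2⟩)
            · refine Or.inr (Or.inr ⟨k1, ?_⟩)
              rw [tr_congr k1 h4 h5]; exact k2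
          have h6 : ∃ u'' v'', State D u'' v'' ∧ Rel D u' v' u'' v'' ∧
              (∀ j, H579.Good ((F j).tr u'' v'')) ∧ EqOn u'' u' Y ∧ EqOn v'' v' Y := by
            rcases h3 with h3 | ⟨h3, h3'⟩
            · exact ihn _ (hn ▸ h3) _ u' v' h1 hY' hT' rfl rfl
            · rcases h3.lt_or_eq with h5 | h5
              · exact ihn _ (hn ▸ h5) _ u' v' h1 hY' hT' rfl rfl
              · exact ihm _ (hm ▸ h3') u' v' h1 hY' hT' (h5.trans hn) rfl
          obtain ⟨u'', v'', k1, k2, k3, k4, k5⟩ := h6
          exact ⟨u'', v'', k1, h2.trans k2, k3, fun x hx => (k4 hx).trans (h4 hx),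
            fun x hx => (k5 hx).trans (h5 hx)⟩
  exact key _ _ u v h hY hT rfl rfl

end P073.H341
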