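import Vale.Agent.P073.H341.StepI

/-!
# P073, H341: **[L1]** the exchange process without hypotheses on the faces

At the end every clean disc of a listed face meets the safe set (`exists_stateK`).
-/

set_option linter.unusedSectionVars false

open Set Metric Topology Filter

namespace P073.H341

open P073 P073.TR P073.H339 P073.H579 P073.H805

variable {E : Type*} [NormedAddCommGroup E] [NormedSpace ℝ E] [FiniteDimensional ℝ E]
  {ι J : Type*} {D : Data E ι}

/-- every clean disc of the face meets `Y` -/
def CleanY (F : Face D) (u v : E → ℝ) (Y : Set E) : Prop :=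
  ∀ K, CleanDisc F.C (F.tr u v) K → ¬ Disjoint (F.ch '' K) Y

/-- **[L1]**: nothing changes on `Y`; at the end every clean disc meets `Y` -/
theorem exists_stateK [Finite ι] [Fintype J] (h3 : Module.finrank ℝ E = 3) (hD : D.Ok)
    (F : J → Face D) (hF : MeshOk F) {Y : Set E} {u v : E → ℝ} (h : State D u v)
    (hY : Safe D u v Y) :
    ∃ u' v', State D u' v' ∧ Rel D u v u' v' ∧ (∀ j, CleanY (F j) u' v' Y) ∧
      EqOn u' u Y ∧ EqOn v' v Y := by
  have key : ∀ n m : ℕ, ∀ u v : E → ℝ, State D u v → Safe D u v Y →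
      nX F u v = n → nC F u v = m →
      ∃ u' v', State D u' v' ∧ Rel D u v u' v' ∧ (∀ j, CleanY (F j) u' v' Y) ∧
      EqOn u' u Y ∧ EqOn v' v Y := by
    intro n
    induction n using Nat.strong_induction_on with
    | _ n ihn =>
      intro m
      induction m using Nat.strong_induction_on with
      | _ m ihm =>
        intro u v h hY hn hm
        by_cases hg : ∀ j, CleanY (F j) u v Y
        · exact ⟨u, v, h, Rel.refl D u v, hg, fun _ _ => rfl, fun _ _ => rfl⟩
        · simp only [CleanY, not_forall, not_not] at hg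
          obtain ⟨j, K, hK, hdis⟩ := hg
          obtain ⟨u', v', h1, h2, h3, h4, h5⟩ :=
            step_of_geo hD h (geoOut h3 hD F hF h hY j hK hdis)
          have hY' : Safe D u' v' Y := hY.congr h4 h5
          have h6 : ∃ u'' v'', State D u'' v'' ∧ Rel D u' v' u'' v'' ∧
              (∀ j, CleanY (F j) u'' v'' Y) ∧ EqOn u'' u' Y ∧ EqOn v'' v' Y := by
            rcases h3 with h3 | ⟨h3, h3'⟩
            · exact ihn _ (hn ▸ h3) _ u' v' h1 hY' rfl rfl
            · rcases h3.lt_or_eq with h5 | h5
              · exact ihn _ (hn ▸ h5) _ u' v' h1 hY' rfl rfl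
              · exact ihm _ (hm ▸ h3') u' v' h1 hY' (h5.trans hn) rfl
          obtain ⟨u'', v'', k1, k2, k3, k4, k5⟩ := h6
          exact ⟨u'', v'', k1, h2.trans k2, k3, fun x hx => (k4 hx).trans (h4 hx),
            fun x hx => (k5 hx).trans (h5 hx)⟩
  exact key _ _ u v h hY rfl rfl

/-- the faces with `Touch` are good at the end -/
theorem CleanY.good [FiniteDimensional ℝ E] (hD : D.Ok) {F : Face D} {Y : Set E}
    {u v u' v' : E → ℝ} (h : CleanY F u' v' Y) (hs : State D u' v') (hr : Rel D u v u' v')
    (hu : EqOn u' u Y) (hv : EqOn v' v Y) (hT : Touch F u v Y) : H579.Good (F.tr u' v') := by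
  rcases good_or_cleanDisc (hs.web hD F) with hg | ⟨K, hK⟩
  · exact hg
  · rcases hT with h1 | ⟨h1, h2⟩ | ⟨h1, h2⟩
    · exact absurd (h1.mono_left (image_mono hK.int)) (h K hK)
    · exact absurd hK (not_cleanDisc F (hr.off _ h1) (hr.circ _ h1 h2) K)
    · rw [tr_congr h1 hu hv]; exact h2

end P073.H341
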