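import Vale.Agent.P073.H341.Mid

/-!
# P073, H341: families of thick sheets
-/

set_option linter.unusedSectionVars false

open Set Metric Topology Filter

namespace P073.H341

open P073 P073.H339

variable {E F : Type*} [NormedAddCommGroup E] [NormedSpace ℝ E]
  [NormedAddCommGroup F] [NormedSpace ℝ F] {ι κ : Type*}

/-- the two faces of a thick sheet -/
def fc (S₀ S₁ : ι → Set E) (p : ι × Bool) : Set E := if p.2 then S₁ p.1 else S₀ p.1

@[simp] theorem fc_true (S₀ S₁ : ι → Set E) (k : ι) : fc S₀ S₁ (k, true) = S₁ k := rfl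
@[simp] theorem fc_false (S₀ S₁ : ι → Set E) (k : ι) : fc S₀ S₁ (k, false) = S₀ k := rfl

/-- one finite family of thick proper sheets `N k` with faces `S₀ k`, `S₁ k` in the ball `C` -/
structure TFam (n : ℕ) (C B : Set E) (K : Finset ι) (N S₀ S₁ : ι → Set E) : Prop where
  hC : ConBall (n + 2) C B
  h0 : ∀ k ∈ K, ConBall (n + 1) (S₀ k) (S₀ k ∩ B)
  h1 : ∀ k ∈ K, ConBall (n + 1) (S₁ k) (S₁ k ∩ B)
  mid : ∀ k ∈ K, IsMid n C B (S₀ k) (S₁ k) (N k)
  hf : ∀ k ∈ K, Disjoint (S₀ k) (S₁ k)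
  hd : ∀ k ∈ K, ∀ k' ∈ K, k ≠ k' → Disjoint (N k) (N k')

namespace TFam

variable {n : ℕ} {C B : Set E} {K : Finset ι} {N S₀ S₁ : ι → Set E} (h : TFam n C B K N S₀ S₁)
include h

theorem s0 {k : ι} (hk : k ∈ K) : S₀ k ⊆ N k := fun _ hx => (h.mid k hk).ball.1 (Or.inl (Or.inl hx))

theorem s1 {k : ι} (hk : k ∈ K) : S₁ k ⊆ N k := fun _ hx => (h.mid k hk).ball.1 (Or.inl (Or.inr hx))

theorem sfc {p : ι × Bool} (hk : p.1 ∈ K) : fc S₀ S₁ p ⊆ N p.1 := by
  rcases p with ⟨k, _ | _⟩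
  · exact h.s0 hk
  · exact h.s1 hk

theorem ballfc {p : ι × Bool} (hk : p.1 ∈ K) :
    ConBall (n + 1) (fc S₀ S₁ p) (fc S₀ S₁ p ∩ B) := by
  obtain ⟨k, b⟩ := p
  cases b
  · exact h.h0 k hk
  · exact h.h1 k hk

theorem disjfc {p q : ι × Bool} (hp : p.1 ∈ K) (hq : q.1 ∈ K) (hpq : p ≠ q) :
    Disjoint (fc S₀ S₁ p) (fc S₀ S₁ q) := by
  by_cases hk : p.1 = q.1
  · obtain ⟨k, b⟩ := p
    obtain ⟨k', b'⟩ := q
    simp only at hk
    subst hk
    cases b <;> cases b'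
    · exact absurd rfl hpq
    · exact h.hf k hp
    · exact (h.hf k hp).symm
    · exact absurd rfl hpq
  · exact (h.hd p.1 hp q.1 hq hk).mono (h.sfc hp) (h.sfc hq)

/-- the thin family of faces -/
theorem fam : Fam (n + 1) C B (K ×ˢ (Finset.univ : Finset Bool)) (fc S₀ S₁) where
  hC := h.hC
  hS := fun _ hp => h.ballfc (Finset.mem_product.1 hp).1
  hSC := fun _ hp => (h.sfc (Finset.mem_product.1 hp).1).trans
    (h.mid _ (Finset.mem_product.1 hp).1).sub
  hSd := fun _ hp _ hq hpq => h.disjfc (Finset.mem_product.1 hp).1 (Finset.mem_product.1 hq).1 hpq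

theorem isClosedN {k : ι} (hk : k ∈ K) : IsClosed (N k) := (h.mid k hk).ball.isClosed

theorem conicalN {k : ι} (hk : k ∈ K) : ConicalSet (N k) := (h.mid k hk).ball.conicalSet

theorem NC {k : ι} (hk : k ∈ K) : N k ⊆ C := (h.mid k hk).sub

theorem image_mid (hP : CutP (n + 1) F) (hI : IoDP (n + 2)) {C' B' : Set F} {N' S₀' S₁' : ι → Set F}
    (h' : TFam n C' B' K N' S₀' S₁') (Φ : ConHomeo C C') (hB : Φ.toFun '' B = B') {k : ι}
    (hk : k ∈ K) (h0 : Φ.toFun '' S₀ k = S₀' k) (h1 : Φ.toFun '' S₁ k = S₁' k) :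
    Φ.toFun '' N k = N' k :=
  IsMid.image hP hI h'.hC (h'.h0 k hk) (h'.h1 k hk) ((h'.s0 hk).trans (h'.NC hk))
    ((h'.s1 hk).trans (h'.NC hk)) (h'.hf k hk) (h.mid k hk) (h'.mid k hk) h.hC.1 Φ hB h0 h1

end TFam

/-- the part of `C` outside the open thick sheets -/
def outs (C : Set E) (K : Finset ι) (N S₀ S₁ : ι → Set E) : Set E :=
  {x | x ∈ C ∧ ∀ k ∈ K, x ∈ N k → x ∈ S₀ k ∪ S₁ k}

theorem TFam.outs_props {n : ℕ} (hP : CutP (n + 1) E) (hI : IoDP (n + 2)) {C B : Set E}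
    {K : Finset ι} {N S₀ S₁ : ι → Set E} (h : TFam n C B K N S₀ S₁) :
    IsClosed (outs C K N S₀ S₁) ∧ ConicalSet (outs C K N S₀ S₁) := by
  classical
  -- induction over the finite index set
  have key : ∀ K₁ : Finset ι, K₁ ⊆ K →
      IsClosed (outs C K₁ N S₀ S₁) ∧ ConicalSet (outs C K₁ N S₀ S₁) := by
    intro K₁
    induction K₁ using Finset.induction_on with
    | empty =>
      intro _
      have : outs C (∅ : Finset ι) N S₀ S₁ = C := by
        ext x; simp [outs]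
      rw [this]
      exact ⟨h.hC.isClosed, h.hC.conicalSet⟩
    | insert k K₂ hk ih =>
      intro hsub
      obtain ⟨i1, i2⟩ := ih ((Finset.subset_insert k K₂).trans hsub)
      have hkK := hsub (Finset.mem_insert_self k K₂)
      obtain ⟨o1, o2, -, -⟩ := (h.mid k hkK).out_props hP hI h.hC (h.h0 k hkK) (h.h1 k hkK)
        ((h.s0 hkK).trans (h.NC hkK)) ((h.s1 hkK).trans (h.NC hkK)) (h.hf k hkK)
      have : outs C (insert k K₂) N S₀ S₁ = outs C K₂ N S₀ S₁ ∩ out C (N k) (S₀ k) (S₁ k) := by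
        ext x
        constructor
        · rintro ⟨hx, hx1⟩
          refine ⟨⟨hx, fun k' hk' => hx1 k' (Finset.mem_insert_of_mem hk')⟩, ?_⟩
          by_cases hxN : x ∈ N k
          · exact Or.inr (hx1 k (Finset.mem_insert_self _ _) hxN)
          · exact Or.inl ⟨hx, hxN⟩
        · rintro ⟨⟨hx, hx1⟩, hx2⟩
          refine ⟨hx, fun k' hk' hxN => ?_⟩
          rcases Finset.mem_insert.1 hk' with rfl | hk'
          · rcases hx2 with hx2 | hx2
            · exact absurd hxN hx2.2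
            · exact hx2
          · exact hx1 k' hk' hxN
      rw [this]
      exact ⟨i1.inter o1, i2.inter o2⟩
  exact key K (Finset.Subset.refl K)

/-- the thin skeleton -/
def thin (B : Set E) (K : Finset ι) (S₀ S₁ : ι → Set E) : Set E :=
  B ∪ ⋃ p ∈ K ×ˢ (Finset.univ : Finset Bool), fc S₀ S₁ p

theorem mem_thin {B : Set E} {K : Finset ι} {S₀ S₁ : ι → Set E} {x : E} :
    x ∈ thin B K S₀ S₁ ↔ x ∈ B ∨ ∃ k ∈ K, x ∈ S₀ k ∪ S₁ k := by
  simp only [thin, mem_union, mem_iUnion, exists_prop, Finset.mem_product, Finset.mem_univ,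
    and_true, Prod.exists, Bool.exists_bool, fc_true, fc_false]
  constructor
  · rintro (h | ⟨k, h | h⟩)
    · exact Or.inl h
    · exact Or.inr ⟨k, h.1, Or.inl h.2⟩
    · exact Or.inr ⟨k, h.1, Or.inr h.2⟩
  · rintro (h | ⟨k, hk, h | h⟩)
    · exact Or.inl h
    · exact Or.inr ⟨k, Or.inl ⟨hk, h⟩⟩
    · exact Or.inr ⟨k, Or.inr ⟨hk, h⟩⟩

/-- the thick skeleton -/
def thick (B : Set E) (K : Finset ι) (N : ι → Set E) : Set E := B ∪ ⋃ k ∈ K, N k

theorem mem_thick {B : Set E} {K : Finset ι} {N : ι → Set E} {x : E} :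
    x ∈ thick B K N ↔ x ∈ B ∨ ∃ k ∈ K, x ∈ N k := by
  simp only [thick, mem_union, mem_iUnion, exists_prop]

theorem conicalSet_biUnion {T : ι → Set E} {K : Finset ι} (hc : ∀ k ∈ K, IsClosed (T k))
    (hT : ∀ k ∈ K, ConicalSet (T k)) : ConicalSet (⋃ k ∈ K, T k) := by
  classical
  induction K using Finset.induction_on with
  | empty => intro x hx; simp at hx
  | insert p K₂ hp ih =>
    rw [Finset.set_biUnion_insert]
    have hc2 : ∀ k ∈ K₂, IsClosed (T k) := fun k hk => hc k (Finset.mem_insert_of_mem hk)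
    exact conicalSet_union (hT p (Finset.mem_insert_self p K₂))
      (ih hc2 fun k hk => hT k (Finset.mem_insert_of_mem hk)) (hc p (Finset.mem_insert_self p K₂))
      (K₂.finite_toSet.isClosed_biUnion hc2)

theorem TFam.conical_thin {n : ℕ} {C B : Set E} {K : Finset ι} {N S₀ S₁ : ι → Set E}
    (h : TFam n C B K N S₀ S₁) : ConicalSet (thin B K S₀ S₁) :=
  conicalSet_union h.hC.conicalSet_bdry
    (conicalSet_biUnion (fun _ hp => (h.ballfc (Finset.mem_product.1 hp).1).isClosed)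
      (fun _ hp => (h.ballfc (Finset.mem_product.1 hp).1).conicalSet))
    h.hC.isCompact_bdry.isClosed
    ((K ×ˢ (Finset.univ : Finset Bool)).finite_toSet.isClosed_biUnion fun _ hp =>
      (h.ballfc (Finset.mem_product.1 hp).1).isClosed)

theorem TFam.cover {n : ℕ} {C B : Set E} {K : Finset ι} {N S₀ S₁ : ι → Set E}
    (h : TFam n C B K N S₀ S₁) : thick B K N ∪ outs C K N S₀ S₁ = C := by
  apply Subset.antisymm
  · rintro x (hx | hx)
    · rw [mem_thick] at hx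
      rcases hx with hx | ⟨l, hl, hx⟩
      · exact h.hC.1 hx
      · exact h.NC hl hx
    · exact hx.1
  · intro x hx
    by_cases hx1 : x ∈ thick B K N
    · exact Or.inl hx1
    · exact Or.inr ⟨hx, fun l hl hxA => absurd (mem_thick.2 (Or.inr ⟨l, hl, hxA⟩)) hx1⟩

/-- **Replacing a homeomorphism on a closed set.** -/
theorem exists_replace_on {X W O : Set E} {Y W' O' : Set F} (Φ : ConHomeo X Y) (Ψ : ConHomeo W W')
    (hW : IsClosed W) (hO : IsClosed O) (hOc : ConicalSet O) (hW' : IsClosed W') (hO' : IsClosed O')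
    (hX : W ∪ O = X) (hY : W' ∪ O' = Y) (hΦO : Φ.toFun '' O = O')
    (hag : EqOn Ψ.toFun Φ.toFun (W ∩ O)) (himg : W' ∩ O' ⊆ Φ.toFun '' (W ∩ O)) :
    ∃ Θ : ConHomeo X Y, EqOn Θ.toFun Ψ.toFun W ∧ EqOn Θ.toFun Φ.toFun O := by
  have hOX : O ⊆ X := hX ▸ subset_union_right
  let Φ' : ConHomeo O O' := (Φ.restr hOc hOX).cast rfl hΦO
  have himg' : W' ∩ O' ⊆ Ψ.toFun '' (W ∩ O) := by
    intro y hy
    obtain ⟨x, hx, rfl⟩ := himg hy
    exact ⟨x, hx, hag hx⟩
  refine ⟨(ConHomeo.glue Ψ Φ' hW hO hW' hO' hag himg').cast hX hY, ?_, ?_⟩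
  · exact ConHomeo.glue_left Ψ Φ' hW hO hW' hO' hag himg'
  · exact ConHomeo.glue_right Ψ Φ' hW hO hW' hO' hag himg'

end P073.H341
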