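import Vale.Agent.P073.H341.Extend

/-!
# P073, H341: two families of sheets, extension of a homeomorphism of the boundary
-/

set_option linter.unusedSectionVars false

open Set Metric Topology Filter

namespace P073.H341

open P073 P073.H339

variable {E F : Type*} [NormedAddCommGroup E] [NormedSpace ℝ E]
  [NormedAddCommGroup F] [NormedSpace ℝ F] {ι κ : Type*}

/-- filling a family of balls `S k` whose intersections with `X` are their boundaries and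
disjoint proper sheets of them -/
theorem add_sheets {m : ℕ} (hP : CutP (m + 1) E) (hP' : CutP (m + 1) F) {B X : Set E}
    {B' X' : Set F} {K : Finset ι} {S : ι → Set E} {S' : ι → Set F} {L : ι → Finset κ}
    {A : ι → κ → Set E} {A' : ι → κ → Set F} (hXc : IsClosed X) (hXc' : IsClosed X')
    (hS : ∀ k ∈ K, Fam (m + 1) (S k) (S k ∩ B) (L k) (A k))
    (hS' : ∀ k ∈ K, Fam (m + 1) (S' k) (S' k ∩ B') (L k) (A' k))
    (hSX : ∀ k ∈ K, S k ∩ X = (S k ∩ B) ∪ ⋃ l ∈ L k, A k l)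
    (hSX' : ∀ k ∈ K, S' k ∩ X' = (S' k ∩ B') ∪ ⋃ l ∈ L k, A' k l)
    (hd : ∀ k ∈ K, ∀ k' ∈ K, k ≠ k' → S k ∩ S k' ⊆ X)
    (hd' : ∀ k ∈ K, ∀ k' ∈ K, k ≠ k' → S' k ∩ S' k' ⊆ X')
    (Φ : ConHomeo X X') (hB : ∀ k ∈ K, Φ.toFun '' (S k ∩ B) = S' k ∩ B')
    (hA : ∀ k ∈ K, ∀ l ∈ L k, Φ.toFun '' A k l = A' k l) :
    ∃ Θ : ConHomeo (X ∪ ⋃ k ∈ K, S k) (X' ∪ ⋃ k ∈ K, S' k), EqOn Θ.toFun Φ.toFun X ∧
      ∀ k ∈ K, Θ.toFun '' S k = S' k := by
  classical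
  have himg : ∀ k ∈ K, Φ.toFun '' (S k ∩ X) = S' k ∩ X' := by
    intro k hk
    rw [hSX k hk, hSX' k hk, image_union, hB k hk]
    congr 1
    rw [image_iUnion₂]
    exact iUnion₂_congr fun l hl => hA k hk l hl
  have hext : ∀ k ∈ K, ∃ σ : ConHomeo (S k) (S' k), EqOn σ.toFun Φ.toFun (S k ∩ X) := by
    intro k hk
    have hc : ConicalSet (S k ∩ X) := (hS k hk).hC.conicalSet.inter Φ.conicalSet_left
    let Ψ : ConHomeo (S k ∩ X) (S' k ∩ X') :=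
      (Φ.restr hc inter_subset_right).cast rfl (himg k hk)
    exact exists_extend_one hP hP' (hS k hk) (hS' k hk) (hSX k hk) (hSX' k hk) Ψ
      (hB k hk) (hA k hk)
  choose σ hσ using hext
  obtain ⟨Θ, h1, h2⟩ := exists_glue_sheets' hXc hXc' (fun k hk => (hS k hk).hC.isClosed)
    (fun k hk => (hS' k hk).hC.isClosed) Φ σ hd hd' himg hσ
  exact ⟨Θ, h1, fun k hk => by rw [(h2 k hk).image_eq, (σ k hk).image_eq]⟩

theorem TwoFam.arcs_disj {n : ℕ} {C B : Set E} {K : Finset ι} {S : ι → Set E} {L : Finset κ}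
    {T : κ → Set E} (h : TwoFam n C B K S L T) (p q : K × L) (hpq : p ≠ q) :
    ∀ x, ¬ x ∈ (S p.1 ∩ T p.2) ∩ (S q.1 ∩ T q.2) := by
  intro x hx
  by_cases h1 : p.1 = q.1
  · by_cases h2 : p.2 = q.2
    · exact hpq (Prod.ext h1 h2)
    · exact Set.disjoint_left.1 (h.hTd p.2 p.2.2 q.2 q.2.2 (fun h3 => h2 (Subtype.ext h3)))
        hx.1.2 hx.2.2
  · exact Set.disjoint_left.1 (h.hSd p.1 p.1.2 q.1 q.1.2 (fun h3 => h1 (Subtype.ext h3)))
      hx.1.1 hx.2.1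

/-- the arcs `S k ∩ T l` -/
abbrev Prs (K : Finset ι) (S : ι → Set E) (L : Finset κ) (T : κ → Set E) :=
  {p : K × L // (S p.1 ∩ T p.2).Nonempty}

/-- **[TWO]**: two crossing families, only the homeomorphism of the boundary is given -/
theorem two {m : ℕ} (hP2 : CutP (m + 2) E) (hP2' : CutP (m + 2) F) (hP1 : CutP (m + 1) E)
    (hP1' : CutP (m + 1) F) {C B : Set E} {K : Finset ι} {S : ι → Set E} {L : Finset κ}
    {T : κ → Set E} {C' B' : Set F} {S' : ι → Set F} {T' : κ → Set F}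
    (h : TwoFam (m + 1) C B K S L T) (h' : TwoFam (m + 1) C' B' K S' L T')
    (hx : ∀ k ∈ K, ∀ l ∈ L, (S' k ∩ T' l).Nonempty → Crosses C' (S' k) (T' l))
    (φ : ConHomeo B B') (hS : ∀ k ∈ K, φ.toFun '' (S k ∩ B) = S' k ∩ B')
    (hT : ∀ l ∈ L, φ.toFun '' (T l ∩ B) = T' l ∩ B')
    (hne : ∀ k ∈ K, ∀ l ∈ L, ((S k ∩ T l).Nonempty ↔ (S' k ∩ T' l).Nonempty)) :
    ∃ Φ : ConHomeo C C', EqOn Φ.toFun φ.toFun B ∧ (∀ k ∈ K, Φ.toFun '' S k = S' k) ∧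
      ∀ l ∈ L, Φ.toFun '' T l = T' l := by
  classical
  have hBc := h.hC.isCompact_bdry.isClosed
  have hBc' := h'.hC.isCompact_bdry.isClosed
  -- the arcs
  let a : Prs K S L T → Set E := fun p => S p.1.1 ∩ T p.1.2
  let a' : Prs K S L T → Set F := fun p => S' p.1.1 ∩ T' p.1.2
  have hfin : Finite (Prs K S L T) := inferInstance
  have ca : ∀ p, ConBall (m + 1) (a p) (a p ∩ B) := fun p =>
    h.hX p.1.1 p.1.1.2 p.1.2 p.1.2.2 p.2
  have ca' : ∀ p, ConBall (m + 1) (a' p) (a' p ∩ B') := fun p =>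
    h'.hX p.1.1 p.1.1.2 p.1.2 p.1.2.2 ((hne p.1.1 p.1.1.2 p.1.2 p.1.2.2).1 p.2)
  have ha : ∀ p, φ.toFun '' (a p ∩ B) = a' p ∩ B' := by
    intro p
    have e1 : a p ∩ B = (S p.1.1 ∩ B) ∩ (T p.1.2 ∩ B) := by
      ext x; simp only [a, mem_inter_iff]; tauto
    have e2 : a' p ∩ B' = (S' p.1.1 ∩ B') ∩ (T' p.1.2 ∩ B') := by
      ext x; simp only [a', mem_inter_iff]; tauto
    rw [e1, e2, φ.injOn.image_inter inter_subset_right inter_subset_right, hS _ p.1.1.2,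
      hT _ p.1.2.2]
  have da : ∀ p q : Prs K S L T, p ≠ q → a p ∩ a q ⊆ B := fun p q hpq x hx =>
    absurd hx (h.arcs_disj p.1 q.1 (fun h3 => hpq (Subtype.ext h3)) x)
  have da' : ∀ p q : Prs K S L T, p ≠ q → a' p ∩ a' q ⊆ B' := fun p q hpq x hx =>
    absurd hx (h'.arcs_disj p.1 q.1 (fun h3 => hpq (Subtype.ext h3)) x)
  have key1 := φ.exists_extend_cells (fun _ : Prs K S L T => m + 1) a
    (fun p => a p ∩ B) a' (fun p => a' p ∩ B') ca ca' ha (fun _ => rfl) (fun _ => rfl) da da'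
    (fun z _ hz => by rwa [hBc.closure_eq] at hz) (fun z _ hz => by rwa [hBc'.closure_eq] at hz)
    (fun z _ => ⟨univ, univ_mem, toFinite _⟩) (fun z _ => ⟨univ, univ_mem, toFinite _⟩)
  obtain ⟨X₁, hX₁⟩ : ∃ X, X = B ∪ ⋃ p, a p := ⟨_, rfl⟩
  obtain ⟨X₁', hX₁'⟩ : ∃ X, X = B' ∪ ⋃ p, a' p := ⟨_, rfl⟩
  rw [← hX₁, ← hX₁'] at key1
  obtain ⟨Φ₁, e1, e1a⟩ := key1
  have cX₁ : IsClosed X₁ := hX₁ ▸ hBc.union (isClosed_iUnion_of_finite fun p => (ca p).isClosed)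
  have cX₁' : IsClosed X₁' :=
    hX₁' ▸ hBc'.union (isClosed_iUnion_of_finite fun p => (ca' p).isClosed)
  have mX₁ : ∀ {x}, x ∈ X₁ ↔ x ∈ B ∨ ∃ p, x ∈ a p := fun {x} => by
    rw [hX₁, mem_union, mem_iUnion]
  have mX₁' : ∀ {x}, x ∈ X₁' ↔ x ∈ B' ∨ ∃ p, x ∈ a' p := fun {x} => by
    rw [hX₁', mem_union, mem_iUnion]
  -- the sheets S k
  let Lk : ι → Finset κ := fun k => L.filter (fun l => (S k ∩ T l).Nonempty)
  have mLk : ∀ {k l}, l ∈ Lk k ↔ l ∈ L ∧ (S k ∩ T l).Nonempty := fun {k l} => Finset.mem_filter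
  have iB : Φ₁.toFun '' B = B' := by rw [e1.image_eq, φ.image_eq]
  have im1 : ∀ {X : Set E}, X ⊆ B → Φ₁.toFun '' X = φ.toFun '' X := fun hX => (e1.mono hX).image_eq
  have key2 := add_sheets hP1 hP1' (B := B) (B' := B') (S := S) (S' := S') (L := Lk)
    (A := fun k l => S k ∩ T l) (A' := fun k l => S' k ∩ T' l) cX₁ cX₁'
    (fun k hk =>
      { hC := h.hS k hk
        hS := fun l hl => by
          have := h.hX k hk l (mLk.1 hl).1 (mLk.1 hl).2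
          rwa [show S k ∩ T l ∩ (S k ∩ B) = S k ∩ T l ∩ B by
            ext x; simp only [mem_inter_iff]; tauto]
        hSC := fun l _ => inter_subset_left
        hSd := fun l hl l' hl' hll => (h.hTd l (mLk.1 hl).1 l' (mLk.1 hl').1 hll).mono
          inter_subset_right inter_subset_right })
    (fun k hk =>
      { hC := h'.hS k hk
        hS := fun l hl => by
          have := h'.hX k hk l (mLk.1 hl).1 ((hne k hk l (mLk.1 hl).1).1 (mLk.1 hl).2)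
          rwa [show S' k ∩ T' l ∩ (S' k ∩ B') = S' k ∩ T' l ∩ B' by
            ext x; simp only [mem_inter_iff]; tauto]
        hSC := fun l _ => inter_subset_left
        hSd := fun l hl l' hl' hll => (h'.hTd l (mLk.1 hl).1 l' (mLk.1 hl').1 hll).mono
          inter_subset_right inter_subset_right })
    (fun k hk => by
      apply Subset.antisymm
      · rintro x ⟨hx, hx'⟩
        rcases mX₁.1 hx' with hxB | ⟨p, hp⟩
        · exact Or.inl ⟨hx, hxB⟩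
        · have hkp : k = p.1.1 := by
            by_contra hne'
            exact Set.disjoint_left.1 (h.hSd k hk _ p.1.1.2 hne') hx hp.1
          right
          exact mem_iUnion₂.2 ⟨p.1.2, mLk.2 ⟨p.1.2.2, ⟨x, hx, hp.2⟩⟩, hx, hp.2⟩
      · rintro x (hx | hx)
        · exact ⟨hx.1, mX₁.2 (Or.inl hx.2)⟩
        · obtain ⟨l, hl, hx1, hx2⟩ := mem_iUnion₂.1 hx
          exact ⟨hx1, mX₁.2 (Or.inr ⟨⟨(⟨k, hk⟩, ⟨l, (mLk.1 hl).1⟩), (mLk.1 hl).2⟩,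
            hx1, hx2⟩)⟩)
    (fun k hk => by
      apply Subset.antisymm
      · rintro x ⟨hx, hx'⟩
        rcases mX₁'.1 hx' with hxB | ⟨p, hp⟩
        · exact Or.inl ⟨hx, hxB⟩
        · have hkp : k = p.1.1 := by
            by_contra hne'
            exact Set.disjoint_left.1 (h'.hSd k hk _ p.1.1.2 hne') hx hp.1
          right
          refine mem_iUnion₂.2 ⟨p.1.2, mLk.2 ⟨p.1.2.2, ?_⟩, hx, hp.2⟩
          rw [hkp]; exact p.2
      · rintro x (hx | hx)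
        · exact ⟨hx.1, mX₁'.2 (Or.inl hx.2)⟩
        · obtain ⟨l, hl, hx1, hx2⟩ := mem_iUnion₂.1 hx
          exact ⟨hx1, mX₁'.2 (Or.inr ⟨⟨(⟨k, hk⟩, ⟨l, (mLk.1 hl).1⟩), (mLk.1 hl).2⟩,
            hx1, hx2⟩)⟩)
    (fun k hk k' hk' hkk x hx => absurd hx.2 (Set.disjoint_left.1 (h.hSd k hk k' hk' hkk) hx.1))
    (fun k hk k' hk' hkk x hx => absurd hx.2 (Set.disjoint_left.1 (h'.hSd k hk k' hk' hkk) hx.1))
    Φ₁ (fun k hk => by rw [im1 inter_subset_right, hS k hk])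
    (fun k hk l hl => e1a ⟨(⟨k, hk⟩, ⟨l, (mLk.1 hl).1⟩), (mLk.1 hl).2⟩)
  obtain ⟨X₂, hX₂⟩ : ∃ X, X = X₁ ∪ ⋃ k ∈ K, S k := ⟨_, rfl⟩
  obtain ⟨X₂', hX₂'⟩ : ∃ X, X = X₁' ∪ ⋃ k ∈ K, S' k := ⟨_, rfl⟩
  rw [← hX₂, ← hX₂'] at key2
  obtain ⟨Φ₂, e2, e2S⟩ := key2
  have cX₂ : IsClosed X₂ := hX₂ ▸ cX₁.union (K.finite_toSet.isClosed_biUnion fun k hk =>
    (h.hS k hk).isClosed)
  have cX₂' : IsClosed X₂' := hX₂' ▸ cX₁'.union (K.finite_toSet.isClosed_biUnion fun k hk =>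
    (h'.hS k hk).isClosed)
  have mX₂ : ∀ {x}, x ∈ X₂ ↔ x ∈ B ∨ ∃ k ∈ K, x ∈ S k := by
    intro x
    rw [hX₂, mem_union, mX₁, mem_iUnion₂]
    constructor
    · rintro ((hx | ⟨p, hp⟩) | ⟨k, hk, hx⟩)
      · exact Or.inl hx
      · exact Or.inr ⟨p.1.1, p.1.1.2, hp.1⟩
      · exact Or.inr ⟨k, hk, hx⟩
    · rintro (hx | ⟨k, hk, hx⟩)
      · exact Or.inl (Or.inl hx)
      · exact Or.inr ⟨k, hk, hx⟩
  have mX₂' : ∀ {x}, x ∈ X₂' ↔ x ∈ B' ∨ ∃ k ∈ K, x ∈ S' k := by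
    intro x
    rw [hX₂', mem_union, mX₁', mem_iUnion₂]
    constructor
    · rintro ((hx | ⟨p, hp⟩) | ⟨k, hk, hx⟩)
      · exact Or.inl hx
      · exact Or.inr ⟨p.1.1, p.1.1.2, hp.1⟩
      · exact Or.inr ⟨k, hk, hx⟩
    · rintro (hx | ⟨k, hk, hx⟩)
      · exact Or.inl (Or.inl hx)
      · exact Or.inr ⟨k, hk, hx⟩
  have im2 : ∀ {X : Set E}, X ⊆ X₁ → Φ₂.toFun '' X = Φ₁.toFun '' X := fun hX =>
    (e2.mono hX).image_eq
  -- the sheets T l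
  let Kl : κ → Finset ι := fun l => K.filter (fun k => (S k ∩ T l).Nonempty)
  have mKl : ∀ {k l}, k ∈ Kl l ↔ k ∈ K ∧ (S k ∩ T l).Nonempty := fun {k l} => Finset.mem_filter
  obtain ⟨Φ₃, e3, e3T⟩ := add_sheets hP1 hP1' (B := B) (B' := B') (K := L) (S := T) (S' := T')
    (L := Kl) (A := fun l k => S k ∩ T l) (A' := fun l k => S' k ∩ T' l) cX₂ cX₂'
    (fun l hl =>
      { hC := h.hT l hl
        hS := fun k hk => by
          have := h.hX k (mKl.1 hk).1 l hl (mKl.1 hk).2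
          rwa [show S k ∩ T l ∩ (T l ∩ B) = S k ∩ T l ∩ B by
            ext x; simp only [mem_inter_iff]; tauto]
        hSC := fun k _ => inter_subset_right
        hSd := fun k hk k' hk' hkk => (h.hSd k (mKl.1 hk).1 k' (mKl.1 hk').1 hkk).mono
          inter_subset_left inter_subset_left })
    (fun l hl =>
      { hC := h'.hT l hl
        hS := fun k hk => by
          have := h'.hX k (mKl.1 hk).1 l hl ((hne k (mKl.1 hk).1 l hl).1 (mKl.1 hk).2)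
          rwa [show S' k ∩ T' l ∩ (T' l ∩ B') = S' k ∩ T' l ∩ B' by
            ext x; simp only [mem_inter_iff]; tauto]
        hSC := fun k _ => inter_subset_right
        hSd := fun k hk k' hk' hkk => (h'.hSd k (mKl.1 hk).1 k' (mKl.1 hk').1 hkk).mono
          inter_subset_left inter_subset_left })
    (fun l hl => by
      ext x
      rw [mem_inter_iff, mX₂, mem_union, mem_iUnion₂]
      constructor
      · rintro ⟨hx, hxB | ⟨k, hk, hxk⟩⟩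
        · exact Or.inl ⟨hx, hxB⟩
        · exact Or.inr ⟨k, mKl.2 ⟨hk, ⟨x, hxk, hx⟩⟩, hxk, hx⟩
      · rintro (hx | ⟨k, hk, hx1, hx2⟩)
        · exact ⟨hx.1, Or.inl hx.2⟩
        · exact ⟨hx2, Or.inr ⟨k, (mKl.1 hk).1, hx1⟩⟩)
    (fun l hl => by
      ext x
      rw [mem_inter_iff, mX₂', mem_union, mem_iUnion₂]
      constructor
      · rintro ⟨hx, hxB | ⟨k, hk, hxk⟩⟩
        · exact Or.inl ⟨hx, hxB⟩
        · exact Or.inr ⟨k, mKl.2 ⟨hk, (hne k hk l hl).2 ⟨x, hxk, hx⟩⟩, hxk, hx⟩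
      · rintro (hx | ⟨k, hk, hx1, hx2⟩)
        · exact ⟨hx.1, Or.inl hx.2⟩
        · exact ⟨hx2, Or.inr ⟨k, (mKl.1 hk).1, hx1⟩⟩)
    (fun k hk k' hk' hkk x hx => absurd hx.2 (Set.disjoint_left.1 (h.hTd k hk k' hk' hkk) hx.1))
    (fun k hk k' hk' hkk x hx => absurd hx.2 (Set.disjoint_left.1 (h'.hTd k hk k' hk' hkk) hx.1))
    Φ₂ (fun l hl => by
      rw [im2 (fun x hx => mX₁.2 (Or.inl hx.2)), im1 inter_subset_right, hT l hl])
    (fun l hl k hk => by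
      have hk' := mKl.1 hk
      have hsub : S k ∩ T l ⊆ X₁ := fun x hx =>
        mX₁.2 (Or.inr ⟨⟨(⟨k, hk'.1⟩, ⟨l, hl⟩), hk'.2⟩, hx⟩)
      rw [im2 hsub]
      exact e1a ⟨(⟨k, hk'.1⟩, ⟨l, hl⟩), hk'.2⟩)
  have eG : X₂ ∪ ⋃ l ∈ L, T l = skel B K S L T := by
    ext x
    rw [mem_union, mX₂, mem_skel, mem_iUnion₂, or_assoc]
    simp only [exists_prop]
  have eG' : X₂' ∪ ⋃ l ∈ L, T' l = skel B' K S' L T' := by
    ext x
    rw [mem_union, mX₂', mem_skel, mem_iUnion₂, or_assoc]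
    simp only [exists_prop]
  have im3 : ∀ {X : Set E}, X ⊆ X₂ → Φ₃.toFun '' X = Φ₂.toFun '' X := fun hX =>
    (e3.mono hX).image_eq
  have jB : Φ₃.toFun '' B = B' := by
    rw [im3 (fun x hx => mX₂.2 (Or.inl hx)), im2 (fun x hx => mX₁.2 (Or.inl hx)), iB]
  have jS : ∀ k ∈ K, Φ₃.toFun '' S k = S' k := fun k hk => by
    rw [im3 (fun x hx => mX₂.2 (Or.inr ⟨k, hk, hx⟩)), e2S k hk]
  obtain ⟨Φ, hΦ⟩ := exists_extend_two hP2 hP2' hP1 hP1' h h' hx eG eG' Φ₃ jB jS e3T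
  have im4 : ∀ {X : Set E}, X ⊆ X₂ ∪ ⋃ l ∈ L, T l → Φ.toFun '' X = Φ₃.toFun '' X := fun hX =>
    (hΦ.mono hX).image_eq
  refine ⟨Φ, ?_, ?_, ?_⟩
  · intro x hx
    rw [hΦ (Or.inl (mX₂.2 (Or.inl hx))), e3 (mX₂.2 (Or.inl hx)), e2 (mX₁.2 (Or.inl hx)), e1 hx]
  · intro k hk
    rw [im4 (fun x hx => Or.inl (mX₂.2 (Or.inr ⟨k, hk, hx⟩))), jS k hk]
  · intro l hl
    rw [im4 (fun x hx => Or.inr (mem_iUnion₂.2 ⟨l, hl, hx⟩)), e3T l hl]

end P073.H341
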